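import Crest.Agent.R163.Defs

/-! Row 163: definitions for the antiferromagnetic three-state channel. -/

set_option autoImplicit false

namespace Crest.Agent.R163

universe u

noncomputable def Evec : Vec 3 := ![3 / 2, 3 / 2, 0]
noncomputable def Vvec : Vec 3 := ![3, 0, 0]
noncomputable def Gvec : Vec 3 := ![3 / 2, 3 / 4, 3 / 4]
noncomputable def rayv (t : ℝ) : Vec 3 := ![1 + 2 * t, 1 - t, 1 - t]
noncomputable def edgev (δ : ℝ) : Vec 3 := ![3 * (1 + δ) / 2, 3 * (1 - δ) / 2, 0]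

/-- domination by the erasure mixture `(1-T)·null + (T-v)·E + v·V` -/
def DomEC (P : Ex.{u} 3) (T v : ℝ) : Prop :=
  ∀ h ν : Vec 3, Test h ν → P.E (Ft h ν) ≤
    (1 - T) * Ft h ν 1 + (T - v) * symv (Ft h ν) Evec + v * symv (Ft h ν) Vvec

noncomputable def phiT (x : Vec 3) : ℝ := x 0 * x 1 * x 2 / sm x ^ 2
noncomputable def phiV (x : Vec 3) : ℝ :=
  4 / 9 * (x 0 * x 1 + x 0 * x 2 + x 1 * x 2) / sm x - x 0 * x 1 * x 2 / (3 * sm x ^ 2)

/-- weights and points of the mixture `(1-a-b)·null + a·E + b·G` -/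
noncomputable def wEG (a b : ℝ) : Fin 3 → ℝ := ![1 - a - b, a, b]
noncomputable def aEG : Fin 3 → Vec 3 := ![1, Evec, Gvec]

noncomputable def muE (l T v : ℝ) : ℝ := 4 / 3 * (1 + 4 * l) * v + 1 / 3 * (1 - 2 * l) * (T - v)
noncomputable def muG (l T v : ℝ) : ℝ := 32 / 3 * (1 - 2 * l) * v + 8 / 3 * (1 + l) * (T - v)

/-- terms `(c, α, β)` standing for `c * f (α * a + β * b)` -/
def termsT : List (ℚ × ℚ × ℚ) :=
  [(170916763 / 1572864000, 1, 1 / 2), (59244619 / 78643200, 1, 1 / 8), (31 / 250, 1, 1 / 16),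
   (7 / 500, 1, 0), (-1 / 4194304, 1, -1)]

def termsV : List (ℚ × ℚ × ℚ) :=
  [(2 * (56160977 / 2359296000), 1 / 2, 1 / 2), (2 * (152585317 / 589824000), 1 / 2, 1 / 8),
   (2 * (1251 / 2000), 1 / 2, 1 / 16), (2 * (23 / 250), 1 / 2, 0),
   (-2 / 2097152, 1 / 2, -1),
   (-43273519 / 589824000, 1, 1 / 2), (-103754651 / 147456000, 1, 1 / 8),
   (-69 / 400, 1, 1 / 16), (-101 / 2000, 1, 0), (-1 / 524288, 1, -1)]

noncomputable def low (L : List (ℚ × ℚ × ℚ)) (f : ℝ → ℝ) (a b : ℝ) : ℝ :=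
  (L.map (fun t => (t.1 : ℝ) * f ((t.2.1 : ℝ) * a + (t.2.2 : ℝ) * b))).sum

noncomputable def fReg (d : ℕ) (s : ℝ) : ℝ := (max 0 (1 - s / d)) ^ d
noncomputable def fPoi (s : ℝ) : ℝ := Real.exp (-s)

/-- the two-dimensional monotone dynamical system; `D n T v` means that the depth-`n`
experiment is dominated by the erasure mixture with parameters `T, v`. -/
structure Sys (l : ℝ) (f : ℝ → ℝ) (D : ℕ → ℝ → ℝ → Prop) : Prop where
  mono : ∀ n T v T' v', D n T v → T ≤ T' → v ≤ v' → D n T' v'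
  step : ∀ n T v T' v', 0 ≤ v → v ≤ T → T ≤ 1 → D n T v →
    (1 - low termsT f (muE l T v) (muG l T v) ≤ T' ∨ 1 ≤ T') →
    (1 - low termsV f (muE l T v) (muG l T v) ≤ v' ∨ T' ≤ v') → D (n + 1) T' v'

/-- the conclusion: the parameters become arbitrarily small -/
def Dies (D : ℕ → ℝ → ℝ → Prop) : Prop := ∀ η : ℝ, 0 < η → ∃ N, ∀ n, N ≤ n → D n η η

/-! ### edge nodes -/

noncomputable def mx (x : Vec 3) : ℝ := max (x 0) (max (x 1) (x 2))
noncomputable def mn (x : Vec 3) : ℝ := min (x 0) (min (x 1) (x 2))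
noncomputable def md (x : Vec 3) : ℝ := x 0 + x 1 + x 2 - mx x - mn x
noncomputable def massP (x : Vec 3) : ℝ := (sm x - mn x) ^ 3 * mx x / (sm x ^ 2 * (mx x - mn x))
noncomputable def massM (x : Vec 3) : ℝ := (mx x - sm x) ^ 3 * mn x / (sm x ^ 2 * (mx x - mn x))
noncomputable def etaP (x : Vec 3) : ℝ := ((mx x - md x) / (3 * (sm x - mn x))) ^ 2
noncomputable def etaM (x : Vec 3) : ℝ := ((md x - mn x) / (3 * (mx x - sm x))) ^ 2
noncomputable def psi (δ : ℕ → ℝ) (j : ℕ) (η : ℝ) : ℝ :=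
  max 0 (min 1 ((η - δ j ^ 2) / (δ (j + 1) ^ 2 - δ j ^ 2)))

/-- tail masses of the upgrade of the point `x` to the edge nodes `δ 0 < δ 1 < …` -/
noncomputable def Tail (δ : ℕ → ℝ) : ℕ → Vec 3 → ℝ
  | 0, x => massP x + massM x
  | j + 1, x => massP x * psi δ j (etaP x) + massM x * psi δ j (etaM x)

theorem Tail_zero (δ : ℕ → ℝ) (x : Vec 3) : Tail δ 0 x = massP x + massM x := rfl

theorem Tail_succ (δ : ℕ → ℝ) (j : ℕ) (x : Vec 3) :
    Tail δ (j + 1) x = massP x * psi δ j (etaP x) + massM x * psi δ j (etaM x) := rfl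

def Nodes (m : ℕ) (δ : ℕ → ℝ) : Prop := δ 0 = 0 ∧ δ m = 1 ∧ ∀ j, j < m → δ j < δ (j + 1)

def DomN (P : Ex.{u} 3) (m : ℕ) (δ t : ℕ → ℝ) : Prop :=
  ∀ h ν : Vec 3, Test h ν → P.E (Ft h ν) ≤
    Ft h ν 1 + t 0 * (symv (Ft h ν) (edgev (δ 0)) - Ft h ν 1) +
      ∑ j ∈ Finset.range m,
        t (j + 1) * (symv (Ft h ν) (edgev (δ (j + 1))) - symv (Ft h ν) (edgev (δ j)))

def Tails (m : ℕ) (t : ℕ → ℝ) : Prop := t 0 ≤ 1 ∧ (∀ j, j < m → t (j + 1) ≤ t j) ∧ 0 ≤ t m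

/-- weights of the node mixture with tails `t` -/
noncomputable def wN (m : ℕ) (t : ℕ → ℝ) : Option (Fin (m + 1)) → ℝ
  | none => 1 - t 0
  | some j => t j - (if (j : ℕ) = m then 0 else t (j + 1))

/-- the nodes after the channel with parameter `lam` -/
noncomputable def aN (m : ℕ) (δ : ℕ → ℝ) (lam : ℝ) : Option (Fin (m + 1)) → Vec 3
  | none => 1
  | some j => Kv lam (edgev (δ j))

/-- the node dynamical system for `d` children and channel parameter `lam` -/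
structure NSys (d : ℕ) (lam : ℝ) (m : ℕ) (δ : ℕ → ℝ) (DN : ℕ → (ℕ → ℝ) → Prop) : Prop where
  start : DN 0 (fun _ => 1)
  step : ∀ n t t', Tails m t → DN n t →
    ((opMix (wN m t) (aN m δ lam))^[d] (Tail δ 0) 1 ≤ t' 0 ∨ 1 ≤ t' 0) →
    (∀ j, j < m → (opMix (wN m t) (aN m δ lam))^[d] (Tail δ (j + 1)) 1 ≤ t' (j + 1) ∨
      t' j ≤ t' (j + 1)) → DN (n + 1) t'

/-- the vertex mass of the erasure mixture dominating a node mixture -/
noncomputable def vOfTails (m : ℕ) (δ t : ℕ → ℝ) : ℝ :=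
  ∑ j ∈ Finset.range m, t (j + 1) * (δ (j + 1) ^ 2 - δ j ^ 2)

/-- nodes for `d = 4`: likelihood ratios `1, 2, 4, …, 64, ∞` -/
noncomputable def δ4 (j : ℕ) : ℝ := if j < 7 then ((2 : ℝ) ^ j - 1) / ((2 : ℝ) ^ j + 1) else 1

/-- nodes for `d = 5`: likelihood ratios `1, ∞` -/
noncomputable def δ5 (j : ℕ) : ℝ := if j = 0 then 0 else 1

end Crest.Agent.R163
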