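import Crest.Agent.R163.Upgrade

/-! Row 163: merging `n` copies of the `E/G` mixture. -/

set_option autoImplicit false

namespace Crest.Agent.R163

namespace EG

open Finset

/-- functions of three real variables -/
abbrev Fn := ℝ → ℝ → ℝ → ℝ

def D0 : Module.End ℝ Fn where
  toFun F := fun x y z => F (2 * x) y z
  map_add' _ _ := rfl
  map_smul' _ _ := rfl

def D1 : Module.End ℝ Fn where
  toFun F := fun x y z => F x (2 * y) z
  map_add' _ _ := rfl
  map_smul' _ _ := rfl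

def D2 : Module.End ℝ Fn where
  toFun F := fun x y z => F x y (2 * z)
  map_add' _ _ := rfl
  map_smul' _ _ := rfl

def Zs : Module.End ℝ Fn where
  toFun F := fun x y z => F 0 y z + F x 0 z + F x y 0
  map_add' F G := by funext x y z; simp only [Pi.add_apply]; ring
  map_smul' c F := by funext x y z; simp only [Pi.smul_apply, smul_eq_mul, RingHom.id_apply]; ring

noncomputable def Gop : Module.End ℝ Fn := (1 / 4 : ℝ) • (D0 + (D1 + D2))

noncomputable def Sop (a b : ℝ) : Module.End ℝ Fn := (1 - a - b) • 1 + (a / 2) • Zs + b • Gop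

theorem Zs_apply (F : Fn) (x y z : ℝ) : Zs F x y z = F 0 y z + F x 0 z + F x y 0 := rfl

theorem Gop_apply (F : Fn) (x y z : ℝ) :
    Gop F x y z = 1 / 4 * (F (2 * x) y z + (F x (2 * y) z + F x y (2 * z))) := rfl

theorem Sop_apply (a b : ℝ) (F : Fn) :
    Sop a b F = (1 - a - b) • F + (a / 2) • Zs F + b • Gop F := rfl

theorem D0_pow (i : ℕ) (F : Fn) (x y z : ℝ) : (D0 ^ i) F x y z = F (2 ^ i * x) y z := by
  induction i generalizing x with
  | zero => simp
  | succ i ih =>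
    rw [pow_succ', Module.End.mul_apply]
    change (D0 ^ i) F (2 * x) y z = _
    rw [ih]; congr 1; ring

theorem D1_pow (i : ℕ) (F : Fn) (x y z : ℝ) : (D1 ^ i) F x y z = F x (2 ^ i * y) z := by
  induction i generalizing y with
  | zero => simp
  | succ i ih =>
    rw [pow_succ', Module.End.mul_apply]
    change (D1 ^ i) F x (2 * y) z = _
    rw [ih]; congr 1; ring

theorem D2_pow (i : ℕ) (F : Fn) (x y z : ℝ) : (D2 ^ i) F x y z = F x y (2 ^ i * z) := by
  induction i generalizing z with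
  | zero => simp
  | succ i ih =>
    rw [pow_succ', Module.End.mul_apply]
    change (D2 ^ i) F x y (2 * z) = _
    rw [ih]; congr 1; ring

theorem Gop_pow (k : ℕ) (F : Fn) :
    (Gop ^ k) F 1 1 1 = (1 / 4) ^ k * ∑ i ∈ range (k + 1), ∑ j ∈ range (k - i + 1),
      ((k.choose i : ℝ) * ((k - i).choose j : ℝ)) * F (2 ^ i) (2 ^ j) (2 ^ (k - i - j)) := by
  have h12 : Commute D1 D2 := LinearMap.ext fun _ => rfl
  have h0 : Commute D0 (D1 + D2) := LinearMap.ext fun _ => rfl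
  unfold Gop
  rw [smul_pow, h0.add_pow]
  simp only [h12.add_pow, LinearMap.smul_apply, LinearMap.coe_sum, Finset.sum_apply,
    Module.End.mul_apply, Module.End.natCast_apply, Pi.smul_apply, smul_eq_mul, D0_pow, D1_pow,
    D2_pow, mul_one, nsmul_eq_mul, Pi.mul_apply, Pi.natCast_apply]
  congr 1
  refine sum_congr rfl fun i _ => sum_congr rfl fun j _ => ?_
  ring

theorem Gop_pow_mono {F G : Fn} (h : ∀ x y z, 0 ≤ x → 0 ≤ y → 0 ≤ z → F x y z ≤ G x y z) (k : ℕ) :
    (Gop ^ k) F 1 1 1 ≤ (Gop ^ k) G 1 1 1 := by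
  rw [Gop_pow, Gop_pow]
  refine mul_le_mul_of_nonneg_left (sum_le_sum fun i _ => sum_le_sum fun j _ => ?_)
    (by positivity)
  exact mul_le_mul_of_nonneg_left (h _ _ _ (by positivity) (by positivity) (by positivity))
    (by positivity)

theorem Gop_pow_nonneg {F : Fn} (h : ∀ x y z, 0 ≤ x → 0 ≤ y → 0 ≤ z → 0 ≤ F x y z) (k : ℕ) :
    0 ≤ (Gop ^ k) F 1 1 1 := by
  have := Gop_pow_mono (F := 0) (G := F) h k
  simpa using this

theorem Gop_pow_sum (c : ℝ) (k : ℕ) :
    (Gop ^ k) (fun x y z => c * (x + y + z)) = fun x y z => c * (x + y + z) := by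
  induction k with
  | zero => rfl
  | succ k ih =>
    rw [pow_succ', Module.End.mul_apply, ih]
    funext x y z
    rw [Gop_apply]; ring

theorem Zs_Gop (F : Fn) : Zs (Gop F) = Gop (Zs F) := by
  funext x y z
  simp only [Zs_apply, Gop_apply, mul_zero]
  ring

theorem Zs_Sop_pow {a b c : ℝ} {K : Fn} (hK : Zs K = c • K) (n : ℕ) :
    Zs ((Sop a b ^ n) K) = c • (Sop a b ^ n) K := by
  induction n with
  | zero => exact hK
  | succ n ih =>
    rw [pow_succ', Module.End.mul_apply, Sop_apply]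
    simp only [map_add, map_smul, Zs_Gop, ih]
    module

theorem main {a b c w : ℝ} {K : Fn} (hK : Zs K = c • K) (hw : w = 1 - a - b + a / 2 * c)
    (hw0 : 0 ≤ w) (hb : 0 ≤ b) (m : ℕ → ℕ → ℝ)
    (hm : ∀ n k, m (n + 1) k = w * m n k + b * m n (k + 1))
    (h0 : ∀ k, m 0 k ≤ (Gop ^ k) K 1 1 1) (n k : ℕ) :
    m n k ≤ (Gop ^ k) ((Sop a b ^ n) K) 1 1 1 := by
  induction n generalizing k with
  | zero => exact h0 k
  | succ n ih =>
    have e : (Sop a b ^ (n + 1)) K = w • (Sop a b ^ n) K + b • Gop ((Sop a b ^ n) K) := by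
      rw [pow_succ', Module.End.mul_apply, Sop_apply, Zs_Sop_pow hK, hw]
      module
    rw [hm, e, map_add, map_smul, map_smul, ← Module.End.mul_apply (Gop ^ k) Gop, ← pow_succ]
    simp only [Pi.add_apply, Pi.smul_apply, smul_eq_mul]
    exact add_le_add (mul_le_mul_of_nonneg_left (ih k) hw0)
      (mul_le_mul_of_nonneg_left (ih (k + 1)) hb)

/-! ### the bridge to `opMix` -/

def cur (F : Vec 3 → ℝ) : Fn := fun x y z => F ![x, y, z]

theorem nn3 {x y z : ℝ} (hx : 0 ≤ x) (hy : 0 ≤ y) (hz : 0 ≤ z) : NN (![x, y, z] : Vec 3) := by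
  intro i
  fin_cases i <;> simpa

theorem mul3 (x y z a b c : ℝ) :
    (![x, y, z] : Vec 3) * ![a, b, c] = ![x * a, y * b, z * c] := by
  funext i
  fin_cases i <;> simp

theorem hom3 {G : Vec 3 → ℝ} (hG : Good G) {t x y z x' y' z' : ℝ} (ht : 0 ≤ t) (hx : 0 ≤ x)
    (hy : 0 ≤ y) (hz : 0 ≤ z) (ex : x' = t * x) (ey : y' = t * y) (ez : z' = t * z) :
    G ![x', y', z'] = t * G ![x, y, z] := by
  rw [← hG.2 t _ ht (nn3 hx hy hz), ex, ey, ez]
  congr 1
  funext i
  fin_cases i <;> simp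

theorem opMix_eq (a b : ℝ) {G : Vec 3 → ℝ} (hG : Good G) {x y z : ℝ} (hx : 0 ≤ x) (hy : 0 ≤ y)
    (hz : 0 ≤ z) : opMix (wEG a b) aEG G ![x, y, z] = Sop a b (cur G) x y z := by
  have e1 : G ![x * (3 / 2), y * (3 / 2), z * 0] = 3 / 2 * G ![x, y, 0] :=
    hom3 hG (by norm_num) hx hy le_rfl (by ring) (by ring) (by ring)
  have e2 : G ![x * (3 / 2), y * 0, z * (3 / 2)] = 3 / 2 * G ![x, 0, z] :=
    hom3 hG (by norm_num) hx le_rfl hz (by ring) (by ring) (by ring)
  have e3 : G ![x * 0, y * (3 / 2), z * (3 / 2)] = 3 / 2 * G ![0, y, z] :=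
    hom3 hG (by norm_num) le_rfl hy hz (by ring) (by ring) (by ring)
  have e4 : G ![x * (3 / 2), y * (3 / 4), z * (3 / 4)] = 3 / 4 * G ![2 * x, y, z] :=
    hom3 hG (by norm_num) (by positivity) hy hz (by ring) (by ring) (by ring)
  have e5 : G ![x * (3 / 4), y * (3 / 2), z * (3 / 4)] = 3 / 4 * G ![x, 2 * y, z] :=
    hom3 hG (by norm_num) hx (by positivity) hz (by ring) (by ring) (by ring)
  have e6 : G ![x * (3 / 4), y * (3 / 4), z * (3 / 2)] = 3 / 4 * G ![x, y, 2 * z] :=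
    hom3 hG (by norm_num) hx hy (by positivity) (by ring) (by ring) (by ring)
  have a0 : aEG 0 = 1 := rfl
  have a1 : aEG 1 = Evec := rfl
  have a2 : aEG 2 = Gvec := rfl
  have w0 : wEG a b 0 = 1 - a - b := rfl
  have w1 : wEG a b 1 = a := rfl
  have w2 : wEG a b 2 = b := rfl
  have E0 : Evec 0 = 3 / 2 := rfl
  have E1 : Evec 1 = 3 / 2 := rfl
  have E2 : Evec 2 = 0 := rfl
  have G0 : Gvec 0 = 3 / 2 := rfl
  have G1 : Gvec 1 = 3 / 4 := rfl
  have G2 : Gvec 2 = 3 / 4 := rfl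
  unfold opMix
  rw [Fin.sum_univ_three, a0, a1, a2, w0, w1, w2, symv_three, symv_three, symv_three]
  simp only [E0, E1, E2, G0, G1, G2, mul3, Pi.one_apply, mul_one, e1, e2, e3, e4, e5, e6,
    Sop_apply, Pi.add_apply, Pi.smul_apply, smul_eq_mul, Zs_apply, Gop_apply, cur]
  ring

theorem good_iter {a b : ℝ} (h : MixOK (wEG a b) aEG) {F : Vec 3 → ℝ} (hF : Good F) (n : ℕ) :
    Good ((opMix (wEG a b) aEG)^[n] F) := by
  induction n with
  | zero => exact hF
  | succ n ih => rw [Function.iterate_succ_apply']; exact Good.opMix h ih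

theorem iter_eq {a b : ℝ} (h : MixOK (wEG a b) aEG) {F : Vec 3 → ℝ} (hF : Good F) (n : ℕ)
    {x y z : ℝ} (hx : 0 ≤ x) (hy : 0 ≤ y) (hz : 0 ≤ z) :
    (opMix (wEG a b) aEG)^[n] F ![x, y, z] = (Sop a b ^ n) (cur F) x y z := by
  induction n generalizing x y z with
  | zero => rfl
  | succ n ih =>
    rw [Function.iterate_succ_apply', opMix_eq a b (good_iter h hF n) hx hy hz, pow_succ',
      Module.End.mul_apply]
    have h2x : 0 ≤ 2 * x := by positivity
    have h2y : 0 ≤ 2 * y := by positivity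
    have h2z : 0 ≤ 2 * z := by positivity
    simp only [Sop_apply, Pi.add_apply, Pi.smul_apply, smul_eq_mul, Zs_apply, Gop_apply, cur]
    rw [ih hx hy hz, ih le_rfl hy hz, ih hx le_rfl hz, ih hx hy le_rfl, ih h2x hy hz, ih hx h2y hz,
      ih hx hy h2z]

theorem E_eq {a b : ℝ} (h : MixOK (wEG a b) aEG) {F : Vec 3 → ℝ} (hF : Good F) (n : ℕ) :
    ((symMix _ _ h).pow n).E F = (Sop a b ^ n) (cur F) 1 1 1 := by
  rw [E_pow_symMix h hF, ← iter_eq h hF n zero_le_one zero_le_one zero_le_one]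
  have : (1 : Vec 3) = ![1, 1, 1] := by
    funext i
    fin_cases i <;> rfl
  rw [this]

/-! ### tables -/

def ch (n k : ℕ) : ℕ := n.descFactorial k / k.factorial

theorem ch_eq (n k : ℕ) : ch n k = n.choose k := (Nat.choose_eq_descFactorial_div_factorial n k).symm

def tab (f : ℚ → ℚ → ℚ → ℚ) (k : ℕ) : ℚ :=
  (1 / 4) ^ k * ∑ i ∈ range (k + 1), ∑ j ∈ range (k - i + 1),
    ((ch k i : ℚ) * (ch (k - i) j : ℚ)) * f (2 ^ i) (2 ^ j) (2 ^ (k - i - j))

theorem tab_cast (f : ℚ → ℚ → ℚ → ℚ) (F : Fn) (h : ∀ x y z : ℚ, (f x y z : ℝ) = F x y z) (k : ℕ) :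
    (tab f k : ℝ) = (Gop ^ k) F 1 1 1 := by
  rw [Gop_pow, tab]
  push_cast
  simp only [h, ch_eq]
  push_cast
  rfl

section
variable {α : Type} [Field α]

def fT (x y z : α) : α := x * y * z / ((x + y + z) / 3) ^ 2
def fH (x y z : α) : α := 4 / 3 * (x * y / (x + y) + x * z / (x + z) + y * z / (y + z))
def fV (x y z : α) : α :=
  4 / 9 * (x * y + x * z + y * z) / ((x + y + z) / 3) - x * y * z / (3 * ((x + y + z) / 3) ^ 2)
def fU (x y z : α) : α := fV x y z - fH x y z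

def mix (c0 c1 c2 c3 c4 : α) (k : ℕ) : α :=
  c0 * (1 / 2) ^ k + c1 * (7 / 8) ^ k + c2 * (15 / 16) ^ k + c3 - c4 * 2 ^ k

def mT (k : ℕ) : α :=
  mix (170916763 / 1572864000) (59244619 / 78643200) (31 / 250) (7 / 500) (1 / 4194304) k
def mH (k : ℕ) : α :=
  mix (2 * (56160977 / 2359296000)) (2 * (152585317 / 589824000)) (2 * (1251 / 2000))
    (2 * (23 / 250)) (2 / 2097152) k
def mU (k : ℕ) : α :=
  mix (-43273519 / 589824000) (-103754651 / 147456000) (-69 / 400) (-101 / 2000) (1 / 524288) k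

end

theorem tT : ∀ k < 20, (mT k : ℚ) ≤ tab fT k := by decide +kernel
theorem tH : ∀ k < 20, (mH k : ℚ) ≤ tab fH k := by decide +kernel
theorem tU : ∀ k < 20, (mU k : ℚ) ≤ tab fU k := by decide +kernel

theorem pow_bounds {k : ℕ} (hk : 20 ≤ k) :
    (0 : ℝ) ≤ (1 / 2) ^ k ∧ (1 / 2 : ℝ) ^ k ≤ 1 / 1000 ∧ (0 : ℝ) ≤ (7 / 8) ^ k ∧
      (7 / 8 : ℝ) ^ k ≤ 1 / 10 ∧ (0 : ℝ) ≤ (15 / 16) ^ k ∧ (15 / 16 : ℝ) ^ k ≤ 3 / 10 ∧
      (1048576 : ℝ) ≤ 2 ^ k := by
  refine ⟨by positivity, ?_, by positivity, ?_, by positivity, ?_, ?_⟩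
  · exact (pow_le_pow_of_le_one (by norm_num) (by norm_num) hk).trans (by norm_num)
  · exact (pow_le_pow_of_le_one (by norm_num) (by norm_num) hk).trans (by norm_num)
  · exact (pow_le_pow_of_le_one (by norm_num) (by norm_num) hk).trans (by norm_num)
  · exact le_trans (by norm_num) (pow_le_pow_right₀ (by norm_num) hk)

theorem fH_le {x y z : ℝ} (hx : 0 ≤ x) (hy : 0 ≤ y) (hz : 0 ≤ z) :
    fH x y z ≤ 2 / 3 * (x + y + z) := by
  have key : ∀ u v : ℝ, 0 ≤ u → 0 ≤ v → u * v / (u + v) ≤ (u + v) / 4 := by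
    intro u v hu hv
    apply div_le_of_le_mul₀ (by positivity) (by positivity)
    nlinarith [sq_nonneg (u - v)]
  have h1 := key x y hx hy
  have h2 := key x z hx hz
  have h3 := key y z hy hz
  unfold fH
  linarith

theorem fV_nonneg {x y z : ℝ} (hx : 0 ≤ x) (hy : 0 ≤ y) (hz : 0 ≤ z) : 0 ≤ fV x y z := by
  unfold fV
  rcases (show 0 ≤ x + y + z by positivity).eq_or_lt with h | h
  · rw [← h]; simp
  · have e : 4 / 9 * (x * y + x * z + y * z) / ((x + y + z) / 3)
        - x * y * z / (3 * ((x + y + z) / 3) ^ 2)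
        = (4 * (x * y + x * z + y * z) * (x + y + z) - 9 * (x * y * z)) / (3 * (x + y + z) ^ 2) := by
      field_simp
      ring
    rw [e]
    apply div_nonneg _ (by positivity)
    have h1 : 0 ≤ x * y * z := by positivity
    have h2 : 0 ≤ x * x * y + x * x * z + y * y * x + y * y * z + z * z * x + z * z * y := by
      positivity
    nlinarith

theorem mT_le (k : ℕ) : mT k ≤ (Gop ^ k) fT 1 1 1 := by
  rcases lt_or_ge k 20 with hk | hk
  · rw [← tab_cast fT fT (fun x y z => by simp [fT])]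
    have : ((mT k : ℚ) : ℝ) = mT k := by simp [mT, mix]
    rw [← this]
    exact_mod_cast tT k hk
  · refine le_trans ?_ (Gop_pow_nonneg (fun x y z hx hy hz => by unfold fT; positivity) k)
    obtain ⟨h1, h2, h3, h4, h5, h6, h7⟩ := pow_bounds hk
    unfold mT mix
    linarith

theorem mH_le (k : ℕ) : mH k ≤ (Gop ^ k) fH 1 1 1 := by
  rcases lt_or_ge k 20 with hk | hk
  · rw [← tab_cast fH fH (fun x y z => by simp [fH])]
    have : ((mH k : ℚ) : ℝ) = mH k := by simp [mH, mix]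
    rw [← this]
    exact_mod_cast tH k hk
  · refine le_trans ?_ (Gop_pow_nonneg (fun x y z hx hy hz => by unfold fH; positivity) k)
    obtain ⟨h1, h2, h3, h4, h5, h6, h7⟩ := pow_bounds hk
    unfold mH mix
    linarith

theorem mU_le (k : ℕ) : mU k ≤ (Gop ^ k) fU 1 1 1 := by
  rcases lt_or_ge k 20 with hk | hk
  · rw [← tab_cast fU fU (fun x y z => by simp [fU, fV, fH])]
    have : ((mU k : ℚ) : ℝ) = mU k := by simp [mU, mix]
    rw [← this]
    exact_mod_cast tU k hk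
  · have h := Gop_pow_mono (F := fun x y z => (-2 / 3) * (x + y + z)) (G := fU)
      (fun x y z hx hy hz => by
        have h1 := fH_le hx hy hz
        have h2 := fV_nonneg hx hy hz
        unfold fU
        linarith) k
    rw [Gop_pow_sum] at h
    refine le_trans ?_ h
    obtain ⟨h1, h2, h3, h4, h5, h6, h7⟩ := pow_bounds hk
    unfold mU mix
    linarith

theorem Zs_fT : Zs fT = (0 : ℝ) • (fT : Fn) := by
  funext x y z
  simp [Zs_apply, fT]

theorem Zs_fH : Zs fH = (1 : ℝ) • (fH : Fn) := by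
  funext x y z
  simp only [Zs_apply, fH, one_smul, zero_mul, mul_zero, zero_div, zero_add, add_zero]
  ring

theorem Zs_fU : Zs fU = (0 : ℝ) • (fU : Fn) := by
  funext x y z
  simp only [Zs_apply, fU, fV, fH, zero_smul, zero_mul, mul_zero, zero_div, zero_add, add_zero,
    sub_zero, Pi.zero_apply, div_div_eq_mul_div]
  ring

theorem mix_le {a b c w c0 c1 c2 c3 c4 : ℝ} {K : Fn} (hK : Zs K = c • K)
    (hw : w = 1 - a - b + a / 2 * c) (hw0 : 0 ≤ w) (hb : 0 ≤ b)
    (h0 : ∀ k, mix c0 c1 c2 c3 c4 k ≤ (Gop ^ k) K 1 1 1) (n : ℕ) :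
    c0 * (w + 1 / 2 * b) ^ n + c1 * (w + 7 / 8 * b) ^ n + c2 * (w + 15 / 16 * b) ^ n
      + c3 * (w + b) ^ n - c4 * (w + 2 * b) ^ n ≤ (Sop a b ^ n) K 1 1 1 := by
  have := main hK hw hw0 hb (fun n k => mix (c0 * (w + 1 / 2 * b) ^ n) (c1 * (w + 7 / 8 * b) ^ n)
    (c2 * (w + 15 / 16 * b) ^ n) (c3 * (w + b) ^ n) (c4 * (w + 2 * b) ^ n) k)
    (fun n k => by unfold mix; ring) (fun k => by simpa using h0 k) n 0
  simpa [mix] using this

theorem cur_phiT : cur phiT = fT := by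
  funext x y z
  simp [cur, phiT, fT, sm, Fin.sum_univ_three]

theorem cur_phiV : cur phiV = fH + fU := by
  funext x y z
  simp [cur, phiV, fU, fV, sm, Fin.sum_univ_three]

end EG

theorem pow_EG_phiT {a b : ℝ} (ha : 0 ≤ a) (hb : 0 ≤ b) (hab : a + b ≤ 1) (n : ℕ) :
    low termsT (fun s => (1 - s) ^ n) a b ≤
      ((symMix _ _ (mixOK_EG ha hb hab)).pow n).E phiT := by
  rw [EG.E_eq _ good_phiT, EG.cur_phiT]
  refine le_trans (le_of_eq ?_) (EG.mix_le (a := a) (w := 1 - a - b) EG.Zs_fT (by ring)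
    (by linarith) hb EG.mT_le n)
  simp only [low, termsT, List.map_cons, List.map_nil, List.sum_cons, List.sum_nil]
  push_cast
  rw [show 1 - (1 * a + 1 / 2 * b) = 1 - a - b + 1 / 2 * b by ring,
    show 1 - (1 * a + 1 / 8 * b) = 1 - a - b + 7 / 8 * b by ring,
    show 1 - (1 * a + 1 / 16 * b) = 1 - a - b + 15 / 16 * b by ring,
    show 1 - (1 * a + 0 * b) = 1 - a - b + b by ring,
    show 1 - (1 * a + -1 * b) = 1 - a - b + 2 * b by ring]
  ring

theorem pow_EG_phiV {a b : ℝ} (ha : 0 ≤ a) (hb : 0 ≤ b) (hab : a + b ≤ 1) (n : ℕ) :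
    low termsV (fun s => (1 - s) ^ n) a b ≤
      ((symMix _ _ (mixOK_EG ha hb hab)).pow n).E phiV := by
  rw [EG.E_eq _ good_phiV, EG.cur_phiV, map_add]
  simp only [Pi.add_apply]
  refine le_trans (le_of_eq ?_) (add_le_add
    (EG.mix_le (a := a) (w := 1 - a / 2 - b) EG.Zs_fH (by ring) (by linarith) hb EG.mH_le n)
    (EG.mix_le (a := a) (w := 1 - a - b) EG.Zs_fU (by ring) (by linarith) hb EG.mU_le n))
  simp only [low, termsV, List.map_cons, List.map_nil, List.sum_cons, List.sum_nil]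
  push_cast
  rw [show 1 - (1 * a + 1 / 2 * b) = 1 - a - b + 1 / 2 * b by ring,
    show 1 - (1 * a + 1 / 8 * b) = 1 - a - b + 7 / 8 * b by ring,
    show 1 - (1 * a + 1 / 16 * b) = 1 - a - b + 15 / 16 * b by ring,
    show 1 - (1 * a + 0 * b) = 1 - a - b + b by ring,
    show 1 - (1 * a + -1 * b) = 1 - a - b + 2 * b by ring,
    show 1 - (1 / 2 * a + 1 / 2 * b) = 1 - a / 2 - b + 1 / 2 * b by ring,
    show 1 - (1 / 2 * a + 1 / 8 * b) = 1 - a / 2 - b + 7 / 8 * b by ring,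
    show 1 - (1 / 2 * a + 1 / 16 * b) = 1 - a / 2 - b + 15 / 16 * b by ring,
    show 1 - (1 / 2 * a + 0 * b) = 1 - a / 2 - b + b by ring,
    show 1 - (1 / 2 * a + -1 * b) = 1 - a / 2 - b + 2 * b by ring]
  ring

end Crest.Agent.R163
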