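import Crest.Agent.R163.NodeTb

/-! Row 163: trajectory, part 0. -/

set_option autoImplicit false
set_option maxRecDepth 100000

namespace Crest.Agent.R163.NE

theorem run4_0 : chkTraj cSw cB 7 cD4 tb4 [
    [(nat_lit 1000000000), (nat_lit 875000009), (nat_lit 875000002), (nat_lit 875000002), (nat_lit 875000002), (nat_lit 875000002), (nat_lit 875000002), (nat_lit 875000002)],
    [(nat_lit 999863731), (nat_lit 892996385), (nat_lit 813847989), (nat_lit 801024214), (nat_lit 800032407), (nat_lit 800032407), (nat_lit 800032407), (nat_lit 800032407)],
    [(nat_lit 999296479), (nat_lit 891893055), (nat_lit 796180107), (nat_lit 757595505), (nat_lit 745738260), (nat_lit 742993794), (nat_lit 742524399), (nat_lit 742472856)],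
    [(nat_lit 998472438), (nat_lit 889783148), (nat_lit 787331030), (nat_lit 732746453), (nat_lit 707531489), (nat_lit 697236166), (nat_lit 693537790), (nat_lit 692152579)],
    [(nat_lit 997541562), (nat_lit 887442401), (nat_lit 781289149), (nat_lit 716843310), (nat_lit 680561150), (nat_lit 661143035), (nat_lit 651394084), (nat_lit 645454071)],
    [(nat_lit 996569348), (nat_lit 885078285), (nat_lit 776391088), (nat_lit 705365870), (nat_lit 660639063), (nat_lit 632648597), (nat_lit 615572454), (nat_lit 601775648)],
    [(nat_lit 995580817), (nat_lit 882724068), (nat_lit 772041552), (nat_lit 696243108), (nat_lit 645047918), (nat_lit 609666781), (nat_lit 585184594), (nat_lit 561512065)],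
    [(nat_lit 994585068), (nat_lit 880378687), (nat_lit 767976160), (nat_lit 688461054), (nat_lit 632169306), (nat_lit 590577017), (nat_lit 559217007), (nat_lit 525065506)],
    [(nat_lit 993586286), (nat_lit 878040540), (nat_lit 764068227), (nat_lit 681492520), (nat_lit 621055230), (nat_lit 574258639), (nat_lit 536784651), (nat_lit 492554647)],
    [(nat_lit 992587928), (nat_lit 875714197), (nat_lit 760261195), (nat_lit 675056424), (nat_lit 611149687), (nat_lit 559970707), (nat_lit 517190735), (nat_lit 463827134)],
    [(nat_lit 991593710), (nat_lit 873408727), (nat_lit 756535988), (nat_lit 669003535), (nat_lit 602124457), (nat_lit 547227056), (nat_lit 499901959), (nat_lit 438556987)],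
    [(nat_lit 990607393), (nat_lit 871134510), (nat_lit 752891956), (nat_lit 663255844), (nat_lit 593782959), (nat_lit 535703915), (nat_lit 484508965), (nat_lit 416339494)],
    [(nat_lit 989632374), (nat_lit 868900887), (nat_lit 749335608), (nat_lit 657772607), (nat_lit 586003828), (nat_lit 525179157), (nat_lit 470693580), (nat_lit 396758553)],
    [(nat_lit 988671421), (nat_lit 866715071), (nat_lit 745874549), (nat_lit 652531366), (nat_lit 578708096), (nat_lit 515494329), (nat_lit 458205184), (nat_lit 379425932)],
    [(nat_lit 987726598), (nat_lit 864581935), (nat_lit 742514729), (nat_lit 647517784), (nat_lit 571840486), (nat_lit 506531466), (nat_lit 446844028), (nat_lit 363999456)]]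
    [(nat_lit 1000000000), (nat_lit 1000000000), (nat_lit 1000000000), (nat_lit 1000000000), (nat_lit 1000000000), (nat_lit 1000000000), (nat_lit 1000000000), (nat_lit 1000000000)] = true := by decide +kernel

theorem run4_1 : chkTraj cSw cB 7 cD4 tb4 [
    [(nat_lit 986799316), (nat_lit 862504290), (nat_lit 739259591), (nat_lit 642720593), (nat_lit 565359036), (nat_lit 498199064), (nat_lit 436449230), (nat_lit 350187790)],
    [(nat_lit 985890444), (nat_lit 860483320), (nat_lit 736110166), (nat_lit 638129346), (nat_lit 559229527), (nat_lit 490423575), (nat_lit 426889947), (nat_lit 337747875)],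
    [(nat_lit 985000423), (nat_lit 858519026), (nat_lit 733065533), (nat_lit 633733621), (nat_lit 553422580), (nat_lit 483144190), (nat_lit 418058755), (nat_lit 326479052)],
    [(nat_lit 984129375), (nat_lit 856610587), (nat_lit 730123349), (nat_lit 629522882), (nat_lit 547912173), (nat_lit 476309563), (nat_lit 409866633), (nat_lit 316216270)],
    [(nat_lit 983277193), (nat_lit 854756643), (nat_lit 727280323), (nat_lit 625486602), (nat_lit 542674878), (nat_lit 469875676), (nat_lit 402239141), (nat_lit 306823615)],
    [(nat_lit 982443601), (nat_lit 852955498), (nat_lit 724532591), (nat_lit 621614442), (nat_lit 537689456), (nat_lit 463804382), (nat_lit 395113486), (nat_lit 298188684)],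
    [(nat_lit 981628212), (nat_lit 851205260), (nat_lit 721875982), (nat_lit 617896413), (nat_lit 532936598), (nat_lit 458062358), (nat_lit 388436266), (nat_lit 290217935)],
    [(nat_lit 980830557), (nat_lit 849503937), (nat_lit 719306215), (nat_lit 614322990), (nat_lit 528398744), (nat_lit 452620320), (nat_lit 382161719), (nat_lit 282832955)],
    [(nat_lit 980050121), (nat_lit 847849503), (nat_lit 716819019), (nat_lit 610885176), (nat_lit 524059926), (nat_lit 447452410), (nat_lit 376250350), (nat_lit 275967518)],
    [(nat_lit 979286354), (nat_lit 846239941), (nat_lit 714410220), (nat_lit 607574534), (nat_lit 519905624), (nat_lit 442535696), (nat_lit 370667860), (nat_lit 269565267)],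
    [(nat_lit 978538692), (nat_lit 844673269), (nat_lit 712075789), (nat_lit 604383190), (nat_lit 515922627), (nat_lit 437849770), (nat_lit 365384280), (nat_lit 263577906)],
    [(nat_lit 977806562), (nat_lit 843147559), (nat_lit 709811871), (nat_lit 601303818), (nat_lit 512098912), (nat_lit 433376403), (nat_lit 360373291), (nat_lit 257963771)],
    [(nat_lit 977089394), (nat_lit 841660951), (nat_lit 707614799), (nat_lit 598329615), (nat_lit 508423524), (nat_lit 429099263), (nat_lit 355611663), (nat_lit 252686700)],
    [(nat_lit 976386624), (nat_lit 840211656), (nat_lit 705481096), (nat_lit 595454269), (nat_lit 504886468), (nat_lit 425003670), (nat_lit 351078801), (nat_lit 247715132)],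
    [(nat_lit 975697697), (nat_lit 838797960), (nat_lit 703407481), (nat_lit 592671924), (nat_lit 501478612), (nat_lit 421076392), (nat_lit 346756372), (nat_lit 243021381)]]
    [(nat_lit 987726598), (nat_lit 864581935), (nat_lit 742514729), (nat_lit 647517784), (nat_lit 571840486), (nat_lit 506531466), (nat_lit 446844028), (nat_lit 363999456)] = true := by decide +kernel

theorem run4_2 : chkTraj cSw cB 7 cD4 tb4 [
    [(nat_lit 975022074), (nat_lit 837418226), (nat_lit 701390856), (nat_lit 589977152), (nat_lit 498191598), (nat_lit 417305468), (nat_lit 342627992), (nat_lit 238581048)],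
    [(nat_lit 974359228), (nat_lit 836070893), (nat_lit 699428303), (nat_lit 587364914), (nat_lit 495017767), (nat_lit 413680055), (nat_lit 338678969), (nat_lit 234372537)],
    [(nat_lit 973708650), (nat_lit 834754475), (nat_lit 697517077), (nat_lit 584830529), (nat_lit 491950085), (nat_lit 410190300), (nat_lit 334896082), (nat_lit 230376658)],
    [(nat_lit 973069847), (nat_lit 833467558), (nat_lit 695654592), (nat_lit 582369650), (nat_lit 488982083), (nat_lit 406827228), (nat_lit 331267401), (nat_lit 226576295)],
    [(nat_lit 972442344), (nat_lit 832208799), (nat_lit 693838415), (nat_lit 579978231), (nat_lit 486107801), (nat_lit 403582644), (nat_lit 327782125), (nat_lit 222956133)],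
    [(nat_lit 971825682), (nat_lit 830976919), (nat_lit 692066256), (nat_lit 577652506), (nat_lit 483321738), (nat_lit 400449048), (nat_lit 324430451), (nat_lit 219502420)],
    [(nat_lit 971219421), (nat_lit 829770707), (nat_lit 690335959), (nat_lit 575388962), (nat_lit 480618811), (nat_lit 397419561), (nat_lit 321203461), (nat_lit 216202774)],
    [(nat_lit 970623136), (nat_lit 828589008), (nat_lit 688645493), (nat_lit 573184324), (nat_lit 477994312), (nat_lit 394487863), (nat_lit 318093016), (nat_lit 213046013)],
    [(nat_lit 970036419), (nat_lit 827430729), (nat_lit 686992943), (nat_lit 571035529), (nat_lit 475443877), (nat_lit 391648134), (nat_lit 315091678), (nat_lit 210022013)],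
    [(nat_lit 969458880), (nat_lit 826294827), (nat_lit 685376503), (nat_lit 568939716), (nat_lit 472963452), (nat_lit 388895003), (nat_lit 312192629), (nat_lit 207121584)],
    [(nat_lit 968890141), (nat_lit 825180314), (nat_lit 683794471), (nat_lit 566894204), (nat_lit 470549267), (nat_lit 386223510), (nat_lit 309389610), (nat_lit 204336364)],
    [(nat_lit 968329842), (nat_lit 824086249), (nat_lit 682245239), (nat_lit 564896480), (nat_lit 468197812), (nat_lit 383629061), (nat_lit 306676862), (nat_lit 201658728)],
    [(nat_lit 967777635), (nat_lit 823011739), (nat_lit 680727286), (nat_lit 562944189), (nat_lit 465905812), (nat_lit 381107397), (nat_lit 304049075), (nat_lit 199081705)],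
    [(nat_lit 967233187), (nat_lit 821955929), (nat_lit 679239175), (nat_lit 561035116), (nat_lit 463670209), (nat_lit 378654562), (nat_lit 301501349), (nat_lit 196598913)],
    [(nat_lit 966696178), (nat_lit 820918011), (nat_lit 677779546), (nat_lit 559167179), (nat_lit 461488143), (nat_lit 376266876), (nat_lit 299029147), (nat_lit 194204495)]]
    [(nat_lit 975697697), (nat_lit 838797960), (nat_lit 703407481), (nat_lit 592671924), (nat_lit 501478612), (nat_lit 421076392), (nat_lit 346756372), (nat_lit 243021381)] = true := by decide +kernel

theorem run4_3 : chkTraj cSw cB 7 cD4 tb4 [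
    [(nat_lit 966166299), (nat_lit 819897212), (nat_lit 676347111), (nat_lit 557338418), (nat_lit 459356938), (nat_lit 373940913), (nat_lit 296628267), (nat_lit 191893065)],
    [(nat_lit 965643256), (nat_lit 818892794), (nat_lit 674940649), (nat_lit 555546988), (nat_lit 457274082), (nat_lit 371673475), (nat_lit 294294810), (nat_lit 189659665)],
    [(nat_lit 965126762), (nat_lit 817904056), (nat_lit 673559003), (nat_lit 553791147), (nat_lit 455237220), (nat_lit 369461575), (nat_lit 292025149), (nat_lit 187499719)],
    [(nat_lit 964616546), (nat_lit 816930327), (nat_lit 672201072), (nat_lit 552069250), (nat_lit 453244139), (nat_lit 367302419), (nat_lit 289815911), (nat_lit 185408998)],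
    [(nat_lit 964112343), (nat_lit 815970968), (nat_lit 670865813), (nat_lit 550379745), (nat_lit 451292756), (nat_lit 365193392), (nat_lit 287663949), (nat_lit 183383588)],
    [(nat_lit 963613899), (nat_lit 815025366), (nat_lit 669552233), (nat_lit 548721161), (nat_lit 449381110), (nat_lit 363132039), (nat_lit 285566327), (nat_lit 181419860)],
    [(nat_lit 963120970), (nat_lit 814092937), (nat_lit 668259386), (nat_lit 547092106), (nat_lit 447507351), (nat_lit 361116058), (nat_lit 283520300), (nat_lit 179514447)],
    [(nat_lit 962633321), (nat_lit 813173121), (nat_lit 666986373), (nat_lit 545491262), (nat_lit 445669735), (nat_lit 359143282), (nat_lit 281523298), (nat_lit 177664215)],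
    [(nat_lit 962150725), (nat_lit 812265381), (nat_lit 665732337), (nat_lit 543917376), (nat_lit 443866613), (nat_lit 357211675), (nat_lit 279572913), (nat_lit 175866249)],
    [(nat_lit 961672961), (nat_lit 811369205), (nat_lit 664496459), (nat_lit 542369262), (nat_lit 442096425), (nat_lit 355319316), (nat_lit 277666887), (nat_lit 174117830)],
    [(nat_lit 961199819), (nat_lit 810484099), (nat_lit 663277959), (nat_lit 540845790), (nat_lit 440357695), (nat_lit 353464397), (nat_lit 275803098), (nat_lit 172416421)],
    [(nat_lit 960731093), (nat_lit 809609592), (nat_lit 662076091), (nat_lit 539345886), (nat_lit 438649025), (nat_lit 351645207), (nat_lit 273979551), (nat_lit 170759651)],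
    [(nat_lit 960266586), (nat_lit 808745229), (nat_lit 660890140), (nat_lit 537868528), (nat_lit 436969087), (nat_lit 349860132), (nat_lit 272194367), (nat_lit 169145300)],
    [(nat_lit 959806106), (nat_lit 807890575), (nat_lit 659719426), (nat_lit 536412740), (nat_lit 435316623), (nat_lit 348107644), (nat_lit 270445776), (nat_lit 167571289)],
    [(nat_lit 959349467), (nat_lit 807045209), (nat_lit 658563294), (nat_lit 534977595), (nat_lit 433690436), (nat_lit 346386297), (nat_lit 268732107), (nat_lit 166035670)]]
    [(nat_lit 966696178), (nat_lit 820918011), (nat_lit 677779546), (nat_lit 559167179), (nat_lit 461488143), (nat_lit 376266876), (nat_lit 299029147), (nat_lit 194204495)] = true := by decide +kernel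

theorem run4_4 : chkTraj cSw cB 7 cD4 tb4 [
    [(nat_lit 958896491), (nat_lit 806208729), (nat_lit 657421117), (nat_lit 533562205), (nat_lit 432089386), (nat_lit 344694719), (nat_lit 267051783), (nat_lit 164536610)],
    [(nat_lit 958447003), (nat_lit 805380746), (nat_lit 656292296), (nat_lit 532165722), (nat_lit 430512391), (nat_lit 343031609), (nat_lit 265403314), (nat_lit 163072390)],
    [(nat_lit 958000834), (nat_lit 804560885), (nat_lit 655176253), (nat_lit 530787337), (nat_lit 428958418), (nat_lit 341395732), (nat_lit 263785288), (nat_lit 161641391)],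
    [(nat_lit 957557819), (nat_lit 803748784), (nat_lit 654072434), (nat_lit 529426274), (nat_lit 427426482), (nat_lit 339785914), (nat_lit 262196370), (nat_lit 160242088)],
    [(nat_lit 957117798), (nat_lit 802944095), (nat_lit 652980307), (nat_lit 528081791), (nat_lit 425915643), (nat_lit 338201037), (nat_lit 260635292), (nat_lit 158873044)],
    [(nat_lit 956680618), (nat_lit 802146480), (nat_lit 651899358), (nat_lit 526753177), (nat_lit 424425003), (nat_lit 336640039), (nat_lit 259100853), (nat_lit 157532902)],
    [(nat_lit 956246125), (nat_lit 801355614), (nat_lit 650829094), (nat_lit 525439748), (nat_lit 422953705), (nat_lit 335101907), (nat_lit 257591911), (nat_lit 156220382)],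
    [(nat_lit 955814174), (nat_lit 800571181), (nat_lit 649769040), (nat_lit 524140848), (nat_lit 421500927), (nat_lit 333585673), (nat_lit 256107381), (nat_lit 154934272)],
    [(nat_lit 955384620), (nat_lit 799792876), (nat_lit 648718735), (nat_lit 522855849), (nat_lit 420065882), (nat_lit 332090415), (nat_lit 254646230), (nat_lit 153673426)],
    [(nat_lit 954957324), (nat_lit 799020403), (nat_lit 647677738), (nat_lit 521584145), (nat_lit 418647817), (nat_lit 330615252), (nat_lit 253207477), (nat_lit 152436759)],
    [(nat_lit 954532147), (nat_lit 798253474), (nat_lit 646645620), (nat_lit 520325152), (nat_lit 417246009), (nat_lit 329159340), (nat_lit 251790184), (nat_lit 151223242)],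
    [(nat_lit 954108957), (nat_lit 797491811), (nat_lit 645621966), (nat_lit 519078308), (nat_lit 415859763), (nat_lit 327721874), (nat_lit 250393458), (nat_lit 150031900)],
    [(nat_lit 953687623), (nat_lit 796735143), (nat_lit 644606377), (nat_lit 517843073), (nat_lit 414488411), (nat_lit 326302081), (nat_lit 249016446), (nat_lit 148861806)],
    [(nat_lit 953268015), (nat_lit 795983206), (nat_lit 643598464), (nat_lit 516618924), (nat_lit 413131314), (nat_lit 324899221), (nat_lit 247658334), (nat_lit 147712080)],
    [(nat_lit 952850008), (nat_lit 795235744), (nat_lit 642597851), (nat_lit 515405357), (nat_lit 411787853), (nat_lit 323512583), (nat_lit 246318343), (nat_lit 146581884)]]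
    [(nat_lit 959349467), (nat_lit 807045209), (nat_lit 658563294), (nat_lit 534977595), (nat_lit 433690436), (nat_lit 346386297), (nat_lit 268732107), (nat_lit 166035670)] = true := by decide +kernel

theorem run4_5 : chkTraj cSw cB 7 cD4 tb4 [
    [(nat_lit 952433479), (nat_lit 794492507), (nat_lit 641604173), (nat_lit 514201884), (nat_lit 410457434), (nat_lit 322141486), (nat_lit 244995728), (nat_lit 145470423)],
    [(nat_lit 952018306), (nat_lit 793753251), (nat_lit 640617075), (nat_lit 513008033), (nat_lit 409139484), (nat_lit 320785275), (nat_lit 243689776), (nat_lit 144376938)],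
    [(nat_lit 951604371), (nat_lit 793017739), (nat_lit 639636212), (nat_lit 511823347), (nat_lit 407833451), (nat_lit 319443321), (nat_lit 242399804), (nat_lit 143300705)],
    [(nat_lit 951191555), (nat_lit 792285738), (nat_lit 638661250), (nat_lit 510647386), (nat_lit 406538799), (nat_lit 318115016), (nat_lit 241125155), (nat_lit 142241036)],
    [(nat_lit 950779744), (nat_lit 791557022), (nat_lit 637691862), (nat_lit 509479718), (nat_lit 405255014), (nat_lit 316799779), (nat_lit 239865201), (nat_lit 141197272)],
    [(nat_lit 950368822), (nat_lit 790831367), (nat_lit 636727730), (nat_lit 508319929), (nat_lit 403981597), (nat_lit 315497046), (nat_lit 238619337), (nat_lit 140168785)],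
    [(nat_lit 949958679), (nat_lit 790108557), (nat_lit 635768544), (nat_lit 507167613), (nat_lit 402718065), (nat_lit 314206275), (nat_lit 237386983), (nat_lit 139154974)],
    [(nat_lit 949549202), (nat_lit 789388377), (nat_lit 634814001), (nat_lit 506022378), (nat_lit 401463950), (nat_lit 312926942), (nat_lit 236167581), (nat_lit 138155265)],
    [(nat_lit 949140283), (nat_lit 788670619), (nat_lit 633863804), (nat_lit 504883841), (nat_lit 400218800), (nat_lit 311658542), (nat_lit 234960592), (nat_lit 137169108)],
    [(nat_lit 948731811), (nat_lit 787955077), (nat_lit 632917665), (nat_lit 503751629), (nat_lit 398982173), (nat_lit 310400586), (nat_lit 233765499), (nat_lit 136195976)],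
    [(nat_lit 948323680), (nat_lit 787241548), (nat_lit 631975300), (nat_lit 502625378), (nat_lit 397753644), (nat_lit 309152600), (nat_lit 232581803), (nat_lit 135235365)],
    [(nat_lit 947915783), (nat_lit 786529834), (nat_lit 631036430), (nat_lit 501504735), (nat_lit 396532796), (nat_lit 307914126), (nat_lit 231409022), (nat_lit 134286791)],
    [(nat_lit 947508014), (nat_lit 785819737), (nat_lit 630100785), (nat_lit 500389353), (nat_lit 395319227), (nat_lit 306684721), (nat_lit 230246691), (nat_lit 133349789)],
    [(nat_lit 947100267), (nat_lit 785111066), (nat_lit 629168096), (nat_lit 499278894), (nat_lit 394112543), (nat_lit 305463954), (nat_lit 229094362), (nat_lit 132423914)],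
    [(nat_lit 946692437), (nat_lit 784403629), (nat_lit 628238101), (nat_lit 498173027), (nat_lit 392912360), (nat_lit 304251408), (nat_lit 227951600), (nat_lit 131508738)]]
    [(nat_lit 952850008), (nat_lit 795235744), (nat_lit 642597851), (nat_lit 515405357), (nat_lit 411787853), (nat_lit 323512583), (nat_lit 246318343), (nat_lit 146581884)] = true := by decide +kernel

theorem run5 : chkTraj cSw cB 1 cD5 tb5 [
    [(nat_lit 993393169), (nat_lit 770019865)],
    [(nat_lit 974307828), (nat_lit 658192286)],
    [(nat_lit 959287567), (nat_lit 587662091)],
    [(nat_lit 945679723), (nat_lit 537666532)],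
    [(nat_lit 933007005), (nat_lit 499642994)],
    [(nat_lit 921136504), (nat_lit 469322544)],
    [(nat_lit 909978218), (nat_lit 444307501)],
    [(nat_lit 899450930), (nat_lit 423133144)],
    [(nat_lit 889480661), (nat_lit 404847032)],
    [(nat_lit 880001594), (nat_lit 388799211)],
    [(nat_lit 870956152), (nat_lit 374528769)],
    [(nat_lit 862294403), (nat_lit 361698445)],
    [(nat_lit 853973193), (nat_lit 350054942)],
    [(nat_lit 845955226), (nat_lit 339403792)],
    [(nat_lit 838208216), (nat_lit 329592856)],
    [(nat_lit 830704133), (nat_lit 320501156)],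
    [(nat_lit 823418564), (nat_lit 312031114)],
    [(nat_lit 816330165), (nat_lit 304103035)],
    [(nat_lit 809420215), (nat_lit 296651101)],
    [(nat_lit 802672228), (nat_lit 289620414)],
    [(nat_lit 796071646), (nat_lit 282964775)],
    [(nat_lit 789605567), (nat_lit 276644992)],
    [(nat_lit 783262529), (nat_lit 270627575)],
    [(nat_lit 777032318), (nat_lit 264883715)],
    [(nat_lit 770905812), (nat_lit 259388483)],
    [(nat_lit 764874849), (nat_lit 254120185)],
    [(nat_lit 758932113), (nat_lit 249059847)],
    [(nat_lit 753071032), (nat_lit 244190796)],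
    [(nat_lit 747285699), (nat_lit 239498319)],
    [(nat_lit 741570801), (nat_lit 234969377)],
    [(nat_lit 735921551), (nat_lit 230592376)],
    [(nat_lit 730333640), (nat_lit 226356968)],
    [(nat_lit 724803185), (nat_lit 222253888)],
    [(nat_lit 719326692), (nat_lit 218274815)],
    [(nat_lit 713901014), (nat_lit 214412255)],
    [(nat_lit 708523323), (nat_lit 210659440)],
    [(nat_lit 703191081), (nat_lit 207010244)],
    [(nat_lit 697902014), (nat_lit 203459106)],
    [(nat_lit 692654090), (nat_lit 200000968)],
    [(nat_lit 687445498), (nat_lit 196631219)]]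
    [(nat_lit 1000000000), (nat_lit 1000000000)] = true := by decide +kernel


end Crest.Agent.R163.NE
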