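import Crest.Agent.R163.NodeTb

/-! Row 163: trajectory, part 1. -/

set_option autoImplicit false
set_option maxRecDepth 100000

namespace Crest.Agent.R163.NE

theorem run4_6 : chkTraj cSw cB 7 cD4 tb4 [
    [(nat_lit 946284420), (nat_lit 783697237), (nat_lit 627310540), (nat_lit 497071428), (nat_lit 391718307), (nat_lit 303046675), (nat_lit 226817985), (nat_lit 130603849)],
    [(nat_lit 945876113), (nat_lit 782991704), (nat_lit 626385161), (nat_lit 495973780), (nat_lit 390530017), (nat_lit 301849363), (nat_lit 225693110), (nat_lit 129708850)],
    [(nat_lit 945467411), (nat_lit 782286845), (nat_lit 625461711), (nat_lit 494879770), (nat_lit 389347136), (nat_lit 300659086), (nat_lit 224576582), (nat_lit 128823361)],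
    [(nat_lit 945058211), (nat_lit 781582478), (nat_lit 624539944), (nat_lit 493789093), (nat_lit 388169314), (nat_lit 299475472), (nat_lit 223468018), (nat_lit 127947015)],
    [(nat_lit 944648409), (nat_lit 780878421), (nat_lit 623619615), (nat_lit 492701448), (nat_lit 386996211), (nat_lit 298298156), (nat_lit 222367048), (nat_lit 127079457)],
    [(nat_lit 944237902), (nat_lit 780174494), (nat_lit 622700483), (nat_lit 491616540), (nat_lit 385827494), (nat_lit 297126782), (nat_lit 221273312), (nat_lit 126220346)],
    [(nat_lit 943826586), (nat_lit 779470517), (nat_lit 621782309), (nat_lit 490534076), (nat_lit 384662835), (nat_lit 295961004), (nat_lit 220186459), (nat_lit 125369353)],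
    [(nat_lit 943414357), (nat_lit 778766313), (nat_lit 620864857), (nat_lit 489453771), (nat_lit 383501913), (nat_lit 294800484), (nat_lit 219106150), (nat_lit 124526161)],
    [(nat_lit 943001111), (nat_lit 778061705), (nat_lit 619947891), (nat_lit 488375341), (nat_lit 382344413), (nat_lit 293644890), (nat_lit 218032054), (nat_lit 123690462)],
    [(nat_lit 942586742), (nat_lit 777356516), (nat_lit 619031181), (nat_lit 487298506), (nat_lit 381190026), (nat_lit 292493898), (nat_lit 216963848), (nat_lit 122861959)],
    [(nat_lit 942171146), (nat_lit 776650569), (nat_lit 618114494), (nat_lit 486222990), (nat_lit 380038447), (nat_lit 291347191), (nat_lit 215901217), (nat_lit 122040365)],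
    [(nat_lit 941754217), (nat_lit 775943689), (nat_lit 617197600), (nat_lit 485148520), (nat_lit 378889375), (nat_lit 290204459), (nat_lit 214843857), (nat_lit 121225403)],
    [(nat_lit 941335848), (nat_lit 775235699), (nat_lit 616280273), (nat_lit 484074825), (nat_lit 377742515), (nat_lit 289065395), (nat_lit 213791466), (nat_lit 120416804)],
    [(nat_lit 940915931), (nat_lit 774526424), (nat_lit 615362283), (nat_lit 483001636), (nat_lit 376597576), (nat_lit 287929702), (nat_lit 212743754), (nat_lit 119614306)],
    [(nat_lit 940494358), (nat_lit 773815686), (nat_lit 614443404), (nat_lit 481928689), (nat_lit 375454268), (nat_lit 286797084), (nat_lit 211700435), (nat_lit 118817659)]]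
    [(nat_lit 946692437), (nat_lit 784403629), (nat_lit 628238101), (nat_lit 498173027), (nat_lit 392912360), (nat_lit 304251408), (nat_lit 227951600), (nat_lit 131508738)] = true := by decide +kernel

theorem run4_7 : chkTraj cSw cB 7 cD4 tb4 [
    [(nat_lit 940071020), (nat_lit 773103310), (nat_lit 613523410), (nat_lit 480855717), (nat_lit 374312309), (nat_lit 285667252), (nat_lit 210661228), (nat_lit 118026616)],
    [(nat_lit 939645806), (nat_lit 772389119), (nat_lit 612602075), (nat_lit 479782460), (nat_lit 373171415), (nat_lit 284539921), (nat_lit 209625861), (nat_lit 117240940)],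
    [(nat_lit 939218605), (nat_lit 771672933), (nat_lit 611679172), (nat_lit 478708655), (nat_lit 372031309), (nat_lit 283414812), (nat_lit 208594065), (nat_lit 116460401)],
    [(nat_lit 938789302), (nat_lit 770954575), (nat_lit 610754476), (nat_lit 477634042), (nat_lit 370891714), (nat_lit 282291648), (nat_lit 207565577), (nat_lit 115684774)],
    [(nat_lit 938357784), (nat_lit 770233865), (nat_lit 609827760), (nat_lit 476558362), (nat_lit 369752357), (nat_lit 281170155), (nat_lit 206540141), (nat_lit 114913840)],
    [(nat_lit 937923934), (nat_lit 769510621), (nat_lit 608898797), (nat_lit 475481357), (nat_lit 368612965), (nat_lit 280050065), (nat_lit 205517501), (nat_lit 114147389)],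
    [(nat_lit 937487635), (nat_lit 768784660), (nat_lit 607967360), (nat_lit 474402767), (nat_lit 367473270), (nat_lit 278931112), (nat_lit 204497410), (nat_lit 113385214)],
    [(nat_lit 937048767), (nat_lit 768055800), (nat_lit 607033219), (nat_lit 473322336), (nat_lit 366333002), (nat_lit 277813031), (nat_lit 203479624), (nat_lit 112627114)],
    [(nat_lit 936607208), (nat_lit 767323854), (nat_lit 606096145), (nat_lit 472239806), (nat_lit 365191894), (nat_lit 276695564), (nat_lit 202463900), (nat_lit 111872894)],
    [(nat_lit 936162836), (nat_lit 766588634), (nat_lit 605155907), (nat_lit 471154917), (nat_lit 364049681), (nat_lit 275578451), (nat_lit 201450002), (nat_lit 111122363)],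
    [(nat_lit 935715524), (nat_lit 765849952), (nat_lit 604212271), (nat_lit 470067411), (nat_lit 362906097), (nat_lit 274461436), (nat_lit 200437696), (nat_lit 110375335)],
    [(nat_lit 935265145), (nat_lit 765107614), (nat_lit 603265005), (nat_lit 468977029), (nat_lit 361760877), (nat_lit 273344266), (nat_lit 199426752), (nat_lit 109631628)],
    [(nat_lit 934811568), (nat_lit 764361428), (nat_lit 602313870), (nat_lit 467883510), (nat_lit 360613758), (nat_lit 272226688), (nat_lit 198416942), (nat_lit 108891067)],
    [(nat_lit 934354661), (nat_lit 763611196), (nat_lit 601358629), (nat_lit 466786592), (nat_lit 359464476), (nat_lit 271108452), (nat_lit 197408041), (nat_lit 108153477)],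
    [(nat_lit 933894289), (nat_lit 762856719), (nat_lit 600399041), (nat_lit 465686013), (nat_lit 358312765), (nat_lit 269989309), (nat_lit 196399827), (nat_lit 107418691)]]
    [(nat_lit 940494358), (nat_lit 773815686), (nat_lit 614443404), (nat_lit 481928689), (nat_lit 375454268), (nat_lit 286797084), (nat_lit 211700435), (nat_lit 118817659)] = true := by decide +kernel

theorem run4_8 : chkTraj cSw cB 7 cD4 tb4 [
    [(nat_lit 933430313), (nat_lit 762097795), (nat_lit 599434863), (nat_lit 464581509), (nat_lit 357158363), (nat_lit 268869009), (nat_lit 195392080), (nat_lit 106686542)],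
    [(nat_lit 932962593), (nat_lit 761334218), (nat_lit 598465847), (nat_lit 463472813), (nat_lit 356001004), (nat_lit 267747307), (nat_lit 194384583), (nat_lit 105956870)],
    [(nat_lit 932490984), (nat_lit 760565780), (nat_lit 597491746), (nat_lit 462359658), (nat_lit 354840424), (nat_lit 266623955), (nat_lit 193377120), (nat_lit 105229516)],
    [(nat_lit 932015339), (nat_lit 759792268), (nat_lit 596512307), (nat_lit 461241772), (nat_lit 353676356), (nat_lit 265498708), (nat_lit 192369478), (nat_lit 104504326)],
    [(nat_lit 931535508), (nat_lit 759013467), (nat_lit 595527275), (nat_lit 460118883), (nat_lit 352508532), (nat_lit 264371320), (nat_lit 191361445), (nat_lit 103781149)],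
    [(nat_lit 931051337), (nat_lit 758229158), (nat_lit 594536389), (nat_lit 458990716), (nat_lit 351336685), (nat_lit 263241547), (nat_lit 190352810), (nat_lit 103059836)],
    [(nat_lit 930562667), (nat_lit 757439116), (nat_lit 593539387), (nat_lit 457856993), (nat_lit 350160545), (nat_lit 262109142), (nat_lit 189343366), (nat_lit 102340242)],
    [(nat_lit 930069337), (nat_lit 756643114), (nat_lit 592536002), (nat_lit 456717432), (nat_lit 348979840), (nat_lit 260973862), (nat_lit 188332904), (nat_lit 101622225)],
    [(nat_lit 929571182), (nat_lit 755840919), (nat_lit 591525962), (nat_lit 455571749), (nat_lit 347794297), (nat_lit 259835461), (nat_lit 187321219), (nat_lit 100905644)],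
    [(nat_lit 929068032), (nat_lit 755032294), (nat_lit 590508992), (nat_lit 454419656), (nat_lit 346603641), (nat_lit 258693692), (nat_lit 186308105), (nat_lit 100190362)],
    [(nat_lit 928559711), (nat_lit 754216998), (nat_lit 589484811), (nat_lit 453260862), (nat_lit 345407594), (nat_lit 257548310), (nat_lit 185293358), (nat_lit 99476245)],
    [(nat_lit 928046042), (nat_lit 753394783), (nat_lit 588453132), (nat_lit 452095070), (nat_lit 344205877), (nat_lit 256399067), (nat_lit 184276775), (nat_lit 98763161)],
    [(nat_lit 927526841), (nat_lit 752565397), (nat_lit 587413666), (nat_lit 450921981), (nat_lit 342998208), (nat_lit 255245716), (nat_lit 183258153), (nat_lit 98050981)],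
    [(nat_lit 927001918), (nat_lit 751728581), (nat_lit 586366116), (nat_lit 449741292), (nat_lit 341784300), (nat_lit 254088007), (nat_lit 182237290), (nat_lit 97339576)],
    [(nat_lit 926471081), (nat_lit 750884072), (nat_lit 585310179), (nat_lit 448552692), (nat_lit 340563867), (nat_lit 252925691), (nat_lit 181213985), (nat_lit 96628822)]]
    [(nat_lit 933894289), (nat_lit 762856719), (nat_lit 600399041), (nat_lit 465686013), (nat_lit 358312765), (nat_lit 269989309), (nat_lit 196399827), (nat_lit 107418691)] = true := by decide +kernel

theorem run4_9 : chkTraj cSw cB 7 cD4 tb4 [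
    [(nat_lit 925934129), (nat_lit 750031599), (nat_lit 584245547), (nat_lit 447355870), (nat_lit 339336617), (nat_lit 251758517), (nat_lit 180188035), (nat_lit 95918595)],
    [(nat_lit 925390858), (nat_lit 749170885), (nat_lit 583171906), (nat_lit 446150505), (nat_lit 338102256), (nat_lit 250586231), (nat_lit 179159241), (nat_lit 95208775)],
    [(nat_lit 924841056), (nat_lit 748301648), (nat_lit 582088935), (nat_lit 444936274), (nat_lit 336860486), (nat_lit 249408579), (nat_lit 178127402), (nat_lit 94499243)],
    [(nat_lit 924284506), (nat_lit 747423596), (nat_lit 580996306), (nat_lit 443712848), (nat_lit 335611005), (nat_lit 248225306), (nat_lit 177092317), (nat_lit 93789882)],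
    [(nat_lit 923720985), (nat_lit 746536433), (nat_lit 579893684), (nat_lit 442479891), (nat_lit 334353508), (nat_lit 247036153), (nat_lit 176053786), (nat_lit 93080578)],
    [(nat_lit 923150261), (nat_lit 745639853), (nat_lit 578780727), (nat_lit 441237062), (nat_lit 333087685), (nat_lit 245840862), (nat_lit 175011608), (nat_lit 92371218)],
    [(nat_lit 922572097), (nat_lit 744733543), (nat_lit 577657084), (nat_lit 439984013), (nat_lit 331813223), (nat_lit 244639171), (nat_lit 173965584), (nat_lit 91661690)],
    [(nat_lit 921986249), (nat_lit 743817181), (nat_lit 576522396), (nat_lit 438720390), (nat_lit 330529804), (nat_lit 243430815), (nat_lit 172915512), (nat_lit 90951887)],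
    [(nat_lit 921392462), (nat_lit 742890439), (nat_lit 575376298), (nat_lit 437445832), (nat_lit 329237104), (nat_lit 242215529), (nat_lit 171861193), (nat_lit 90241701)],
    [(nat_lit 920790478), (nat_lit 741952975), (nat_lit 574218413), (nat_lit 436159970), (nat_lit 327934798), (nat_lit 240993045), (nat_lit 170802424), (nat_lit 89531026)],
    [(nat_lit 920180026), (nat_lit 741004444), (nat_lit 573048358), (nat_lit 434862429), (nat_lit 326622552), (nat_lit 239763092), (nat_lit 169739005), (nat_lit 88819760)],
    [(nat_lit 919560829), (nat_lit 740044486), (nat_lit 571865738), (nat_lit 433552826), (nat_lit 325300029), (nat_lit 238525397), (nat_lit 168670734), (nat_lit 88107801)],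
    [(nat_lit 918932599), (nat_lit 739072734), (nat_lit 570670150), (nat_lit 432230770), (nat_lit 323966886), (nat_lit 237279684), (nat_lit 167597410), (nat_lit 87395049)],
    [(nat_lit 918295042), (nat_lit 738088809), (nat_lit 569461179), (nat_lit 430895861), (nat_lit 322622775), (nat_lit 236025674), (nat_lit 166518831), (nat_lit 86681408)],
    [(nat_lit 917647849), (nat_lit 737092322), (nat_lit 568238402), (nat_lit 429547691), (nat_lit 321267342), (nat_lit 234763086), (nat_lit 165434795), (nat_lit 85966781)]]
    [(nat_lit 926471081), (nat_lit 750884072), (nat_lit 585310179), (nat_lit 448552692), (nat_lit 340563867), (nat_lit 252925691), (nat_lit 181213985), (nat_lit 96628822)] = true := by decide +kernel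

theorem run4_10 : chkTraj cSw cB 7 cD4 tb4 [
    [(nat_lit 916990706), (nat_lit 736082873), (nat_lit 567001382), (nat_lit 428185844), (nat_lit 319900227), (nat_lit 233491636), (nat_lit 164345098), (nat_lit 85251075)],
    [(nat_lit 916323283), (nat_lit 735060049), (nat_lit 565749674), (nat_lit 426809893), (nat_lit 318521066), (nat_lit 232211037), (nat_lit 163249537), (nat_lit 84534198)],
    [(nat_lit 915645243), (nat_lit 734023425), (nat_lit 564482819), (nat_lit 425419405), (nat_lit 317129485), (nat_lit 230920999), (nat_lit 162147910), (nat_lit 83816061)],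
    [(nat_lit 914956235), (nat_lit 732972564), (nat_lit 563200346), (nat_lit 424013934), (nat_lit 315725108), (nat_lit 229621228), (nat_lit 161040013), (nat_lit 83096576)],
    [(nat_lit 914255897), (nat_lit 731907017), (nat_lit 561901771), (nat_lit 422593025), (nat_lit 314307549), (nat_lit 228311430), (nat_lit 159925642), (nat_lit 82375658)],
    [(nat_lit 913543853), (nat_lit 730826318), (nat_lit 560586600), (nat_lit 421156214), (nat_lit 312876418), (nat_lit 226991304), (nat_lit 158804593), (nat_lit 81653223)],
    [(nat_lit 912819715), (nat_lit 729729989), (nat_lit 559254322), (nat_lit 419703025), (nat_lit 311431316), (nat_lit 225660549), (nat_lit 157676662), (nat_lit 80929191)],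
    [(nat_lit 912083080), (nat_lit 728617537), (nat_lit 557904414), (nat_lit 418232972), (nat_lit 309971839), (nat_lit 224318859), (nat_lit 156541645), (nat_lit 80203484)],
    [(nat_lit 911333530), (nat_lit 727488453), (nat_lit 556536337), (nat_lit 416745558), (nat_lit 308497576), (nat_lit 222965927), (nat_lit 155399339), (nat_lit 79476025)],
    [(nat_lit 910570634), (nat_lit 726342214), (nat_lit 555149538), (nat_lit 415240272), (nat_lit 307008107), (nat_lit 221601442), (nat_lit 154249539), (nat_lit 78746742)],
    [(nat_lit 909793943), (nat_lit 725178277), (nat_lit 553743449), (nat_lit 413716595), (nat_lit 305503007), (nat_lit 220225088), (nat_lit 153092042), (nat_lit 78015563)],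
    [(nat_lit 909002994), (nat_lit 723996084), (nat_lit 552317486), (nat_lit 412173993), (nat_lit 303981842), (nat_lit 218836549), (nat_lit 151926645), (nat_lit 77282422)],
    [(nat_lit 908197303), (nat_lit 722795060), (nat_lit 550871048), (nat_lit 410611922), (nat_lit 302444171), (nat_lit 217435504), (nat_lit 150753145), (nat_lit 76547253)],
    [(nat_lit 907376373), (nat_lit 721574609), (nat_lit 549403516), (nat_lit 409029823), (nat_lit 300889547), (nat_lit 216021632), (nat_lit 149571341), (nat_lit 75809995)],
    [(nat_lit 906539683), (nat_lit 720334119), (nat_lit 547914256), (nat_lit 407427126), (nat_lit 299317514), (nat_lit 214594607), (nat_lit 148381033), (nat_lit 75070589)]]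
    [(nat_lit 917647849), (nat_lit 737092322), (nat_lit 568238402), (nat_lit 429547691), (nat_lit 321267342), (nat_lit 234763086), (nat_lit 165434795), (nat_lit 85966781)] = true := by decide +kernel

theorem run4_11 : chkTraj cSw cB 7 cD4 tb4 [
    [(nat_lit 905686696), (nat_lit 719072955), (nat_lit 546402615), (nat_lit 405803246), (nat_lit 297727609), (nat_lit 213154101), (nat_lit 147182020), (nat_lit 74328980)],
    [(nat_lit 904816854), (nat_lit 717790463), (nat_lit 544867920), (nat_lit 404157586), (nat_lit 296119360), (nat_lit 211699784), (nat_lit 145974106), (nat_lit 73585118)],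
    [(nat_lit 903929578), (nat_lit 716485967), (nat_lit 543309480), (nat_lit 402489535), (nat_lit 294492290), (nat_lit 210231324), (nat_lit 144757093), (nat_lit 72838955)],
    [(nat_lit 903024264), (nat_lit 715158770), (nat_lit 541726585), (nat_lit 400798467), (nat_lit 292845914), (nat_lit 208748386), (nat_lit 143530788), (nat_lit 72090448)],
    [(nat_lit 902100289), (nat_lit 713808152), (nat_lit 540118504), (nat_lit 399083742), (nat_lit 291179738), (nat_lit 207250636), (nat_lit 142294998), (nat_lit 71339557)],
    [(nat_lit 901157003), (nat_lit 712433366), (nat_lit 538484484), (nat_lit 397344708), (nat_lit 289493261), (nat_lit 205737736), (nat_lit 141049535), (nat_lit 70586248)],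
    [(nat_lit 900193731), (nat_lit 711033646), (nat_lit 536823754), (nat_lit 395580694), (nat_lit 287785977), (nat_lit 204209349), (nat_lit 139794213), (nat_lit 69830491)],
    [(nat_lit 899209773), (nat_lit 709608195), (nat_lit 535135516), (nat_lit 393791019), (nat_lit 286057370), (nat_lit 202665136), (nat_lit 138528849), (nat_lit 69072262)],
    [(nat_lit 898204400), (nat_lit 708156194), (nat_lit 533418955), (nat_lit 391974983), (nat_lit 284306921), (nat_lit 201104757), (nat_lit 137253266), (nat_lit 68311541)],
    [(nat_lit 897176856), (nat_lit 706676794), (nat_lit 531673229), (nat_lit 390131873), (nat_lit 282534100), (nat_lit 199527876), (nat_lit 135967288), (nat_lit 67548315)],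
    [(nat_lit 896126355), (nat_lit 705169120), (nat_lit 529897475), (nat_lit 388260961), (nat_lit 280738374), (nat_lit 197934153), (nat_lit 134670749), (nat_lit 66782575)],
    [(nat_lit 895052077), (nat_lit 703632267), (nat_lit 528090803), (nat_lit 386361504), (nat_lit 278919203), (nat_lit 196323254), (nat_lit 133363483), (nat_lit 66014321)],
    [(nat_lit 893953174), (nat_lit 702065298), (nat_lit 526252302), (nat_lit 384432743), (nat_lit 277076042), (nat_lit 194694844), (nat_lit 132045335), (nat_lit 65243557)],
    [(nat_lit 892828761), (nat_lit 700467250), (nat_lit 524381033), (nat_lit 382473904), (nat_lit 275208342), (nat_lit 193048591), (nat_lit 130716156), (nat_lit 64470296)],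
    [(nat_lit 891677920), (nat_lit 698837123), (nat_lit 522476034), (nat_lit 380484200), (nat_lit 273315547), (nat_lit 191384167), (nat_lit 129375802), (nat_lit 63694557)]]
    [(nat_lit 906539683), (nat_lit 720334119), (nat_lit 547914256), (nat_lit 407427126), (nat_lit 299317514), (nat_lit 214594607), (nat_lit 148381033), (nat_lit 75070589)] = true := by decide +kernel


end Crest.Agent.R163.NE
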