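import Crest.Agent.R163.NodeTb

/-! Row 163: trajectory, part 2. -/

set_option autoImplicit false
set_option maxRecDepth 100000

namespace Crest.Agent.R163.NE

theorem run4_12 : chkTraj cSw cB 7 cD4 tb4 [
    [(nat_lit 890499694), (nat_lit 697173889), (nat_lit 520536315), (nat_lit 378462827), (nat_lit 271397101), (nat_lit 189701250), (nat_lit 128024141), (nat_lit 62916367)],
    [(nat_lit 889293090), (nat_lit 695476482), (nat_lit 518560860), (nat_lit 376408969), (nat_lit 269452441), (nat_lit 187999520), (nat_lit 126661048), (nat_lit 62135763)],
    [(nat_lit 888057074), (nat_lit 693743805), (nat_lit 516548629), (nat_lit 374321793), (nat_lit 267481005), (nat_lit 186278665), (nat_lit 125286410), (nat_lit 61352789)],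
    [(nat_lit 886790572), (nat_lit 691974723), (nat_lit 514498552), (nat_lit 372200455), (nat_lit 265482229), (nat_lit 184538380), (nat_lit 123900124), (nat_lit 60567498)],
    [(nat_lit 885492465), (nat_lit 690168064), (nat_lit 512409534), (nat_lit 370044097), (nat_lit 263455547), (nat_lit 182778369), (nat_lit 122502099), (nat_lit 59779954)],
    [(nat_lit 884161593), (nat_lit 688322622), (nat_lit 510280451), (nat_lit 367851848), (nat_lit 261400397), (nat_lit 180998345), (nat_lit 121092259), (nat_lit 58990230)],
    [(nat_lit 882796747), (nat_lit 686437150), (nat_lit 508110155), (nat_lit 365622828), (nat_lit 259316217), (nat_lit 179198033), (nat_lit 119670543), (nat_lit 58198411)],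
    [(nat_lit 881396670), (nat_lit 684510363), (nat_lit 505897468), (nat_lit 363356143), (nat_lit 257202450), (nat_lit 177377170), (nat_lit 118236902), (nat_lit 57404591)],
    [(nat_lit 879960058), (nat_lit 682540936), (nat_lit 503641186), (nat_lit 361050891), (nat_lit 255058544), (nat_lit 175535506), (nat_lit 116791310), (nat_lit 56608877)],
    [(nat_lit 878485552), (nat_lit 680527503), (nat_lit 501340079), (nat_lit 358706162), (nat_lit 252883951), (nat_lit 173672811), (nat_lit 115333753), (nat_lit 55811389)],
    [(nat_lit 876971741), (nat_lit 678468657), (nat_lit 498992891), (nat_lit 356321039), (nat_lit 250678136), (nat_lit 171788867), (nat_lit 113864243), (nat_lit 55012260)],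
    [(nat_lit 875417161), (nat_lit 676362951), (nat_lit 496598339), (nat_lit 353894597), (nat_lit 248440572), (nat_lit 169883481), (nat_lit 112382810), (nat_lit 54211635)],
    [(nat_lit 873820289), (nat_lit 674208893), (nat_lit 494155117), (nat_lit 351425911), (nat_lit 246170746), (nat_lit 167956478), (nat_lit 110889509), (nat_lit 53409674)],
    [(nat_lit 872179544), (nat_lit 672004952), (nat_lit 491661893), (nat_lit 348914052), (nat_lit 243868160), (nat_lit 166007711), (nat_lit 109384418), (nat_lit 52606551)],
    [(nat_lit 870493284), (nat_lit 669749550), (nat_lit 489117316), (nat_lit 346358092), (nat_lit 241532334), (nat_lit 164037055), (nat_lit 107867644), (nat_lit 51802457)]]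
    [(nat_lit 891677920), (nat_lit 698837123), (nat_lit 522476034), (nat_lit 380484200), (nat_lit 273315547), (nat_lit 191384167), (nat_lit 129375802), (nat_lit 63694557)] = true := by decide +kernel

theorem run4_13 : chkTraj cSw cB 7 cD4 tb4 [
    [(nat_lit 868759807), (nat_lit 667441071), (nat_lit 486520009), (nat_lit 343757106), (nat_lit 239162808), (nat_lit 162044418), (nat_lit 106339321), (nat_lit 50997596)],
    [(nat_lit 866977345), (nat_lit 665077852), (nat_lit 483868579), (nat_lit 341110174), (nat_lit 236759147), (nat_lit 160029738), (nat_lit 104799615), (nat_lit 50192192)],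
    [(nat_lit 865144066), (nat_lit 662658190), (nat_lit 481161615), (nat_lit 338416386), (nat_lit 234320943), (nat_lit 157992987), (nat_lit 103248723), (nat_lit 49386483)],
    [(nat_lit 863258071), (nat_lit 660180342), (nat_lit 478397688), (nat_lit 335674845), (nat_lit 231847817), (nat_lit 155934176), (nat_lit 101686877), (nat_lit 48580726)],
    [(nat_lit 861317394), (nat_lit 657642519), (nat_lit 475575359), (nat_lit 332884666), (nat_lit 229339427), (nat_lit 153853357), (nat_lit 100114346), (nat_lit 47775196)],
    [(nat_lit 859319998), (nat_lit 655042898), (nat_lit 472693179), (nat_lit 330044987), (nat_lit 226795467), (nat_lit 151750624), (nat_lit 98531439), (nat_lit 46970186)],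
    [(nat_lit 857263777), (nat_lit 652379614), (nat_lit 469749690), (nat_lit 327154970), (nat_lit 224215676), (nat_lit 149626120), (nat_lit 96938504), (nat_lit 46166009)],
    [(nat_lit 855146556), (nat_lit 649650765), (nat_lit 466743433), (nat_lit 324213805), (nat_lit 221599837), (nat_lit 147480040), (nat_lit 95335934), (nat_lit 45362998)],
    [(nat_lit 852966085), (nat_lit 646854416), (nat_lit 463672952), (nat_lit 321220716), (nat_lit 218947789), (nat_lit 145312633), (nat_lit 93724167), (nat_lit 44561503)],
    [(nat_lit 850720046), (nat_lit 643988600), (nat_lit 460536793), (nat_lit 318174968), (nat_lit 216259426), (nat_lit 143124205), (nat_lit 92103689), (nat_lit 43761899)],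
    [(nat_lit 848406047), (nat_lit 641051320), (nat_lit 457333519), (nat_lit 315075870), (nat_lit 213534705), (nat_lit 140915126), (nat_lit 90475036), (nat_lit 42964576)],
    [(nat_lit 846021626), (nat_lit 638040554), (nat_lit 454061705), (nat_lit 311922786), (nat_lit 210773652), (nat_lit 138685834), (nat_lit 88838795), (nat_lit 42169949)],
    [(nat_lit 843564253), (nat_lit 634954258), (nat_lit 450719953), (nat_lit 308715137), (nat_lit 207976365), (nat_lit 136436836), (nat_lit 87195610), (nat_lit 41378452)],
    [(nat_lit 841031329), (nat_lit 631790373), (nat_lit 447306894), (nat_lit 305452412), (nat_lit 205143025), (nat_lit 134168713), (nat_lit 85546180), (nat_lit 40590538)],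
    [(nat_lit 838420187), (nat_lit 628546827), (nat_lit 443821198), (nat_lit 302134173), (nat_lit 202273899), (nat_lit 131882126), (nat_lit 83891260), (nat_lit 39806684)]]
    [(nat_lit 870493284), (nat_lit 669749550), (nat_lit 489117316), (nat_lit 346358092), (nat_lit 241532334), (nat_lit 164037055), (nat_lit 107867644), (nat_lit 51802457)] = true := by decide +kernel

theorem run4_14 : chkTraj cSw cB 7 cD4 tb4 [
    [(nat_lit 835728100), (nat_lit 625221544), (nat_lit 440261582), (nat_lit 298760068), (nat_lit 199369345), (nat_lit 129577819), (nat_lit 82231669), (nat_lit 39027383)],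
    [(nat_lit 832952278), (nat_lit 621812447), (nat_lit 436626817), (nat_lit 295329833), (nat_lit 196429824), (nat_lit 127256622), (nat_lit 80568285), (nat_lit 38253151)],
    [(nat_lit 830089879), (nat_lit 618317471), (nat_lit 432915741), (nat_lit 291843308), (nat_lit 193455900), (nat_lit 124919456), (nat_lit 78902048), (nat_lit 37484521)],
    [(nat_lit 827138009), (nat_lit 614734567), (nat_lit 429127268), (nat_lit 288300442), (nat_lit 190448252), (nat_lit 122567336), (nat_lit 77233963), (nat_lit 36722045)],
    [(nat_lit 824093730), (nat_lit 611061713), (nat_lit 425260397), (nat_lit 284701305), (nat_lit 187407681), (nat_lit 120201374), (nat_lit 75565098), (nat_lit 35966292)],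
    [(nat_lit 820954067), (nat_lit 607296923), (nat_lit 421314227), (nat_lit 281046098), (nat_lit 184335110), (nat_lit 117822785), (nat_lit 73896587), (nat_lit 35217846)],
    [(nat_lit 817716017), (nat_lit 603438261), (nat_lit 417287968), (nat_lit 277335162), (nat_lit 181231600), (nat_lit 115432884), (nat_lit 72229627), (nat_lit 34477307)],
    [(nat_lit 814376558), (nat_lit 599483850), (nat_lit 413180956), (nat_lit 273568992), (nat_lit 178098347), (nat_lit 113033095), (nat_lit 70565479), (nat_lit 33745287)],
    [(nat_lit 810932659), (nat_lit 595431886), (nat_lit 408992663), (nat_lit 269748246), (nat_lit 174936697), (nat_lit 110624945), (nat_lit 68905467), (nat_lit 33022409)],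
    [(nat_lit 807381296), (nat_lit 591280654), (nat_lit 404722716), (nat_lit 265873753), (nat_lit 171748143), (nat_lit 108210074), (nat_lit 67250973), (nat_lit 32309305)],
    [(nat_lit 803719458), (nat_lit 587028540), (nat_lit 400370908), (nat_lit 261946530), (nat_lit 168534336), (nat_lit 105790228), (nat_lit 65603440), (nat_lit 31606615)],
    [(nat_lit 799944171), (nat_lit 582674051), (nat_lit 395937215), (nat_lit 257967787), (nat_lit 165297087), (nat_lit 103367260), (nat_lit 63964364), (nat_lit 30914979)],
    [(nat_lit 796052508), (nat_lit 578215827), (nat_lit 391421813), (nat_lit 253938937), (nat_lit 162038369), (nat_lit 100943132), (nat_lit 62335293), (nat_lit 30235041)],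
    [(nat_lit 792041611), (nat_lit 573652663), (nat_lit 386825090), (nat_lit 249861611), (nat_lit 158760322), (nat_lit 98519909), (nat_lit 60717820), (nat_lit 29567442)],
    [(nat_lit 787908708), (nat_lit 568983527), (nat_lit 382147665), (nat_lit 245737659), (nat_lit 155465253), (nat_lit 96099756), (nat_lit 59113582), (nat_lit 28912816)]]
    [(nat_lit 838420187), (nat_lit 628546827), (nat_lit 443821198), (nat_lit 302134173), (nat_lit 202273899), (nat_lit 131882126), (nat_lit 83891260), (nat_lit 39806684)] = true := by decide +kernel

theorem run4_15 : chkTraj cSw cB 7 cD4 tb4 [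
    [(nat_lit 783651136), (nat_lit 564207577), (nat_lit 377390400), (nat_lit 241569165), (nat_lit 152155635), (nat_lit 93684937), (nat_lit 57524246), (nat_lit 28271791)],
    [(nat_lit 779266365), (nat_lit 559324185), (nat_lit 372554419), (nat_lit 237358447), (nat_lit 148834108), (nat_lit 91277803), (nat_lit 55951511), (nat_lit 27644978)],
    [(nat_lit 774752019), (nat_lit 554332953), (nat_lit 367641119), (nat_lit 233108068), (nat_lit 145503475), (nat_lit 88880789), (nat_lit 54397092), (nat_lit 27032973)],
    [(nat_lit 770105906), (nat_lit 549233737), (nat_lit 362652183), (nat_lit 228820833), (nat_lit 142166697), (nat_lit 86496407), (nat_lit 52862717), (nat_lit 26436351)],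
    [(nat_lit 765326037), (nat_lit 544026665), (nat_lit 357589595), (nat_lit 224499799), (nat_lit 138826886), (nat_lit 84127230), (nat_lit 51350116), (nat_lit 25855661)],
    [(nat_lit 760410665), (nat_lit 538712157), (nat_lit 352455649), (nat_lit 220148266), (nat_lit 135487299), (nat_lit 81775889), (nat_lit 49861007), (nat_lit 25291421)],
    [(nat_lit 755358303), (nat_lit 533290949), (nat_lit 347252956), (nat_lit 215769781), (nat_lit 132151327), (nat_lit 79445053), (nat_lit 48397091), (nat_lit 24744117)],
    [(nat_lit 750167760), (nat_lit 527764107), (nat_lit 341984455), (nat_lit 211368128), (nat_lit 128822480), (nat_lit 77137420), (nat_lit 46960038), (nat_lit 24214195)],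
    [(nat_lit 744838164), (nat_lit 522133047), (nat_lit 336653413), (nat_lit 206947327), (nat_lit 125504377), (nat_lit 74855700), (nat_lit 45551474), (nat_lit 23702060)],
    [(nat_lit 739368997), (nat_lit 516399550), (nat_lit 331263430), (nat_lit 202511616), (nat_lit 122200728), (nat_lit 72602600), (nat_lit 44172971), (nat_lit 23208067)],
    [(nat_lit 733760121), (nat_lit 510565779), (nat_lit 325818435), (nat_lit 198065442), (nat_lit 118915315), (nat_lit 70380805), (nat_lit 42826034), (nat_lit 22732522)],
    [(nat_lit 728011801), (nat_lit 504634286), (nat_lit 320322684), (nat_lit 193613445), (nat_lit 115651974), (nat_lit 68192965), (nat_lit 41512087), (nat_lit 22275679)],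
    [(nat_lit 722124737), (nat_lit 498608029), (nat_lit 314780752), (nat_lit 189160436), (nat_lit 112414571), (nat_lit 66041669), (nat_lit 40232464), (nat_lit 21837730)],
    [(nat_lit 716100083), (nat_lit 492490370), (nat_lit 309197519), (nat_lit 184711380), (nat_lit 109206980), (nat_lit 63929434), (nat_lit 38988398), (nat_lit 21418810)],
    [(nat_lit 709939469), (nat_lit 486285085), (nat_lit 303578160), (nat_lit 180271367), (nat_lit 106033060), (nat_lit 61858681), (nat_lit 37781006), (nat_lit 21018989)]]
    [(nat_lit 787908708), (nat_lit 568983527), (nat_lit 382147665), (nat_lit 245737659), (nat_lit 155465253), (nat_lit 96099756), (nat_lit 59113582), (nat_lit 28912816)] = true := by decide +kernel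

theorem run4_16 : chkTraj cSw cB 7 cD4 tb4 [
    [(nat_lit 703645020), (nat_lit 479996360), (nat_lit 297928120), (nat_lit 175845586), (nat_lit 102896626), (nat_lit 59831720), (nat_lit 36611282), (nat_lit 20638273)],
    [(nat_lit 697219367), (nat_lit 473628787), (nat_lit 292253099), (nat_lit 171439295), (nat_lit 99801428), (nat_lit 57850729), (nat_lit 35480086), (nat_lit 20276603)],
    [(nat_lit 690665660), (nat_lit 467187357), (nat_lit 286559020), (nat_lit 167057793), (nat_lit 96751120), (nat_lit 55917737), (nat_lit 34388138), (nat_lit 19933852)],
    [(nat_lit 683987572), (nat_lit 460677447), (nat_lit 280852002), (nat_lit 162706380), (nat_lit 93749238), (nat_lit 54034612), (nat_lit 33336011), (nat_lit 19609827)],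
    [(nat_lit 677189298), (nat_lit 454104802), (nat_lit 275138329), (nat_lit 158390331), (nat_lit 90799171), (nat_lit 52203038), (nat_lit 32324125), (nat_lit 19304269)],
    [(nat_lit 670275554), (nat_lit 447475513), (nat_lit 269424414), (nat_lit 154114852), (nat_lit 87904140), (nat_lit 50424511), (nat_lit 31352743), (nat_lit 19016853)],
    [(nat_lit 663251561), (nat_lit 440795993), (nat_lit 263716762), (nat_lit 149885054), (nat_lit 85067170), (nat_lit 48700321), (nat_lit 30421971), (nat_lit 18747194)],
    [(nat_lit 656123035), (nat_lit 434072947), (nat_lit 258021928), (nat_lit 145705908), (nat_lit 82291073), (nat_lit 47031547), (nat_lit 29531758), (nat_lit 18494843)],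
    [(nat_lit 648896162), (nat_lit 427313338), (nat_lit 252346481), (nat_lit 141582219), (nat_lit 79578429), (nat_lit 45419045), (nat_lit 28681894), (nat_lit 18259299)],
    [(nat_lit 641577570), (nat_lit 420524348), (nat_lit 246696960), (nat_lit 137518592), (nat_lit 76931564), (nat_lit 43863450), (nat_lit 27872019), (nat_lit 18040004)],
    [(nat_lit 634174300), (nat_lit 413713342), (nat_lit 241079834), (nat_lit 133519395), (nat_lit 74352540), (nat_lit 42365169), (nat_lit 27101625), (nat_lit 17836354)],
    [(nat_lit 626693768), (nat_lit 406887820), (nat_lit 235501457), (nat_lit 129588740), (nat_lit 71843144), (nat_lit 40924385), (nat_lit 26370064), (nat_lit 17647701)],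
    [(nat_lit 619143721), (nat_lit 400055377), (nat_lit 229968036), (nat_lit 125730451), (nat_lit 69404878), (nat_lit 39541058), (nat_lit 25676554), (nat_lit 17473358)],
    [(nat_lit 611532194), (nat_lit 393223655), (nat_lit 224485586), (nat_lit 121948044), (nat_lit 67038956), (nat_lit 38214929), (nat_lit 25020191), (nat_lit 17312607)],
    [(nat_lit 603867461), (nat_lit 386400294), (nat_lit 219059898), (nat_lit 118244710), (nat_lit 64746300), (nat_lit 36945533), (nat_lit 24399960), (nat_lit 17164701)]]
    [(nat_lit 709939469), (nat_lit 486285085), (nat_lit 303578160), (nat_lit 180271367), (nat_lit 106033060), (nat_lit 61858681), (nat_lit 37781006), (nat_lit 21018989)] = true := by decide +kernel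

theorem run4_17 : chkTraj cSw cB 7 cD4 tb4 [
    [(nat_lit 596157982), (nat_lit 379592889), (nat_lit 213696505), (nat_lit 114623297), (nat_lit 62527545), (nat_lit 35732204), (nat_lit 23814745), (nat_lit 17028875)],
    [(nat_lit 588412353), (nat_lit 372808944), (nat_lit 208400652), (nat_lit 111086304), (nat_lit 60383038), (nat_lit 34574088), (nat_lit 23263341), (nat_lit 16904348)],
    [(nat_lit 580639247), (nat_lit 366055821), (nat_lit 203177271), (nat_lit 107635871), (nat_lit 58312855), (nat_lit 33470158), (nat_lit 22744469), (nat_lit 16790329)],
    [(nat_lit 572847366), (nat_lit 359340707), (nat_lit 198030958), (nat_lit 104273775), (nat_lit 56316799), (nat_lit 32419227), (nat_lit 22256787), (nat_lit 16686025)],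
    [(nat_lit 565045383), (nat_lit 352670564), (nat_lit 192965954), (nat_lit 101001437), (nat_lit 54394424), (nat_lit 31419965), (nat_lit 21798904), (nat_lit 16590647)],
    [(nat_lit 557241891), (nat_lit 346052100), (nat_lit 187986134), (nat_lit 97819920), (nat_lit 52545043), (nat_lit 30470914), (nat_lit 21369393), (nat_lit 16503413)],
    [(nat_lit 549445356), (nat_lit 339491731), (nat_lit 183094993), (nat_lit 94729944), (nat_lit 50767744), (nat_lit 29570507), (nat_lit 20966802), (nat_lit 16423554)],
    [(nat_lit 541664065), (nat_lit 332995551), (nat_lit 178295645), (nat_lit 91731892), (nat_lit 49061414), (nat_lit 28717084), (nat_lit 20589667), (nat_lit 16350320)]]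
    [(nat_lit 603867461), (nat_lit 386400294), (nat_lit 219059898), (nat_lit 118244710), (nat_lit 64746300), (nat_lit 36945533), (nat_lit 24399960), (nat_lit 17164701)] = true := by decide +kernel


end Crest.Agent.R163.NE
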