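import Crest.Agent.R163.Upgrade
import Crest.Agent.R163.NodeR0
import Crest.Agent.R163.NodeR1
import Crest.Agent.R163.NodeR2

/-! Row 163: kernel-checked trajectories of the node systems for four and five children. -/

set_option autoImplicit false

namespace Crest.Agent.R163

theorem nodes_four : Nodes 7 δ4 := by
  refine ⟨by simp [δ4], by simp [δ4], fun j hj => ?_⟩
  interval_cases j <;> norm_num [δ4]

theorem nodes_five : Nodes 1 δ5 := up_nodes5

namespace NE

theorem NN_of_scale {Kc F p q r : ℕ} (hK : 0 < Kc) {a : Vec 3}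
    (h : (Kc : ℝ) • a = (F : ℝ) • vec p q r) : NN a := by
  intro i
  have h1 : (Kc : ℝ) * a i = F * vec p q r i := congrFun h i
  have h2 : (0 : ℝ) ≤ F * vec p q r i := mul_nonneg (Nat.cast_nonneg _) (vec_NN p q r i)
  exact nonneg_of_mul_nonneg_right (h1 ▸ h2) (Nat.cast_pos.2 hK) |> fun h => by simpa using h

theorem edge_scale {Kc F p q r : ℕ} {lam δ : ℝ}
    (h0 : Kc * (lam * (3 * (1 + δ) / 2) + (1 - lam)) = F * p)
    (h1 : Kc * (lam * (3 * (1 - δ) / 2) + (1 - lam)) = F * q) (h2 : Kc * (1 - lam) = F * r) :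
    (Kc : ℝ) • Kv lam (edgev δ) = (F : ℝ) • vec p q r := by
  have hs : sm (edgev δ) = 1 := by
    rw [up_sm3]
    simp [edgev]
    ring
  funext i
  simp only [Pi.smul_apply, smul_eq_mul, Kv_apply, hs, mul_one]
  fin_cases i
  · exact h0
  · exact h1
  · simpa [edgev, vec] using h2

theorem six_edge {Kc K p q r : ℕ} {lam δ : ℝ} (hK : 0 < Kc)
    (h0 : Kc * (lam * (3 * (1 + δ) / 2) + (1 - lam)) = (6 * K : ℕ) * p)
    (h1 : Kc * (lam * (3 * (1 - δ) / 2) + (1 - lam)) = (6 * K : ℕ) * q)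
    (h2 : Kc * (1 - lam) = (6 * K : ℕ) * r) : AtomOK Kc (Kv lam (edgev δ)) (six K p q r) :=
  six_ok (NN_of_scale hK (edge_scale h0 h1 h2)) (edge_scale h0 h1 h2)

theorem threeA_edge {Kc K p r : ℕ} {lam δ : ℝ} (hK : 0 < Kc)
    (h0 : Kc * (lam * (3 * (1 + δ) / 2) + (1 - lam)) = (3 * K : ℕ) * p)
    (h1 : Kc * (lam * (3 * (1 - δ) / 2) + (1 - lam)) = (3 * K : ℕ) * p)
    (h2 : Kc * (1 - lam) = (3 * K : ℕ) * r) : AtomOK Kc (Kv lam (edgev δ)) (threeA K p r) :=
  threeA_ok (NN_of_scale hK (edge_scale h0 h1 h2)) (edge_scale h0 h1 h2)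

theorem threeB_edge {Kc K p r : ℕ} {lam δ : ℝ} (hK : 0 < Kc)
    (h0 : Kc * (lam * (3 * (1 + δ) / 2) + (1 - lam)) = (3 * K : ℕ) * p)
    (h1 : Kc * (lam * (3 * (1 - δ) / 2) + (1 - lam)) = (3 * K : ℕ) * r)
    (h2 : Kc * (1 - lam) = (3 * K : ℕ) * r) : AtomOK Kc (Kv lam (edgev δ)) (threeB K p r) :=
  threeB_ok (NN_of_scale hK (edge_scale h0 h1 h2)) (edge_scale h0 h1 h2)

theorem atoms4 : ∀ i, AtomOK 437580 (aN 7 δ4 (-1 / 2) (dec 7 i)) (A4 i)
  | 0 => threeA_edge (δ := δ4 0) (by norm_num) (by norm_num [δ4]) (by norm_num [δ4]) (by norm_num)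
  | 1 => six_edge (δ := δ4 1) (by norm_num) (by norm_num [δ4]) (by norm_num [δ4]) (by norm_num)
  | 2 => six_edge (δ := δ4 2) (by norm_num) (by norm_num [δ4]) (by norm_num [δ4]) (by norm_num)
  | 3 => six_edge (δ := δ4 3) (by norm_num) (by norm_num [δ4]) (by norm_num [δ4]) (by norm_num)
  | 4 => six_edge (δ := δ4 4) (by norm_num) (by norm_num [δ4]) (by norm_num [δ4]) (by norm_num)
  | 5 => six_edge (δ := δ4 5) (by norm_num) (by norm_num [δ4]) (by norm_num [δ4]) (by norm_num)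
  | 6 => six_edge (δ := δ4 6) (by norm_num) (by norm_num [δ4]) (by norm_num [δ4]) (by norm_num)
  | 7 => threeB_edge (δ := δ4 7) (by norm_num) (by norm_num [δ4]) (by norm_num [δ4]) (by norm_num)
  | i + 8 => by
    rw [dec, dif_neg (by omega)]
    exact null_ok _

theorem atoms5 : ∀ i, AtomOK 120 (aN 1 δ5 (-9 / 20) (dec 1 i)) (A5 i)
  | 0 => threeA_edge (δ := δ5 0) (by norm_num) (by norm_num [δ5]) (by norm_num [δ5]) (by norm_num)
  | 1 => threeB_edge (δ := δ5 1) (by norm_num) (by norm_num [δ5]) (by norm_num [δ5]) (by norm_num)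
  | i + 2 => by
    rw [dec, dif_neg (by omega)]
    exact null_ok _

theorem SL4_ok : SLOK δ4 cB 7 cS2 SL4 :=
  ⟨⟨0, by norm_num, by norm_num [δ4, cS2], by norm_num [δ4, cS2], by norm_num, by norm_num,
      by norm_num [δ4, cS2], by norm_num, by decide +kernel, by decide +kernel⟩,
    ⟨1, by norm_num, by norm_num [δ4, cS2], by norm_num [δ4, cS2], by norm_num, by norm_num,
      by norm_num [δ4, cS2], by norm_num, by decide +kernel, by decide +kernel⟩,
    ⟨2, by norm_num, by norm_num [δ4, cS2], by norm_num [δ4, cS2], by norm_num, by norm_num,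
      by norm_num [δ4, cS2], by norm_num, by decide +kernel, by decide +kernel⟩,
    ⟨3, by norm_num, by norm_num [δ4, cS2], by norm_num [δ4, cS2], by norm_num, by norm_num,
      by norm_num [δ4, cS2], by norm_num, by decide +kernel, by decide +kernel⟩,
    ⟨4, by norm_num, by norm_num [δ4, cS2], by norm_num [δ4, cS2], by norm_num, by norm_num,
      by norm_num [δ4, cS2], by norm_num, by decide +kernel, by decide +kernel⟩,
    ⟨5, by norm_num, by norm_num [δ4, cS2], by norm_num [δ4, cS2], by norm_num, by norm_num,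
      by norm_num [δ4, cS2], by norm_num, by decide +kernel, by decide +kernel⟩,
    ⟨6, by norm_num, by norm_num [δ4, cS2], by norm_num [δ4, cS2], by norm_num, by norm_num,
      by norm_num [δ4, cS2], by norm_num, by decide +kernel, by decide +kernel⟩, trivial⟩

theorem SL5_ok : SLOK δ5 cB 1 cS2 SL5 :=
  ⟨⟨0, by norm_num, by norm_num [δ5, cS2], by norm_num [δ5, cS2], by norm_num, by norm_num,
      by norm_num [δ5, cS2], by norm_num, by decide +kernel, by decide +kernel⟩, trivial⟩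

theorem ent4 : ∀ e ∈ tb4, EntOK cB 7 (Tail δ4) (fun i => aN 7 δ4 (-1 / 2) (dec 7 i))
    ((cS : ℝ) * (437580 : ℕ) ^ 4) 4 e := fun e he =>
  chkEnt_sound (f := f4) (pt_sound (S := cS) nodes_four (by decide +kernel) (by decide +kernel) SL4_ok)
    atoms4 (fun j => (good_Tail δ4 j).2) (fun j => Tail_perm δ4 j) (List.all_eq_true.1 tb4_ok e he)

theorem ent5 : ∀ e ∈ tb5, EntOK cB 1 (Tail δ5) (fun i => aN 1 δ5 (-9 / 20) (dec 1 i))
    ((cS : ℝ) * (120 : ℕ) ^ 5) 5 e := fun e he =>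
  chkEnt_sound (f := f5) (pt_sound (S := cS) nodes_five (by decide +kernel) (by decide +kernel) SL5_ok)
    atoms5 (fun j => (good_Tail δ5 j).2) (fun j => Tail_perm δ5 j) (List.all_eq_true.1 tb5_ok e he)

theorem start_eq {m : ℕ} {t : List ℕ} (h : ∀ j, j ≤ m → nth t j = cSw) : tR cSw m t = fun _ => 1 := by
  funext j
  rw [tR, h _ (min_le_right _ _)]
  norm_num [cSw]

end NE

open Crest.Agent.R163.NE in
theorem node_run_four {DN : ℕ → (ℕ → ℝ) → Prop} (h : NSys 4 (-1 / 2) 7 δ4 DN) :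
    ∃ n t, DN n t ∧ Tails 7 t ∧ t 0 ≤ 14 / 25 ∧ vOfTails 7 δ4 t ≤ 3 / 25 := by
  have hP : ∀ t t', chkStep cSw cB 7 cD4 tb4 t t' = true → (∃ n, DN n (tR cSw 7 t)) →
      ∃ n, DN n (tR cSw 7 t') := fun t t' hc ⟨n, hn⟩ =>
    ⟨n + 1, step_sound (d := 3) h (by decide +kernel) (by decide +kernel) (by norm_num [cS])
      (by norm_num [cS, cSw, cD4]) (by decide) tb4_mons ent4 hc hn⟩
  have h0 : ∃ n, DN n (tR cSw 7 [cSw, cSw, cSw, cSw, cSw, cSw, cSw, cSw]) :=
    ⟨0, by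
      rw [start_eq (fun j hj => by interval_cases j <;> rfl)]
      exact h.start⟩
  have h1 := traj_sound hP _ _ run4_0 h0
  have h2 := traj_sound hP _ _ run4_1 h1
  have h3 := traj_sound hP _ _ run4_2 h2
  have h4 := traj_sound hP _ _ run4_3 h3
  have h5 := traj_sound hP _ _ run4_4 h4
  have h6 := traj_sound hP _ _ run4_5 h5
  have h7 := traj_sound hP _ _ run4_6 h6
  have h8 := traj_sound hP _ _ run4_7 h7
  have h9 := traj_sound hP _ _ run4_8 h8
  have h10 := traj_sound hP _ _ run4_9 h9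
  have h11 := traj_sound hP _ _ run4_10 h10
  have h12 := traj_sound hP _ _ run4_11 h11
  have h13 := traj_sound hP _ _ run4_12 h12
  have h14 := traj_sound hP _ _ run4_13 h13
  have h15 := traj_sound hP _ _ run4_14 h14
  have h16 := traj_sound hP _ _ run4_15 h15
  have h17 := traj_sound hP _ _ run4_16 h16
  have h18 := traj_sound hP _ _ run4_17 h17
  obtain ⟨n, hn⟩ : ∃ n, DN n (tR cSw 7 [541664065, 332995551, 178295645, 91731892, 49061414,
    28717084, 20589667, 16350320]) := h18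
  refine ⟨n, _, hn, tails_of_ok (by decide +kernel) (by decide +kernel), ?_, ?_⟩
  · change ((541664065 : ℕ) : ℝ) / cSw ≤ _
    norm_num [cSw]
  · simp only [vOfTails, Finset.sum_range_succ, Finset.sum_range_zero]
    change 0 + ((332995551 : ℕ) : ℝ) / cSw * _ + ((178295645 : ℕ) : ℝ) / cSw * _ +
      ((91731892 : ℕ) : ℝ) / cSw * _ + ((49061414 : ℕ) : ℝ) / cSw * _ +
      ((28717084 : ℕ) : ℝ) / cSw * _ + ((20589667 : ℕ) : ℝ) / cSw * _ +
      ((16350320 : ℕ) : ℝ) / cSw * _ ≤ _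
    norm_num [cSw, δ4]

open Crest.Agent.R163.NE in
theorem node_run_five {DN : ℕ → (ℕ → ℝ) → Prop} (h : NSys 5 (-9 / 20) 1 δ5 DN) :
    ∃ n t, DN n t ∧ Tails 1 t ∧ t 0 ≤ 7 / 10 ∧ vOfTails 1 δ5 t ≤ 1 / 5 := by
  have hP : ∀ t t', chkStep cSw cB 1 cD5 tb5 t t' = true → (∃ n, DN n (tR cSw 1 t)) →
      ∃ n, DN n (tR cSw 1 t') := fun t t' hc ⟨n, hn⟩ =>
    ⟨n + 1, step_sound (d := 4) h (by decide +kernel) (by decide +kernel) (by norm_num [cS])
      (by norm_num [cS, cSw, cD5]) (by decide) tb5_mons ent5 hc hn⟩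
  have h0 : ∃ n, DN n (tR cSw 1 [cSw, cSw]) :=
    ⟨0, by
      rw [start_eq (fun j hj => by interval_cases j <;> rfl)]
      exact h.start⟩
  have h1 := traj_sound hP _ _ run5 h0
  obtain ⟨n, hn⟩ : ∃ n, DN n (tR cSw 1 [687445498, 196631219]) := h1
  refine ⟨n, _, hn, tails_of_ok (by decide +kernel) (by decide +kernel), ?_, ?_⟩
  · change ((687445498 : ℕ) : ℝ) / cSw ≤ _
    norm_num [cSw]
  · simp only [vOfTails, Finset.sum_range_succ, Finset.sum_range_zero]
    change 0 + ((196631219 : ℕ) : ℝ) / cSw * _ ≤ _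
    norm_num [cSw, δ5]

end Crest.Agent.R163
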