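import Crest.Agent.R163.SlabEngine

/-! Row 163: kernel-checked trajectories of the two-dimensional system. -/

set_option autoImplicit false

namespace Crest.Agent.R163

namespace Eng

theorem reg6 : chkReg 6 6 1000000 408248 408249 5 0 5 0 334 S S = true := by
  decide +kernel

theorem reg7 : chkReg 7 7 1000000 377964 377965 6 0 6 0 288 S S = true := by
  decide +kernel

theorem reg8 : chkReg 8 8 1000000 353553 353554 7 0 7 0 265 S S = true := by
  decide +kernel

theorem reg9 : chkReg 9 9 1000000 333333 333334 8 0 8 0 251 S S = true := by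
  decide +kernel

theorem reg10 : chkReg 10 10 1000000 316227 316228 9 0 9 0 240 S S = true := by
  decide +kernel

theorem reg11 : chkReg 11 11 1000000 301511 301512 10 0 10 0 233 S S = true := by
  decide +kernel

theorem reg12 : chkReg 12 12 1000000 288675 288676 11 0 11 0 226 S S = true := by
  decide +kernel

theorem reg13 : chkReg 13 13 1000000 277350 277351 12 0 12 0 221 S S = true := by
  decide +kernel

theorem reg14 : chkReg 14 15 1000000 258198 267262 13 0 14 0 290 S S = true := by
  decide +kernel

theorem reg16 : chkReg 16 18 1000000 235702 250000 15 0 17 0 345 S S = true := by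
  decide +kernel

theorem reg19 : chkReg 19 22 1000000 213200 229416 18 0 21 0 355 S S = true := by
  decide +kernel

theorem reg23 : chkReg 23 28 1000000 188982 208515 22 0 27 0 395 S S = true := by
  decide +kernel

theorem reg29 : chkReg 29 37 1000000 164398 185696 28 0 36 0 404 S S = true := by
  decide +kernel

theorem reg38 : chkReg 38 50 1000000 141421 162222 37 0 49 0 365 S S = true := by
  decide +kernel

theorem reg51 : chkReg 51 72 1000000 117851 140029 50 0 1 35 368 S S = true := by
  decide +kernel

theorem reg73 : chkReg 73 121 1000000 90909 117042 72 0 10 10 433 S S = true := by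
  decide +kernel

theorem reg122 : chkReg 122 236 1000000 65094 90536 1 60 3 58 382 S S = true := by
  decide +kernel

theorem reg237 : chkReg 237 772 1000000 35990 64957 2 78 17 42 442 S S = true := by
  decide +kernel

theorem reg773 : chkReg 773 5000 1000000 14142 35968 9 76 64 76 280 S S = true := by
  decide +kernel

theorem regInf : chkInf 5001 1000000 14141 63 77 209 = true := by
  decide +kernel

theorem reg4 : chkReg 4 4 1000000 500000 500000 3 0 3 0 338 9851624184873 2111062325330 = true := by
  decide +kernel

theorem reg5 : chkReg 5 5 1000000 447213 447214 4 0 4 0 349 12314530231092 3518437208884 = true := by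
  decide +kernel

theorem poi490 : chkPoi 1000 490 500 437 = true := by
  decide +kernel

theorem poi478 : chkPoi 1000 478 490 443 = true := by
  decide +kernel

theorem poi464 : chkPoi 1000 464 478 447 = true := by
  decide +kernel

theorem poi448 : chkPoi 1000 448 464 451 = true := by
  decide +kernel

theorem poi430 : chkPoi 1000 430 448 456 = true := by
  decide +kernel

theorem poi410 : chkPoi 1000 410 430 463 = true := by
  decide +kernel

theorem poi390 : chkPoi 1000 390 410 434 = true := by
  decide +kernel

theorem poi368 : chkPoi 1000 368 390 447 = true := by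
  decide +kernel

theorem poi344 : chkPoi 1000 344 368 463 = true := by
  decide +kernel

theorem poi320 : chkPoi 1000 320 344 440 = true := by
  decide +kernel

theorem poi294 : chkPoi 1000 294 320 461 = true := by
  decide +kernel

theorem poi268 : chkPoi 1000 268 294 441 = true := by
  decide +kernel

theorem poi242 : chkPoi 1000 242 268 424 = true := by
  decide +kernel

theorem poi214 : chkPoi 1000 214 242 453 = true := by
  decide +kernel

theorem poi186 : chkPoi 1000 186 214 437 = true := by
  decide +kernel

theorem poi158 : chkPoi 1000 158 186 423 = true := by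
  decide +kernel

theorem poi128 : chkPoi 1000 128 158 461 = true := by
  decide +kernel

theorem poi98 : chkPoi 1000 98 128 448 = true := by
  decide +kernel

theorem poi68 : chkPoi 1000 68 98 437 = true := by
  decide +kernel

theorem poi38 : chkPoi 1000 38 68 426 = true := by
  decide +kernel

theorem poi8 : chkPoi 1000 8 38 417 = true := by
  decide +kernel

theorem poi0 : chkPoi 1000 0 8 178 = true := by
  decide +kernel

end Eng

open Eng

theorem dies_reg {d : ℕ} (hd : 6 ≤ d) {l : ℝ} (hl0 : 0 ≤ l) (hl : l ^ 2 * d = 1)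
    {D : ℕ → ℝ → ℝ → Prop} (hS : Sys l (fReg d) D) (h0 : D 0 1 1) : Dies D := by
  have h1 : D 0 ((S : ℝ) / S) ((S : ℝ) / S) := by rw [div_self S_posR.ne']; exact h0
  by_cases c6 : d ≤ 6
  · exact reg_slab reg6 (by omega) c6 hl0 hl hS h1
  by_cases c7 : d ≤ 7
  · exact reg_slab reg7 (by omega) c7 hl0 hl hS h1
  by_cases c8 : d ≤ 8
  · exact reg_slab reg8 (by omega) c8 hl0 hl hS h1
  by_cases c9 : d ≤ 9
  · exact reg_slab reg9 (by omega) c9 hl0 hl hS h1
  by_cases c10 : d ≤ 10
  · exact reg_slab reg10 (by omega) c10 hl0 hl hS h1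
  by_cases c11 : d ≤ 11
  · exact reg_slab reg11 (by omega) c11 hl0 hl hS h1
  by_cases c12 : d ≤ 12
  · exact reg_slab reg12 (by omega) c12 hl0 hl hS h1
  by_cases c13 : d ≤ 13
  · exact reg_slab reg13 (by omega) c13 hl0 hl hS h1
  by_cases c14 : d ≤ 15
  · exact reg_slab reg14 (by omega) c14 hl0 hl hS h1
  by_cases c16 : d ≤ 18
  · exact reg_slab reg16 (by omega) c16 hl0 hl hS h1
  by_cases c19 : d ≤ 22
  · exact reg_slab reg19 (by omega) c19 hl0 hl hS h1
  by_cases c23 : d ≤ 28
  · exact reg_slab reg23 (by omega) c23 hl0 hl hS h1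
  by_cases c29 : d ≤ 37
  · exact reg_slab reg29 (by omega) c29 hl0 hl hS h1
  by_cases c38 : d ≤ 50
  · exact reg_slab reg38 (by omega) c38 hl0 hl hS h1
  by_cases c51 : d ≤ 72
  · exact reg_slab reg51 (by omega) c51 hl0 hl hS h1
  by_cases c73 : d ≤ 121
  · exact reg_slab reg73 (by omega) c73 hl0 hl hS h1
  by_cases c122 : d ≤ 236
  · exact reg_slab reg122 (by omega) c122 hl0 hl hS h1
  by_cases c237 : d ≤ 772
  · exact reg_slab reg237 (by omega) c237 hl0 hl hS h1
  by_cases c773 : d ≤ 5000
  · exact reg_slab reg773 (by omega) c773 hl0 hl hS h1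
  exact inf_slab regInf (by omega) hl0 hl hS h0

theorem dies_poi {l : ℝ} (hl0 : 0 ≤ l) (hl : l ≤ 1 / 2)
    {D : ℕ → ℝ → ℝ → Prop} (hS : Sys l fPoi D) (h0 : D 0 1 1) : Dies D := by
  have c500 : l * 1000 ≤ 500 := by linarith
  rcases le_total (490 : ℝ) (l * 1000) with h | c490
  · exact poi_slab poi490 (by exact_mod_cast h) (by exact_mod_cast c500) hS h0
  rcases le_total (478 : ℝ) (l * 1000) with h | c478
  · exact poi_slab poi478 (by exact_mod_cast h) (by exact_mod_cast c490) hS h0
  rcases le_total (464 : ℝ) (l * 1000) with h | c464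
  · exact poi_slab poi464 (by exact_mod_cast h) (by exact_mod_cast c478) hS h0
  rcases le_total (448 : ℝ) (l * 1000) with h | c448
  · exact poi_slab poi448 (by exact_mod_cast h) (by exact_mod_cast c464) hS h0
  rcases le_total (430 : ℝ) (l * 1000) with h | c430
  · exact poi_slab poi430 (by exact_mod_cast h) (by exact_mod_cast c448) hS h0
  rcases le_total (410 : ℝ) (l * 1000) with h | c410
  · exact poi_slab poi410 (by exact_mod_cast h) (by exact_mod_cast c430) hS h0
  rcases le_total (390 : ℝ) (l * 1000) with h | c390
  · exact poi_slab poi390 (by exact_mod_cast h) (by exact_mod_cast c410) hS h0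
  rcases le_total (368 : ℝ) (l * 1000) with h | c368
  · exact poi_slab poi368 (by exact_mod_cast h) (by exact_mod_cast c390) hS h0
  rcases le_total (344 : ℝ) (l * 1000) with h | c344
  · exact poi_slab poi344 (by exact_mod_cast h) (by exact_mod_cast c368) hS h0
  rcases le_total (320 : ℝ) (l * 1000) with h | c320
  · exact poi_slab poi320 (by exact_mod_cast h) (by exact_mod_cast c344) hS h0
  rcases le_total (294 : ℝ) (l * 1000) with h | c294
  · exact poi_slab poi294 (by exact_mod_cast h) (by exact_mod_cast c320) hS h0
  rcases le_total (268 : ℝ) (l * 1000) with h | c268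
  · exact poi_slab poi268 (by exact_mod_cast h) (by exact_mod_cast c294) hS h0
  rcases le_total (242 : ℝ) (l * 1000) with h | c242
  · exact poi_slab poi242 (by exact_mod_cast h) (by exact_mod_cast c268) hS h0
  rcases le_total (214 : ℝ) (l * 1000) with h | c214
  · exact poi_slab poi214 (by exact_mod_cast h) (by exact_mod_cast c242) hS h0
  rcases le_total (186 : ℝ) (l * 1000) with h | c186
  · exact poi_slab poi186 (by exact_mod_cast h) (by exact_mod_cast c214) hS h0
  rcases le_total (158 : ℝ) (l * 1000) with h | c158
  · exact poi_slab poi158 (by exact_mod_cast h) (by exact_mod_cast c186) hS h0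
  rcases le_total (128 : ℝ) (l * 1000) with h | c128
  · exact poi_slab poi128 (by exact_mod_cast h) (by exact_mod_cast c158) hS h0
  rcases le_total (98 : ℝ) (l * 1000) with h | c98
  · exact poi_slab poi98 (by exact_mod_cast h) (by exact_mod_cast c128) hS h0
  rcases le_total (68 : ℝ) (l * 1000) with h | c68
  · exact poi_slab poi68 (by exact_mod_cast h) (by exact_mod_cast c98) hS h0
  rcases le_total (38 : ℝ) (l * 1000) with h | c38
  · exact poi_slab poi38 (by exact_mod_cast h) (by exact_mod_cast c68) hS h0
  rcases le_total (8 : ℝ) (l * 1000) with h | c8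
  · exact poi_slab poi8 (by exact_mod_cast h) (by exact_mod_cast c38) hS h0
  exact poi_slab poi0 (by push_cast; linarith) (by exact_mod_cast c8) hS h0

theorem dies_four {D : ℕ → ℝ → ℝ → Prop} (hS : Sys (1 / 2) (fReg 4) D) {n : ℕ}
    (h0 : D n (14 / 25) (3 / 25)) : Dies D :=
  reg_slab (n := n) reg4 le_rfl le_rfl (by norm_num) (by norm_num) hS
    (hS.mono _ _ _ _ _ h0 (by norm_num [S]) (by norm_num [S]))

theorem dies_five {l : ℝ} (hl0 : 0 ≤ l) (hl : l ^ 2 * 5 = 1)
    {D : ℕ → ℝ → ℝ → Prop} (hS : Sys l (fReg 5) D) {n : ℕ}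
    (h0 : D n (7 / 10) (1 / 5)) : Dies D :=
  reg_slab (n := n) reg5 le_rfl le_rfl hl0 (by exact_mod_cast hl) hS
    (hS.mono _ _ _ _ _ h0 (by norm_num [S]) (by norm_num [S]))

end Crest.Agent.R163
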