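import Crest.Agent.R163.Trees
import Crest.Agent.R163.EG
import Crest.Agent.R163.Slabs
import Crest.Agent.R163.NodeRun

/-! Row 163: non-reconstruction for the antiferromagnetic three-state channel. -/

set_option autoImplicit false

namespace Crest.Agent.R163

open Crest.ProbabilityR.Broadcast

theorem anti_low_congr (L : List (ℚ × ℚ × ℚ)) (hL : ∀ t ∈ L, t.2.1 ≤ 1 ∧ t.2.2 ≤ 1)
    {f g : ℝ → ℝ} {c a b : ℝ} (ha : 0 ≤ c * a) (hb : 0 ≤ c * b) (hab : c * a + c * b ≤ 1)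
    (hfg : ∀ s, c * s ≤ 1 → f s = g (c * s)) : low L f a b = low L g (c * a) (c * b) := by
  unfold low
  congr 1
  refine List.map_congr_left fun t ht => ?_
  have h1 : (t.2.1 : ℝ) ≤ 1 := by exact_mod_cast (hL t ht).1
  have h2 : (t.2.2 : ℝ) ≤ 1 := by exact_mod_cast (hL t ht).2
  have e : c * ((t.2.1 : ℝ) * a + (t.2.2 : ℝ) * b) = t.2.1 * (c * a) + t.2.2 * (c * b) := by ring
  rw [hfg _ (by rw [e]; nlinarith), e]

theorem anti_termsT : ∀ t ∈ termsT, t.2.1 ≤ 1 ∧ t.2.2 ≤ 1 := by decide +kernel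

theorem anti_termsV : ∀ t ∈ termsV, t.2.1 ≤ 1 ∧ t.2.2 ≤ 1 := by decide +kernel

theorem anti_hasSum_low (L : List (ℚ × ℚ × ℚ)) (d a b : ℝ) :
    HasSum (fun n => pw d n * low L (fun s => (1 - s) ^ n) a b)
      (low L (fun s => Real.exp (-(d * s))) a b) := by
  induction L with
  | nil => simp [low, hasSum_zero]
  | cons t L ih =>
    have h := ((hasSum_pw d (1 - ((t.2.1 : ℝ) * a + (t.2.2 : ℝ) * b))).mul_left (t.1 : ℝ)).add ih
    rw [sub_sub_cancel] at h
    unfold low at h ⊢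
    simp only [List.map_cons, List.sum_cons]
    exact h.congr_fun fun n => by ring

theorem sys_reg {b d : ℕ} (hbd : b ≤ d) (hd : 4 ≤ d) {l lam : ℝ} (hl0 : 0 ≤ l)
    (hl : l ^ 2 * d = 1) (hlam : -l ≤ lam) (hlam0 : lam ≤ 0) (hc : ChanOK 3 lam) :
    Sys l (fReg d) (fun n T v => DomEC (regEx b lam hc n) T v) := by
  have hd' : (4 : ℝ) ≤ d := by exact_mod_cast hd
  have hl2 : l ≤ 1 / 2 := by
    by_contra hh
    push Not at hh
    have : 1 / 4 < l ^ 2 := by nlinarith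
    nlinarith
  refine ⟨fun n T v T' v' h hT hv => h.mono hT hv, fun n T v T' v' h0 h1 h2 h hT hv => ?_⟩
  have ha : 0 ≤ l ^ 2 * muE l T v := mul_nonneg (sq_nonneg l) (muE_nonneg hl0 hl2 h0 h1)
  have hb : 0 ≤ l ^ 2 * muG l T v := mul_nonneg (sq_nonneg l) (muG_nonneg hl0 hl2 h0 h1)
  have hab := mu_sum_le hl0 hl2 h0 h1 h2
  have hf : ∀ s, l ^ 2 * s ≤ 1 → fReg d s = (fun s => (1 - s) ^ d) (l ^ 2 * s) := by
    intro s hs
    have e : s / d = l ^ 2 * s := by
      rw [div_eq_iff (by linarith)]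
      linear_combination (-s) * hl
    unfold fReg
    rw [e, max_eq_right (by linarith)]
  rw [anti_low_congr (g := fun s => (1 - s) ^ d) _ anti_termsT ha hb hab hf] at hT
  rw [anti_low_congr (g := fun s => (1 - s) ^ d) _ anti_termsV ha hb hab hf] at hv
  refine DomEC.of_ln ((h.chan_ln h0 h1 h2 hl2 hlam hlam0 hc (mixOK_EG ha hb hab)).pow hbd)
    (upgrade_EC ((sym_symMix _).pow d) (hT.imp_left fun hT => ?_) (hv.imp_left fun hv => ?_))
  · have := pow_EG_phiT ha hb hab d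
    linarith
  · have := pow_EG_phiV ha hb hab d
    linarith

theorem sys_poi {d l lam : ℝ} (hd : 0 ≤ d) (hl0 : 0 < l) (hl : l ≤ 1 / 2) (hdl : d * l ^ 2 ≤ 1)
    (hlam : -l ≤ lam) (hlam0 : lam ≤ 0) (hc : ChanOK 3 lam) :
    Sys l fPoi (fun n T v => DomEC (gwEx lam d hc hd n) T v) := by
  refine ⟨fun n T v T' v' h hT hv => h.mono hT hv, fun n T v T' v' h0 h1 h2 h hT hv => ?_⟩
  have ha : 0 ≤ l ^ 2 * muE l T v := mul_nonneg (sq_nonneg l) (muE_nonneg hl0.le hl h0 h1)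
  have hb : 0 ≤ l ^ 2 * muG l T v := mul_nonneg (sq_nonneg l) (muG_nonneg hl0.le hl h0 h1)
  have hab := mu_sum_le hl0.le hl h0 h1 h2
  have hl2 : 0 < l ^ 2 := by positivity
  have hdd : d ≤ 1 / l ^ 2 := by rwa [le_div_iff₀ hl2]
  have hf : ∀ s, l ^ 2 * s ≤ 1 →
      fPoi s = (fun s => Real.exp (-(1 / l ^ 2 * s))) (l ^ 2 * s) := by
    intro s _
    unfold fPoi
    congr 2
    field_simp
  rw [anti_low_congr (g := fun s => Real.exp (-(1 / l ^ 2 * s))) _ anti_termsT ha hb hab hf] at hT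
  rw [anti_low_congr (g := fun s => Real.exp (-(1 / l ^ 2 * s))) _ anti_termsV ha hb hab hf] at hv
  refine DomEC.of_ln ((h.chan_ln h0 h1 h2 hl hlam hlam0 hc (mixOK_EG ha hb hab)).pois hd hdd)
    (upgrade_EC ((sym_symMix _).pois _) (hT.imp_left fun hT => ?_) (hv.imp_left fun hv => ?_))
  · have := hasSum_le (fun n => mul_le_mul_of_nonneg_left (pow_EG_phiT ha hb hab n)
      (pw_nonneg (hd.trans hdd) n)) (anti_hasSum_low termsT _ _ _)
      (hasSum_pois _ (hd.trans hdd) good_phiT)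
    linarith
  · have := hasSum_le (fun n => mul_le_mul_of_nonneg_left (pow_EG_phiV ha hb hab n)
      (pw_nonneg (hd.trans hdd) n)) (anti_hasSum_low termsV _ _ _)
      (hasSum_pois _ (hd.trans hdd) good_phiV)
    linarith

theorem nsys_reg {b d : ℕ} (hbd : b ≤ d) {lam lam' : ℝ} (hlam : lam' ≤ lam) (hlam0 : lam ≤ 0)
    (hc : ChanOK 3 lam) (hc' : ChanOK 3 lam') {m : ℕ} {δ : ℕ → ℝ} (hδ : Nodes m δ) :
    NSys d lam' m δ (fun n t => DomN (regEx b lam hc n) m δ t) := by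
  refine ⟨domN_full hδ, fun n t t' ht h h0 hs => ?_⟩
  refine DomN.of_ln ((h.chan_ln hδ ht hlam hlam0 hc hc').pow hbd)
    (upgrade_nodes ((sym_symMix _).pow d) hδ ?_ fun j hj => ?_)
  · rw [E_pow_symMix _ (good_Tail δ 0)]
    exact h0
  · rw [E_pow_symMix _ (good_Tail δ (j + 1))]
    exact hs j hj

theorem tendsto_of_dies (P : ℕ → Ex.{0} 3) (h : Dies (fun n T v => DomEC (P n) T v)) :
    Filter.Tendsto (fun n => (P n).E TVh) Filter.atTop (nhds 0) := by
  refine tendsto_TV (by norm_num) P (Metric.tendsto_atTop.2 fun ε hε => ?_)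
  obtain ⟨N, hN⟩ := h (ε / 4) (by positivity)
  refine ⟨N, fun n hn => ?_⟩
  have h1 := DomEC.x_le (hN n hn)
  rw [Real.dist_eq, sub_zero, abs_of_nonneg (P n).x_nonneg]
  linarith

theorem anti_chanOK {lam : ℝ} (h0 : -(1 / 2 : ℝ) ≤ lam) (h1 : lam ≤ 0) : ChanOK 3 lam :=
  ⟨by norm_num, by linarith, by push_cast; linarith⟩

theorem anti_reg {b : ℕ} {lam : ℝ} (h0 : -(1 / 2 : ℝ) ≤ lam) (h1 : lam ≤ 0)
    (hcrit : (b : ℝ) * lam ^ 2 ≤ 1) :
    Filter.Tendsto (advantage 3 b lam) Filter.atTop (nhds 0) := by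
  have hc := anti_chanOK h0 h1
  rw [show advantage 3 b lam = fun n => (regEx b lam hc n).E TVh from
    funext fun n => advantage_eq b lam hc n]
  apply tendsto_of_dies
  rcases le_or_gt b 4 with hb | hb
  · have hS := sys_reg (l := 1 / 2) hb le_rfl (by norm_num) (by norm_num) h0 h1 hc
    obtain ⟨n, t, h2, h3, h4, h5⟩ := node_run_four (nsys_reg (lam' := -1 / 2) hb (by linarith) h1 hc
      (anti_chanOK (by norm_num) (by norm_num)) nodes_four)
    exact dies_four hS (n := n) ((DomN.domEC nodes_four h3 h2).mono h4 h5)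
  · have hb' : (5 : ℝ) ≤ b := by exact_mod_cast hb
    have hl0 : 0 ≤ √(1 / (b : ℝ)) := Real.sqrt_nonneg _
    have hl : √(1 / (b : ℝ)) ^ 2 * b = 1 := by
      rw [Real.sq_sqrt (by positivity)]
      field_simp
    have hlam : -√(1 / (b : ℝ)) ≤ lam := by
      apply neg_le_of_abs_le
      apply Real.abs_le_sqrt
      rw [le_div_iff₀ (by linarith)]
      linarith
    have hS := sys_reg le_rfl (by omega) hl0 hl hlam h1 hc
    rcases (show 5 ≤ b from hb).eq_or_lt with h5 | h5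
    · subst h5
      have hlam' : (-9 / 20 : ℝ) ≤ lam := by
        push_cast at hcrit
        nlinarith
      obtain ⟨n, t, h2, h3, h4, h5⟩ := node_run_five (nsys_reg (lam' := -9 / 20) le_rfl hlam' h1 hc
        (anti_chanOK (by norm_num) (by norm_num)) nodes_five)
      exact dies_five hl0 (by exact_mod_cast hl) hS (n := n)
        ((DomN.domEC nodes_five h3 h2).mono h4 h5)
    · exact dies_reg h5 hl0 hl hS domEC_full

theorem anti_gw {d : ℝ} (hd : 0 ≤ d) {lam : ℝ} (h0 : -(1 / 2 : ℝ) ≤ lam) (h1 : lam ≤ 0)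
    (hcrit : d * lam ^ 2 ≤ 1) :
    Filter.Tendsto (gwAdvantage 3 lam d) Filter.atTop (nhds 0) := by
  have hc := anti_chanOK h0 h1
  rw [show gwAdvantage 3 lam d = fun n => (gwEx lam d hc hd n).E TVh from
    funext fun n => gwAdvantage_eq lam d hc hd n]
  apply tendsto_of_dies
  obtain ⟨l, hl0, hl, hdl, hlam⟩ : ∃ l : ℝ, 0 < l ∧ l ≤ 1 / 2 ∧ d * l ^ 2 ≤ 1 ∧ -l ≤ lam := by
    rcases h1.eq_or_lt with h | h
    · refine ⟨1 / (d + 2), by positivity, ?_, ?_, ?_⟩
      · exact one_div_le_one_div_of_le (by norm_num) (by linarith)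
      · rw [div_pow, one_pow, mul_one_div, div_le_one (by positivity)]
        nlinarith
      · rw [h, neg_nonpos]
        positivity
    · exact ⟨-lam, by linarith, by linarith, by rw [neg_sq]; exact hcrit, by linarith⟩
  exact dies_poi hl0.le hl (sys_poi hd hl0 hl hdl hlam h1 hc) domEC_full

end Crest.Agent.R163
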