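import Crest.Agent.R163.Ex
import Crest.Prelude.Def_TreeBroadcast

/-! Row 163: the experiments attached to the vertices of a general tree, observed at level `n`. -/

set_option autoImplicit false

namespace Crest.Agent.R163

open Crest.ProbabilityR.Broadcast Crest.ProbabilityR.TreeBroadcast

universe u

variable {q : ℕ} {V : Type u} [DecidableEq V]

/-- `P v` is the experiment "descendants of `v` on level `n`, the spin of a level-`n` vertex `w`
being seen through the channel with parameter `τ w`"; `A v t` are the partial merges over the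
children in `t`. -/
structure IsFam (T : LocFinTree V) (lam : ℝ) (hl : ChanOK q lam) (n : ℕ) (τ : V → ℝ)
    (hτ : ∀ v, ChanOK q (τ v)) (P : V → Ex.{u} q) (A : V → Finset V → Ex.{u} q) : Prop where
  leaf : ∀ v, T.depth v = n → Eqv (P v) ((full q).chan (τ v) (hτ v))
  empty : ∀ v, T.depth v < n → Eqv (A v ∅) (null.{u} q)
  insert : ∀ v, T.depth v < n → ∀ (t : Finset V) (w : V), w ∉ t → insert w t ⊆ T.children v →
    Eqv (A v (insert w t)) ((A v t).merge ((P w).chan lam hl))
  node : ∀ v, T.depth v < n → Eqv (P v) (A v (T.children v))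

namespace TreeFam

open Finset

section indep

variable {ι : Type u} [Fintype ι] [DecidableEq ι]

/-- independence of functions of disjoint sets of coordinates -/
theorem indep {X Y : Type*} (a : (ι → Fin q) → X) (b : (ι → Fin q) → Y) (S : ι → Prop)
    (ha : ∀ s s', (∀ x, S x → s x = s' x) → a s = a s')
    (hb : ∀ s s', (∀ x, ¬ S x → s x = s' x) → b s = b s') (Φ : X → Y → ℝ) :
    ∑ s, ∑ s', Φ (a s) (b s') = (Fintype.card (ι → Fin q) : ℝ) * ∑ s, Φ (a s) (b s) := by
  classical
  let sw : (ι → Fin q) × (ι → Fin q) → (ι → Fin q) × (ι → Fin q) := fun p =>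
    (fun x => if S x then p.1 x else p.2 x, fun x => if S x then p.2 x else p.1 x)
  have hsw : Function.Involutive sw := by
    rintro ⟨s, s'⟩
    ext x <;> by_cases hx : S x <;> simp [sw, hx]
  rw [← Fintype.sum_prod_type']
  rw [← hsw.bijective.sum_comp]
  have : ∀ p : (ι → Fin q) × (ι → Fin q),
      Φ (a (sw p).1) (b (sw p).2) = Φ (a p.1) (b p.1) := by
    rintro ⟨s, s'⟩
    rw [ha (sw (s, s')).1 s (fun x hx => by simp [sw, hx]),
      hb (sw (s, s')).2 s (fun x hx => by simp [sw, hx])]
  simp only [this]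
  rw [Fintype.sum_prod_type]
  simp only [sum_const, card_univ, nsmul_eq_mul]
  rw [mul_sum]

theorem card_pos (hq : 0 < q) : (0 : ℝ) < Fintype.card (ι → Fin q) := by
  have : Nonempty (Fin q) := ⟨⟨0, hq⟩⟩
  exact_mod_cast Fintype.card_pos

theorem sum_coord (v : ι) (φ : Fin q → ℝ) :
    (q : ℝ) * ∑ s : ι → Fin q, φ (s v) = (Fintype.card (ι → Fin q) : ℝ) * ∑ j, φ j := by
  have h1 : ∑ s : ι → Fin q, φ (s v)
      = ∑ p : Fin q × ({j // j ≠ v} → Fin q), φ p.1 := by
    rw [← Equiv.sum_comp (Equiv.funSplitAt v (Fin q))]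
    rfl
  have h2 : Fintype.card (ι → Fin q) = q * Fintype.card ({j // j ≠ v} → Fin q) := by
    rw [Fintype.card_congr (Equiv.funSplitAt v (Fin q)), Fintype.card_prod, Fintype.card_fin]
  rw [h1, h2, Fintype.sum_prod_type]
  simp only [sum_const, card_univ, nsmul_eq_mul]
  rw [← mul_sum]
  push_cast
  ring

/-- the experiment with uniform reference measure and likelihood ratios `a` -/
noncomputable def mkEx (hq : 0 < q) (a : (ι → Fin q) → Vec q) (ha : ∀ s, NN (a s))
    (h1 : ∀ i, ∑ s, a s i = Fintype.card (ι → Fin q)) : Ex.{u} q where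
  Ω := ι → Fin q
  p := fun s => (Fintype.card (ι → Fin q) : ℝ)⁻¹ • a s
  nonneg := fun s i => mul_nonneg (by positivity) (ha s i)
  sum_one := fun i => by
    have := hasSum_fintype fun s : ι → Fin q => ((Fintype.card (ι → Fin q) : ℝ)⁻¹ • a s) i
    convert this using 1
    simp only [Pi.smul_apply, smul_eq_mul]
    rw [← mul_sum, h1, inv_mul_cancel₀ (card_pos hq).ne']

theorem mkEx_E (hq : 0 < q) (a : (ι → Fin q) → Vec q) (ha : ∀ s, NN (a s))
    (h1 : ∀ i, ∑ s, a s i = Fintype.card (ι → Fin q)) (F : Vec q → ℝ) :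
    (mkEx hq a ha h1).E F = ∑ s, F ((Fintype.card (ι → Fin q) : ℝ)⁻¹ • a s) :=
  tsum_fintype (L := SummationFilter.unconditional _)
    fun s : ι → Fin q => F ((Fintype.card (ι → Fin q) : ℝ)⁻¹ • a s)

theorem mkEx_E' (hq : 0 < q) (a : (ι → Fin q) → Vec q) (ha : ∀ s, NN (a s))
    (h1 : ∀ i, ∑ s, a s i = Fintype.card (ι → Fin q)) {F : Vec q → ℝ} (hF : Good F) :
    (mkEx hq a ha h1).E F = (Fintype.card (ι → Fin q) : ℝ)⁻¹ * ∑ s, F (a s) := by
  rw [mkEx_E, mul_sum]
  exact sum_congr rfl fun s _ => hF.2 _ _ (by positivity) (ha s)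

end indep

theorem Kv_smul (lam c : ℝ) (x : Vec q) : Kv lam (c • x) = c • Kv lam x := by
  funext i
  simp only [Kv, Pi.smul_apply, smul_eq_mul, mul_sum]
  exact sum_congr rfl fun j _ => by ring

theorem sum_channel (hq : 0 < q) (lam : ℝ) (i : Fin q) : ∑ j, channel q lam i j = 1 := by
  have : (q : ℝ) ≠ 0 := by positivity
  simp only [channel, sum_add_distrib, sum_ite_eq, mem_univ, if_true, sum_const, card_univ,
    Fintype.card_fin, nsmul_eq_mul]
  field_simp
  ring

theorem sum_Kv {Ω : Type*} [Fintype Ω] (hq : 0 < q) (lam : ℝ) (a : Ω → Vec q) {N : ℝ}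
    (h : ∀ i, ∑ s, a s i = N) (i : Fin q) : ∑ s, Kv lam (a s) i = N := by
  simp only [Kv]
  rw [sum_comm]
  simp only [← mul_sum, h]
  rw [← sum_mul, sum_channel hq, one_mul]

theorem Kv_one (x : Vec q) : Kv 1 x = x := by
  funext i
  simp [Kv, channel]

theorem vtx_nn (j : Fin q) : NN (vtx j) := fun i => by
  unfold vtx; split_ifs <;> positivity

theorem nn_prod {κ : Type*} (t : Finset κ) (f : κ → Vec q) (hf : ∀ w, NN (f w)) :
    NN (∏ w ∈ t, f w) := fun i => by
  rw [Finset.prod_apply]
  exact prod_nonneg fun w _ => hf w i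

variable (T : LocFinTree V) (lam : ℝ) (n : ℕ) (τ : V → ℝ)

/-- likelihood ratios of the subtree of `v` of height `m` -/
noncomputable def g : ℕ → V → (T.level n → Fin q) → Vec q
  | 0, v, s => if h : v ∈ T.level n then Kv (τ v) (vtx (s ⟨v, h⟩)) else 1
  | m + 1, v, s => ∏ w ∈ T.children v, Kv lam (g m w s)

/-- partial products -/
noncomputable def ap (m : ℕ) (t : Finset V) (s : T.level n → Fin q) : Vec q :=
  ∏ w ∈ t, Kv lam (g T lam n τ m w s)

theorem g_succ (m : ℕ) (v : V) (s : T.level n → Fin q) :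
    g T lam n τ (m + 1) v s = ap T lam n τ m (T.children v) s := rfl

variable {T lam n τ}

theorem g_nn (hl : ChanOK q lam) (hτ : ∀ v, ChanOK q (τ v)) :
    ∀ (m : ℕ) (v : V) (s : T.level n → Fin q), NN (g T lam n τ m v s)
  | 0, v, s => by
    unfold g
    split_ifs
    · exact Kv_nonneg (hτ v) (vtx_nn _)
    · exact fun _ => zero_le_one
  | m + 1, v, s => nn_prod _ _ fun w => Kv_nonneg hl (g_nn hl hτ m w s)

theorem ap_nn (hl : ChanOK q lam) (hτ : ∀ v, ChanOK q (τ v)) (m : ℕ) (t : Finset V)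
    (s : T.level n → Fin q) : NN (ap T lam n τ m t s) :=
  nn_prod _ _ fun w => Kv_nonneg hl (g_nn hl hτ m w s)

theorem g_dep : ∀ (m : ℕ) (v : V) (s s' : T.level n → Fin q),
    (∀ x : T.level n, T.parent^[m] x.1 = v → s x = s' x) → g T lam n τ m v s = g T lam n τ m v s'
  | 0, v, s, s', h => by
    unfold g
    split_ifs with hv
    · rw [h ⟨v, hv⟩ rfl]
    · rfl
  | m + 1, v, s, s', h => by
    unfold g
    refine prod_congr rfl fun w hw => ?_
    rw [g_dep m w s s' fun x hx => h x ?_]
    rw [Function.iterate_succ_apply', hx]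
    exact (mem_filter.1 hw).2

theorem ap_dep (m : ℕ) {t : Finset V} {w : V} (hw : w ∉ t) (s s' : T.level n → Fin q)
    (h : ∀ x : T.level n, ¬ (T.parent^[m] x.1 = w) → s x = s' x) :
    ap T lam n τ m t s = ap T lam n τ m t s' := by
  unfold ap
  refine prod_congr rfl fun w' hw' => ?_
  rw [g_dep m w' s s' fun x hx => h x ?_]
  rw [hx]
  rintro rfl
  exact hw hw'

theorem ap_insert (m : ℕ) {t : Finset V} {w : V} (hw : w ∉ t) (s : T.level n → Fin q) :
    ap T lam n τ m (insert w t) s = ap T lam n τ m t s * Kv lam (g T lam n τ m w s) := by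
  unfold ap
  rw [prod_insert hw, mul_comm]

theorem ap_indep (m : ℕ) {t : Finset V} {w : V} (hw : w ∉ t) (Φ : Vec q → Vec q → ℝ) :
    ∑ s : T.level n → Fin q, ∑ s' : T.level n → Fin q, Φ (ap T lam n τ m t s) (g T lam n τ m w s')
      = (Fintype.card (T.level n → Fin q) : ℝ) *
        ∑ s : T.level n → Fin q, Φ (ap T lam n τ m t s) (g T lam n τ m w s) :=
  indep (ap T lam n τ m t) (g T lam n τ m w) (fun x => ¬ (T.parent^[m] x.1 = w))
    (ap_dep m hw) (fun s s' h => g_dep m w s s' fun x hx => h x (not_not.2 hx)) Φ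

theorem ap_sum (hq : 0 < q) (m : ℕ)
    (hg : ∀ (v : V) (i : Fin q), ∑ s : T.level n → Fin q, g T lam n τ m v s i
      = Fintype.card (T.level n → Fin q)) (t : Finset V) (i : Fin q) :
    ∑ s : T.level n → Fin q, ap T lam n τ m t s i = Fintype.card (T.level n → Fin q) := by
  induction t using Finset.induction_on with
  | empty => simp [ap]
  | insert w t hw ih =>
    have h1 := ap_indep (T := T) (lam := lam) (n := n) (τ := τ) m hw
      (fun a b : Vec q => a i * Kv lam b i)
    simp only [← mul_sum, sum_Kv hq lam _ (hg w) i] at h1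
    rw [← sum_mul, ih] at h1
    simp only [ap_insert m hw, Pi.mul_apply]
    exact (mul_left_cancel₀ (card_pos hq).ne' h1).symm

theorem g_sum (hq : 0 < q) : ∀ (m : ℕ) (v : V) (i : Fin q),
    ∑ s : T.level n → Fin q, g T lam n τ m v s i = Fintype.card (T.level n → Fin q)
  | 0, v, i => by
    unfold g
    split_ifs with hv
    · apply sum_Kv hq
      intro j
      have h1 := sum_coord (q := q) (⟨v, hv⟩ : T.level n) (fun k => vtx k j)
      have h2 : ∑ k : Fin q, vtx k j = q := by simp [vtx]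
      rw [h2, mul_comm] at h1
      exact mul_right_cancel₀ (by positivity) h1
    · simp
  | m + 1, v, i => ap_sum hq m (g_sum hq m) _ i

omit [DecidableEq V] in
theorem parent_mem {k : ℕ} {v : V} (hv : v ∈ T.level (k + 1)) : T.parent v ∈ T.level k := by
  have hd : T.depth v = k + 1 := (T.mem_level_iff _ _).1 hv
  have hne : v ≠ T.root := fun h => by
    have := (T.depth_eq_zero_iff v).2 h; omega
  have := T.depth_parent v hne
  exact (T.mem_level_iff _ _).2 (by omega)

theorem link (hτ : ∀ v, τ v = 1) (i : Fin q) (s : T.level n → Fin q) : ∀ (m k : ℕ), k + m = n →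
    (Fintype.card (T.level n → Fin q) : ℝ) * levelLaw q T lam n i s
      = ∑ σ : T.level k → Fin q, levelLaw q T lam k i σ *
        ∏ v : T.level k, g T lam n τ m v.1 s (σ v)
  | 0, k, h => by
    obtain rfl : k = n := h
    have h1 : ∀ σ : T.level k → Fin q, ∏ v : T.level k, g T lam k τ 0 v.1 s (σ v)
        = if σ = s then (Fintype.card (T.level k → Fin q) : ℝ) else 0 := by
      intro σ
      have h2 : ∀ v : T.level k, g T lam k τ 0 v.1 s (σ v) = if s v = σ v then (q : ℝ) else 0 := by
        intro v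
        simp only [g, dif_pos v.2, hτ, Kv_one, vtx]
      simp only [h2]
      split_ifs with hσ
      · simp [hσ]
      · obtain ⟨v, hv⟩ := Function.ne_iff.1 hσ
        exact prod_eq_zero (mem_univ v) (if_neg (Ne.symm hv))
    simp only [h1, mul_ite, mul_zero, sum_ite_eq', mem_univ, if_true]
    ring
  | m + 1, k, h => by
    rw [link hτ i s m (k + 1) (by omega)]
    have e : ∀ σ' : T.level (k + 1) → Fin q, levelLaw q T lam (k + 1) i σ'
        = ∑ σ : T.level k → Fin q, levelLaw q T lam k i σ *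
          ∏ w : T.level (k + 1), channel q lam (σ ⟨T.parent w.1, parent_mem w.2⟩) (σ' w) :=
      fun _ => rfl
    simp only [e, sum_mul]
    rw [sum_comm]
    refine sum_congr rfl fun σ _ => ?_
    simp only [mul_assoc]
    rw [← mul_sum]
    congr 1
    simp only [← prod_mul_distrib]
    have h1 := Finset.prod_univ_sum (fun _ : T.level (k + 1) => (univ : Finset (Fin q)))
      (fun w j => channel q lam (σ ⟨T.parent w.1, parent_mem w.2⟩) j * g T lam n τ m w.1 s j)
    rw [Fintype.piFinset_univ] at h1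
    rw [← h1]
    have h2 := Finset.prod_fiberwise (univ : Finset (T.level (k + 1)))
      (fun w => (⟨T.parent w.1, parent_mem w.2⟩ : T.level k))
      (fun w => Kv lam (g T lam n τ m w.1 s) (σ ⟨T.parent w.1, parent_mem w.2⟩))
    refine h2.symm.trans (prod_congr rfl fun v _ => ?_)
    have hv : T.depth v.1 = k := (T.mem_level_iff _ _).1 v.2
    simp only [g, Finset.prod_apply]
    refine prod_bij (fun w _ => w.1) ?_ ?_ ?_ ?_
    · intro w hw
      have := congrArg Subtype.val (mem_filter.1 hw).2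
      unfold LocFinTree.children
      rw [hv]
      exact mem_filter.2 ⟨w.2, this⟩
    · intro w _ w' _ hh
      exact Subtype.ext hh
    · intro w hw
      unfold LocFinTree.children at hw
      rw [hv] at hw
      exact ⟨⟨w, (mem_filter.1 hw).1⟩, mem_filter.2 ⟨mem_univ _, Subtype.ext (mem_filter.1 hw).2⟩,
        rfl⟩
    · intro w hw
      rw [(mem_filter.1 hw).2]

theorem link0 (hτ : ∀ v, τ v = 1) (i : Fin q) (s : T.level n → Fin q) :
    (Fintype.card (T.level n → Fin q) : ℝ) * levelLaw q T lam n i s = g T lam n τ n T.root s i := by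
  rw [link hτ i s n 0 (by omega)]
  have hr : T.root ∈ T.level 0 := (T.mem_level_iff 0 T.root).2 ((T.depth_eq_zero_iff T.root).2 rfl)
  letI : Unique (T.level 0) :=
    { default := ⟨T.root, hr⟩
      uniq := fun x => Subtype.ext ((T.depth_eq_zero_iff _).1 ((T.mem_level_iff _ _).1 x.2)) }
  have e : ∀ σ : T.level 0 → Fin q, levelLaw q T lam 0 i σ
      = if σ ⟨T.root, hr⟩ = i then 1 else 0 := fun _ => rfl
  simp only [e, Fintype.prod_unique]
  rw [sum_eq_single (fun _ => i)]
  · simp only [if_true, one_mul]; rfl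
  · intro σ _ hσ
    rw [if_neg, zero_mul]
    intro h
    apply hσ
    funext x
    rw [Subsingleton.elim x ⟨T.root, hr⟩, h]
  · simp

end TreeFam

theorem exists_fam (T : LocFinTree V) (lam : ℝ) (hl : ChanOK q lam) (n : ℕ) (τ : V → ℝ)
    (hτ : ∀ v, ChanOK q (τ v)) :
    ∃ (P : V → Ex.{u} q) (A : V → Finset V → Ex.{u} q), IsFam T lam hl n τ hτ P A ∧
      ((∀ v, τ v = 1) → treeAdvantage q T lam n = (P T.root).E TVh) := by
  have hq := hl.1
  have hN := TreeFam.card_pos (ι := T.level n) hq
  refine ⟨fun v => TreeFam.mkEx hq (TreeFam.g T lam n τ (n - T.depth v) v)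
      (TreeFam.g_nn hl hτ _ v) (TreeFam.g_sum hq _ v),
    fun v t => TreeFam.mkEx hq (TreeFam.ap T lam n τ (n - T.depth v - 1) t)
      (TreeFam.ap_nn hl hτ _ t) (TreeFam.ap_sum hq _ (TreeFam.g_sum hq _) t), ⟨?_, ?_, ?_, ?_⟩, ?_⟩
  · intro v hv F hF
    have hv' : v ∈ T.level n := (T.mem_level_iff _ _).2 hv
    rw [TreeFam.mkEx_E' _ _ _ _ hF, E_chan, E_full (hF.chan (hτ v))]
    have h0 : n - T.depth v = 0 := by omega
    simp only [h0, TreeFam.g, dif_pos hv']
    have h1 := TreeFam.sum_coord (q := q) (⟨v, hv'⟩ : T.level n) (fun j => F (Kv (τ v) (vtx j)))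
    have hq' : (0 : ℝ) < q := by exact_mod_cast hq
    field_simp
    linarith
  · intro v _ F hF
    rw [TreeFam.mkEx_E' _ _ _ _ hF, E_null]
    simp only [TreeFam.ap, Finset.prod_empty, Finset.sum_const, Finset.card_univ, nsmul_eq_mul]
    field_simp
  · intro v _ t w hw hsub F hF
    have hwc : w ∈ T.children v := hsub (Finset.mem_insert_self _ _)
    have hd : T.depth w = T.depth v + 1 := (T.mem_level_iff _ _).1 (Finset.mem_filter.1 hwc).1
    have hm : n - T.depth w = n - T.depth v - 1 := by omega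
    rw [TreeFam.mkEx_E' _ _ _ _ hF, E_merge _ _ hF.1, TreeFam.mkEx_E]
    simp only [E_chan, TreeFam.mkEx_E, hm, TreeFam.ap_insert _ hw, TreeFam.Kv_smul]
    have h1 := TreeFam.ap_indep (T := T) (lam := lam) (n := n) (τ := τ) (n - T.depth v - 1) hw
      (fun a b : Vec q => F (a * Kv lam b))
    have h2 : ∀ s s' : T.level n → Fin q,
        F ((Fintype.card (T.level n → Fin q) : ℝ)⁻¹ • TreeFam.ap T lam n τ (n - T.depth v - 1) t s
          * (Fintype.card (T.level n → Fin q) : ℝ)⁻¹ •
            Kv lam (TreeFam.g T lam n τ (n - T.depth v - 1) w s'))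
        = ((Fintype.card (T.level n → Fin q) : ℝ)⁻¹ * (Fintype.card (T.level n → Fin q) : ℝ)⁻¹) *
          F (TreeFam.ap T lam n τ (n - T.depth v - 1) t s
            * Kv lam (TreeFam.g T lam n τ (n - T.depth v - 1) w s')) := by
      intro s s'
      rw [smul_mul_smul_comm]
      exact hF.2 _ _ (by positivity) fun i =>
        mul_nonneg (TreeFam.ap_nn hl hτ _ t s i) (Kv_nonneg hl (TreeFam.g_nn hl hτ _ w s') i)
    simp only [h2, ← Finset.mul_sum]
    rw [h1]
    field_simp
  · intro v hv F hF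
    rw [TreeFam.mkEx_E, TreeFam.mkEx_E]
    have hm : n - T.depth v = (n - T.depth v - 1) + 1 := by omega
    refine Finset.sum_congr rfl fun s _ => ?_
    rw [← TreeFam.g_succ, ← hm]
  · intro h1
    rw [TreeFam.mkEx_E]
    have h0 : T.depth T.root = 0 := (T.depth_eq_zero_iff _).2 rfl
    have e : ∀ (s : T.level n → Fin q) (i : Fin q), levelLaw q T lam n i s =
        ((Fintype.card (T.level n → Fin q) : ℝ)⁻¹ • TreeFam.g T lam n τ (n - T.depth T.root) T.root s) i := by
      intro s i
      rw [h0, Nat.sub_zero, Pi.smul_apply, smul_eq_mul, ← TreeFam.link0 h1 i s]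
      field_simp
    unfold treeAdvantage TVh
    rw [Finset.mul_sum]
    simp only [e]

end Crest.Agent.R163
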