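import Crest.Agent.R163.Cone
import Crest.Agent.R163.TreeFam

/-! Row 163: positive cubic capacity implies reconstruction. -/

set_option autoImplicit false

namespace Crest.Agent.R163

open Crest.ProbabilityR.Broadcast Crest.ProbabilityR.TreeBroadcast

universe u

/-- pointwise lower bound for the merged chi-square and upper bound for the merged third moment -/
structure LowCert (q : ℕ) (c₁ c₂ C : ℝ) : Prop where
  c₁_nonneg : 0 ≤ c₁
  c₂_nonneg : 0 ≤ c₂
  C_nonneg : 0 ≤ C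
  xlow : ∃ L : List (Equiv.Perm (Fin q)), L ≠ [] ∧ ∀ x y : Vec q, Nrm x → Nrm y →
    Xh x + Xh y - c₁ * (Xh x * Yh y + Yh x * Xh y) - c₂ * (Yh x * Yh y)
      ≤ pavg L (fun σ => Xh (x * (y ∘ σ)))
  yup : ∃ L : List (Equiv.Perm (Fin q)), L ≠ [] ∧ ∀ x y : Vec q, Nrm x → Nrm y →
    pavg L (fun σ => Yh (x * (y ∘ σ))) ≤ Yh x + Yh y + C * (Xh x * Xh y)

section Moments

variable {q : ℕ} {α γ δ c₁ c₂ C : ℝ}

theorem cl_x_merge_ge (hlow : LowCert q c₁ c₂ C) (hq : 0 < q) {P Q : Ex.{u} q} (hQ : Sym Q) :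
    P.x + Q.x - c₁ * (P.x * Q.y + P.y * Q.x) - c₂ * (P.y * Q.y) ≤ (P.merge Q).x := by
  obtain ⟨L, hL, h⟩ := hlow.xlow
  have key := merge_ge_of_pointwise (P := P) (Q := Q) hq hQ hL good_Xh (n := 5)
    (f := ![Xh, sm, fun x => (-c₁) * Xh x, fun x => (-c₁) * Yh x, fun x => (-c₂) * Yh x])
    (g := ![sm, Xh, Yh, Xh, Yh])
    (by
      intro k
      fin_cases k
      · exact good_Xh
      · exact good_sm
      · exact good_Xh.const_mul _
      · exact good_Yh.const_mul _
      · exact good_Yh.const_mul _)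
    (by
      intro k
      fin_cases k
      · exact good_sm
      · exact good_Xh
      · exact good_Yh
      · exact good_Xh
      · exact good_Yh)
    (by
      intro x y hx hy
      refine le_trans (le_of_eq ?_) (h x y hx hy)
      simp only [Fin.sum_univ_succ, Fin.sum_univ_zero, Matrix.cons_val_zero, Matrix.cons_val_succ]
      rw [hx.2, hy.2]
      ring)
  simp only [Fin.sum_univ_succ, Fin.sum_univ_zero, Matrix.cons_val_zero, Matrix.cons_val_succ,
    Ex.E_const_mul, Ex.E_sm _ hq] at key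
  unfold Ex.x Ex.y
  linarith

theorem cl_y_merge_le (hlow : LowCert q c₁ c₂ C) (hq : 0 < q) {P Q : Ex.{u} q} (hQ : Sym Q) :
    (P.merge Q).y ≤ P.y + Q.y + C * (P.x * Q.x) := by
  obtain ⟨L, hL, h⟩ := hlow.yup
  have key := merge_ge_of_pointwise (P := P) (Q := Q) hq hQ hL (good_Yh.const_mul (-1)) (n := 3)
    (f := ![fun x => (-1) * Yh x, sm, fun x => (-C) * Xh x])
    (g := ![sm, fun x => (-1) * Yh x, Xh])
    (by
      intro k
      fin_cases k
      · exact good_Yh.const_mul _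
      · exact good_sm
      · exact good_Xh.const_mul _)
    (by
      intro k
      fin_cases k
      · exact good_sm
      · exact good_Yh.const_mul _
      · exact good_Xh)
    (by
      intro x y hx hy
      have h1 := h x y hx hy
      have h2 : pavg L (fun σ => (-1) * Yh (x * (y ∘ σ))) =
          -pavg L (fun σ => Yh (x * (y ∘ σ))) := by
        unfold pavg
        rw [List.sum_map_mul_left]
        ring
      rw [h2]
      simp only [Fin.sum_univ_succ, Fin.sum_univ_zero, Matrix.cons_val_zero, Matrix.cons_val_succ]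
      rw [hx.2, hy.2]
      linarith)
  simp only [Fin.sum_univ_succ, Fin.sum_univ_zero, Matrix.cons_val_zero, Matrix.cons_val_succ,
    Ex.E_const_mul, Ex.E_sm _ hq] at key
  unfold Ex.x Ex.y
  linarith

/-- one merging step of the real recursion -/
theorem cl_step_real {c₁ c₂ C k S Y x y u z x' y' : ℝ} (hc₁ : 0 ≤ c₁) (hc₂ : 0 ≤ c₂) (hC : 0 ≤ C)
    (hk : 0 ≤ k) (hx0 : 0 ≤ x) (hY0 : 0 ≤ Y) (hu : 0 ≤ u) (hz : 0 ≤ z)
    (hzu : z ≤ k * u) (h1 : x ≤ S) (h2 : y ≤ Y + C * S ^ 2)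
    (h3 : S - (c₁ + c₂ * k) * S * (Y + C * S ^ 2) ≤ x)
    (h4 : x + u - c₁ * (x * z + y * u) - c₂ * (y * z) ≤ x')
    (h5 : y' ≤ y + z + C * (x * u)) :
    y' ≤ (Y + z) + C * (S + u) ^ 2 ∧
      (S + u) - (c₁ + c₂ * k) * (S + u) * ((Y + z) + C * (S + u) ^ 2) ≤ x' := by
  have hS : 0 ≤ S := hx0.trans h1
  have hxu : x * u ≤ S * u := mul_le_mul_of_nonneg_right h1 hu
  have hsq : S ^ 2 + S * u ≤ (S + u) ^ 2 := by nlinarith [mul_nonneg hS hu]
  constructor
  · have := mul_le_mul_of_nonneg_left (add_le_add_left hxu (S ^ 2)) hC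
    have := mul_le_mul_of_nonneg_left hsq hC
    nlinarith
  · set W := Y + C * S ^ 2 with hW
    have hW0 : 0 ≤ W := add_nonneg hY0 (mul_nonneg hC (sq_nonneg _))
    have hc : 0 ≤ c₁ + c₂ * k := add_nonneg hc₁ (mul_nonneg hc₂ hk)
    have a1 : c₁ * (x * z) ≤ (c₁ + c₂ * k) * (S * z) :=
      mul_le_mul (le_add_of_nonneg_right (mul_nonneg hc₂ hk))
        (mul_le_mul_of_nonneg_right h1 hz) (mul_nonneg hx0 hz) hc
    have a2 : c₁ * (y * u) ≤ c₁ * (W * u) :=
      mul_le_mul_of_nonneg_left (mul_le_mul_of_nonneg_right h2 hu) hc₁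
    have a3 : c₂ * (y * z) ≤ c₂ * (W * (k * u)) :=
      mul_le_mul_of_nonneg_left (mul_le_mul h2 hzu hz hW0) hc₂
    have a4 : W + z ≤ (Y + z) + C * (S + u) ^ 2 := by
      have : S ^ 2 ≤ (S + u) ^ 2 := by nlinarith [mul_nonneg hS hu]
      have := mul_le_mul_of_nonneg_left this hC
      linarith
    have a5 : (c₁ + c₂ * k) * (S + u) * (W + z) ≤
        (c₁ + c₂ * k) * (S + u) * ((Y + z) + C * (S + u) ^ 2) :=
      mul_le_mul_of_nonneg_left a4 (mul_nonneg hc (add_nonneg hS hu))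
    have a6 : 0 ≤ (c₁ + c₂ * k) * (u * z) := mul_nonneg hc (mul_nonneg hu hz)
    nlinarith

end Moments

section Fam

variable {q : ℕ} {α γ δ c₁ c₂ C : ℝ} {V : Type u} [DecidableEq V]

theorem cl_child {T : LocFinTree V} {v w : V} (h : w ∈ T.children v) :
    T.depth w = T.depth v + 1 ∧ T.parent w = v ∧ w ≠ T.root := by
  unfold LocFinTree.children at h
  rw [Finset.mem_filter, T.mem_level_iff] at h
  refine ⟨h.1, h.2, fun h0 => ?_⟩
  have := (T.depth_eq_zero_iff w).2 h0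
  omega

theorem cl_parent_child {T : LocFinTree V} {w : V} (h : w ≠ T.root) :
    w ∈ T.children (T.parent w) := by
  unfold LocFinTree.children
  rw [Finset.mem_filter, T.mem_level_iff]
  exact ⟨(T.depth_parent w h).symm, rfl⟩

/-- downward induction from level `n` -/
theorem cl_down (T : LocFinTree V) (n : ℕ) (p : V → Prop)
    (hleaf : ∀ v, T.depth v = n → p v)
    (hnode : ∀ v, T.depth v < n → (∀ w ∈ T.children v, p w) → p v) :
    ∀ v, T.depth v ≤ n → p v := by
  have key : ∀ k v, T.depth v + k = n → p v := by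
    intro k
    induction k with
    | zero => intro v hv; exact hleaf v (by omega)
    | succ k ih =>
      intro v hv
      refine hnode v (by omega) fun w hw => ih w ?_
      have := (cl_child hw).1
      omega
  intro v hv
  exact key (n - T.depth v) v (by omega)

theorem cl_chan_congr (P : Ex.{u} q) {a b : ℝ} (h : a = b) (ha : ChanOK q a) (hb : ChanOK q b) :
    Eqv (P.chan a ha) (P.chan b hb) := by
  subst h
  exact Eqv.refl _

/-- degrading the leaves gives a smaller experiment -/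
theorem cl_ln {T : LocFinTree V} {lam : ℝ} {hl : ChanOK q lam} {n : ℕ} {τ : V → ℝ}
    {hτ : ∀ v, ChanOK q (τ v)} {P : V → Ex.{u} q} {A : V → Finset V → Ex.{u} q}
    (hF : IsFam T lam hl n τ hτ P A) (hτ0 : ∀ v, 0 ≤ τ v)
    {h1 : ∀ _ : V, ChanOK q 1} {P' : V → Ex.{u} q} {A' : V → Finset V → Ex.{u} q}
    (hF' : IsFam T lam hl n (fun _ => 1) h1 P' A') :
    ∀ v, T.depth v ≤ n → Ln (P v) (P' v) := by
  refine cl_down T n _ ?_ ?_
  · intro v hv
    have hm : ChanOK q (1 * τ v) := by rw [one_mul]; exact hτ v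
    exact (hF.leaf v hv).ln.trans
      ((cl_chan_congr (full q) (one_mul (τ v)).symm (hτ v) hm).ln.trans
        ((ln_chan_mul (full q) (h1 v) (hτ0 v) (hτ v).2.1 hm).trans (hF'.leaf v hv).symm.ln))
  · intro v hv ih
    have key : ∀ t : Finset V, t ⊆ T.children v → Ln (A v t) (A' v t) := by
      intro t
      induction t using Finset.induction_on with
      | empty => intro _; exact (hF.empty v hv).ln.trans (hF'.empty v hv).symm.ln
      | insert w t hw iht =>
        intro hs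
        have h2 := iht ((Finset.subset_insert w t).trans hs)
        have h3 := ih w (hs (Finset.mem_insert_self w t))
        exact (hF.insert v hv t w hw hs).ln.trans
          ((h2.merge (h3.chan hl)).trans (hF'.insert v hv t w hw hs).symm.ln)
    exact (hF.node v hv).ln.trans ((key _ subset_rfl).trans (hF'.node v hv).symm.ln)

/-- the recursion for the moments of a family -/
theorem cl_node (hc : ConeCert q α γ δ) (hlow : LowCert q c₁ c₂ C)
    {T : LocFinTree V} {lam : ℝ} (h0 : 0 ≤ lam) {hl : ChanOK q lam} {n : ℕ} {τ : V → ℝ}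
    {hτ : ∀ v, ChanOK q (τ v)} {P : V → Ex.{u} q} {A : V → Finset V → Ex.{u} q}
    (hF : IsFam T lam hl n τ hτ P A) {v : V} (hv : T.depth v < n)
    (ih : ∀ w ∈ T.children v, Cone α γ (P w)) (t : Finset V) (ht : t ⊆ T.children v) :
    Cone α γ (A v t) ∧ (A v t).x ≤ ∑ w ∈ t, lam ^ 2 * (P w).x ∧
      (A v t).y ≤ ∑ w ∈ t, lam ^ 3 * (P w).y + C * (∑ w ∈ t, lam ^ 2 * (P w).x) ^ 2 ∧
      ∑ w ∈ t, lam ^ 2 * (P w).x - (c₁ + c₂ * ((q : ℝ) - 1)) * (∑ w ∈ t, lam ^ 2 * (P w).x) *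
        (∑ w ∈ t, lam ^ 3 * (P w).y + C * (∑ w ∈ t, lam ^ 2 * (P w).x) ^ 2) ≤ (A v t).x := by
  have hq : 0 < q := hl.1
  have hq1 : (0 : ℝ) ≤ (q : ℝ) - 1 := by
    have : (1 : ℝ) ≤ q := by exact_mod_cast hq
    linarith
  induction t using Finset.induction_on with
  | empty =>
    have h1 := hF.empty v hv
    refine ⟨Cone.eqv h1 cone_null, ?_, ?_, ?_⟩
    · simp [h1.x, x_null]
    · simp [h1.y, y_null]
    · simp [h1.x, x_null]
  | insert w t hw iht =>
    obtain ⟨a1, a2, a3, a4⟩ := iht ((Finset.subset_insert w t).trans ht)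
    have hcw := ih w (ht (Finset.mem_insert_self w t))
    have hcw' : Cone α γ ((P w).chan lam hl) := Cone.chan hc hcw h0 hl
    have h1 := hF.insert v hv t w hw ht
    have hY0 : 0 ≤ ∑ w ∈ t, lam ^ 3 * (P w).y := Finset.sum_nonneg fun w' hw' =>
      mul_nonneg (pow_nonneg h0 3)
        (Cone.y_nonneg hc (ih w' (ht (Finset.mem_insert_of_mem hw'))))
    have b1 := Cone.x_merge_le hc a1 hcw'
    have b2 := cl_x_merge_ge hlow hq (P := A v t) hcw'.1
    have b3 := cl_y_merge_le hlow hq (P := A v t) hcw'.1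
    have b4 := cl_step_real hlow.c₁_nonneg hlow.c₂_nonneg hlow.C_nonneg hq1 (A v t).x_nonneg
      hY0 ((P w).chan lam hl).x_nonneg (Cone.y_nonneg hc hcw')
      ((P w).chan lam hl).y_le a2 a3 a4 b2 b3
    have b5 : 0 ≤ δ * ((A v t).x * ((P w).chan lam hl).x * ((A v t).x + ((P w).chan lam hl).x)) :=
      mul_nonneg hc.δ_pos.le (mul_nonneg (mul_nonneg (A v t).x_nonneg (Ex.x_nonneg _))
        (add_nonneg (A v t).x_nonneg (Ex.x_nonneg _)))
    rw [Finset.sum_insert hw, Finset.sum_insert hw, h1.x, h1.y, ← x_chan (P w) hl,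
      ← y_chan (P w) hl, add_comm (((P w).chan lam hl).x), add_comm (((P w).chan lam hl).y)]
    exact ⟨Cone.eqv h1 (Cone.merge hc a1 hcw'), by linarith, b4.1, b4.2⟩

end Fam

section Flow

variable {V : Type u} [DecidableEq V]

/-- normalised flow -/
noncomputable def clr (T : LocFinTree V) (lam : ℝ) (θ : V → ℝ) (v : V) : ℝ :=
  if v = T.root then flowMass T θ else θ v / lam ^ (2 * T.depth v)

/-- sum of squares along the path from the root -/
noncomputable def clS (T : LocFinTree V) (lam : ℝ) (θ : V → ℝ) (v : V) : ℝ :=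
  ∑ k ∈ Finset.range (T.depth v + 1), clr T lam θ (T.parent^[k] v) ^ 2

theorem clr_root (T : LocFinTree V) (lam : ℝ) (θ : V → ℝ) :
    clr T lam θ T.root = flowMass T θ := by simp [clr]

theorem clr_ne (T : LocFinTree V) (lam : ℝ) (θ : V → ℝ) {v : V} (h : v ≠ T.root) :
    clr T lam θ v = θ v / lam ^ (2 * T.depth v) := by simp [clr, h]

theorem clr_nonneg {T : LocFinTree V} {lam : ℝ} (h0 : 0 < lam) {θ : V → ℝ} (hθ : IsFlow T θ)
    (v : V) : 0 ≤ clr T lam θ v := by
  unfold clr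
  split_ifs
  · exact Finset.sum_nonneg fun w _ => hθ.1 w
  · exact div_nonneg (hθ.1 v) (pow_nonneg h0.le _)

theorem clr_sum {T : LocFinTree V} {lam : ℝ} (h0 : 0 < lam) {θ : V → ℝ} (hθ : IsFlow T θ)
    (v : V) : clr T lam θ v = ∑ w ∈ T.children v, lam ^ 2 * clr T lam θ w := by
  have h1 : ∀ w ∈ T.children v, lam ^ 2 * clr T lam θ w = θ w / lam ^ (2 * T.depth v) := by
    intro w hw
    obtain ⟨a1, _, a3⟩ := cl_child hw
    rw [clr_ne T lam θ a3, a1]
    field_simp
    ring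
  rw [Finset.sum_congr rfl h1, ← Finset.sum_div]
  by_cases hv : v = T.root
  · subst hv
    rw [clr_root, (T.depth_eq_zero_iff _).2 rfl]
    simp [flowMass]
  · rw [clr_ne T lam θ hv, ← hθ.2 v hv]

theorem clS_root (T : LocFinTree V) (lam : ℝ) (θ : V → ℝ) :
    clS T lam θ T.root = flowMass T θ ^ 2 := by
  unfold clS
  rw [(T.depth_eq_zero_iff _).2 rfl]
  simp [clr_root]

theorem clS_child {T : LocFinTree V} (lam : ℝ) (θ : V → ℝ) {v w : V} (h : w ∈ T.children v) :
    clS T lam θ w = clS T lam θ v + clr T lam θ w ^ 2 := by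
  obtain ⟨a1, a2, _⟩ := cl_child h
  unfold clS
  rw [a1, Finset.sum_range_succ']
  simp only [Function.iterate_succ_apply, a2, Function.iterate_zero_apply]

theorem cl_extend (T : LocFinTree V) : ∀ (d : ℕ) (η : ℕ → V), T.depth (η 0) = d →
    (∀ k, η (k + 1) ∈ T.children (η k)) → ∃ ξ : ℕ → V, T.IsRay ξ ∧ ∀ k, ξ (d + k) = η k := by
  intro d
  induction d with
  | zero =>
    intro η h1 h2
    exact ⟨η, ⟨(T.depth_eq_zero_iff _).1 h1, h2⟩, fun k => by rw [zero_add]⟩
  | succ d ih =>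
    intro η h1 h2
    have hne : η 0 ≠ T.root := fun h => by
      have := (T.depth_eq_zero_iff _).2 h
      omega
    obtain ⟨ξ, hξ, h3⟩ := ih (fun k => Nat.casesOn k (T.parent (η 0)) η)
      (by have := T.depth_parent _ hne; simp only [Nat.rec_zero]; omega)
      (by
        intro k
        cases k with
        | zero => exact cl_parent_child hne
        | succ k => exact h2 k)
    refine ⟨ξ, hξ, fun k => ?_⟩
    have := h3 (k + 1)
    rw [show d + 1 + k = d + (k + 1) by omega]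
    exact this

theorem cl_exists_ray {T : LocFinTree V} {lam : ℝ} (h0 : 0 < lam) {θ : V → ℝ} (hθ : IsFlow T θ)
    {v : V} (hv : 0 < clr T lam θ v) : ∃ ξ : ℕ → V, T.IsRay ξ ∧ ξ (T.depth v) = v := by
  have hnext : ∀ a : {a : V // 0 < clr T lam θ a}, ∃ b : {a : V // 0 < clr T lam θ a},
      b.1 ∈ T.children a.1 := by
    intro a
    by_contra hcon
    push Not at hcon
    have h1 := a.2
    rw [clr_sum h0 hθ] at h1
    refine absurd h1 (not_lt.mpr (Finset.sum_nonpos fun w hw => ?_))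
    refine mul_nonpos_of_nonneg_of_nonpos (sq_nonneg _) (not_lt.mp fun hw' => ?_)
    exact hcon ⟨w, hw'⟩ hw
  choose nx hnx using hnext
  obtain ⟨ξ, hξ, h⟩ := cl_extend T (T.depth v) (fun k => (nx^[k] ⟨v, hv⟩).1) rfl (by
    intro k
    simp only [Function.iterate_succ_apply']
    exact hnx _)
  exact ⟨ξ, hξ, by simpa using h 0⟩

theorem clS_ray {T : LocFinTree V} (lam : ℝ) (θ : V → ℝ) {ξ : ℕ → V} (hξ : T.IsRay ξ) (k : ℕ) :
    T.depth (ξ k) = k ∧ clS T lam θ (ξ k) = flowMass T θ ^ 2 +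
      ∑ j ∈ Finset.range k, (θ (ξ (j + 1)) / lam ^ (2 * (j + 1))) ^ 2 := by
  induction k with
  | zero =>
    rw [hξ.1]
    exact ⟨(T.depth_eq_zero_iff _).2 rfl, by simp [clS_root]⟩
  | succ k ih =>
    obtain ⟨a1, _, a3⟩ := cl_child (hξ.2 k)
    have hd : T.depth (ξ (k + 1)) = k + 1 := by rw [a1, ih.1]
    refine ⟨hd, ?_⟩
    rw [clS_child lam θ (hξ.2 k), ih.2, Finset.sum_range_succ, clr_ne T lam θ a3, hd, add_assoc]

theorem clS_le {T : LocFinTree V} {lam : ℝ} (h0 : 0 < lam) {θ : V → ℝ} (hθ : IsFlow T θ)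
    (hpot : ∀ ξ : ℕ → V, T.IsRay ξ → rayPotential lam θ ξ ≤ 1)
    {v : V} (hv : 0 < clr T lam θ v) : clS T lam θ v ≤ 1 + flowMass T θ ^ 2 := by
  obtain ⟨ξ, hξ, h⟩ := cl_exists_ray h0 hθ hv
  have h1 := (clS_ray lam θ hξ (T.depth v)).2
  rw [h] at h1
  have h2 := (ENNReal.sum_le_tsum (Finset.range (T.depth v))).trans (hpot ξ hξ)
  rw [← ENNReal.ofReal_sum_of_nonneg (fun j _ => sq_nonneg _), ENNReal.ofReal_le_one] at h2
  linarith

theorem clr_sq_le_clS (T : LocFinTree V) (lam : ℝ) (θ : V → ℝ) (v : V) :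
    clr T lam θ v ^ 2 ≤ clS T lam θ v := by
  unfold clS
  rw [Finset.sum_range_succ']
  simp only [Function.iterate_zero_apply]
  exact le_add_of_nonneg_left (Finset.sum_nonneg fun _ _ => sq_nonneg _)

end Flow

/-- the node step of the invariant, in real numbers -/
theorem cl_inv_real {L c C e r S Ys Qb x y G D : ℝ} (hL0 : 0 < L) (hL1 : L < 1) (hc : 0 ≤ c)
    (hC : 0 ≤ C) (he : 0 ≤ e) (hr : 0 ≤ r) (hS0 : 0 ≤ S) (hS : S ≤ e * r) (hYs : 0 ≤ Ys)
    (hQb : 0 ≤ Qb) (hCS : Ys ^ 2 ≤ L * (Qb * r)) (hy0 : 0 ≤ y) (hy : y ≤ Ys + C * S ^ 2)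
    (hx : S - c * S * (Ys + C * S ^ 2) ≤ x)
    (hG : (e * r - S) + c / (1 - L) * Qb ≤ G)
    (hD : c * e ^ 2 / 2 + c * C * e ^ 3 + c / (1 - L) * ((1 + L) / (1 - L) * C ^ 2 * e ^ 4) ≤ D) :
    ∃ Q : ℝ, 0 ≤ Q ∧ y ^ 2 ≤ Q * r ∧ (e * r - x) + c / (1 - L) * Q ≤ G + D * r ^ 3 := by
  have h1L : 0 < 1 - L := by linarith
  set B := C * e ^ 2 * r ^ 2 with hB
  have hB0 : 0 ≤ B := by positivity
  have hSB : C * S ^ 2 ≤ B := by
    have : S ^ 2 ≤ (e * r) ^ 2 := pow_le_pow_left₀ hS0 hS 2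
    have := mul_le_mul_of_nonneg_left this hC
    rw [hB]; nlinarith
  refine ⟨(1 + L) / 2 * Qb + (1 + L) / (1 - L) * C ^ 2 * e ^ 4 * r ^ 3, by positivity, ?_, ?_⟩
  · have a1 : y ^ 2 ≤ (Ys + B) ^ 2 := pow_le_pow_left₀ hy0 (by linarith) 2
    have a2 : (Ys + B) ^ 2 ≤ (1 + L) / (2 * L) * Ys ^ 2 + (1 + L) / (1 - L) * B ^ 2 := by
      have : (1 + L) / (2 * L) * Ys ^ 2 + (1 + L) / (1 - L) * B ^ 2 - (Ys + B) ^ 2 =
          ((1 - L) * Ys - 2 * L * B) ^ 2 / (2 * L * (1 - L)) := by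
        field_simp
        ring
      have h2 : 0 ≤ ((1 - L) * Ys - 2 * L * B) ^ 2 / (2 * L * (1 - L)) := by positivity
      linarith
    have a3 : (1 + L) / (2 * L) * Ys ^ 2 ≤ (1 + L) / (2 * L) * (L * (Qb * r)) :=
      mul_le_mul_of_nonneg_left hCS (by positivity)
    have a4 : (1 + L) / (2 * L) * (L * (Qb * r)) = (1 + L) / 2 * Qb * r := by
      field_simp
    have a5 : (1 + L) / (1 - L) * B ^ 2 = (1 + L) / (1 - L) * C ^ 2 * e ^ 4 * r ^ 3 * r := by
      rw [hB]; ring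
    nlinarith
  · have a1 : 2 * (e * r * Ys) ≤ Qb + e ^ 2 * r ^ 3 := by
      rcases hr.eq_or_lt with h | h
      · rw [← h]; simpa using hQb
      · have b1 : Ys ^ 2 ≤ Qb * r := by
          have : L * (Qb * r) ≤ 1 * (Qb * r) :=
            mul_le_mul_of_nonneg_right hL1.le (mul_nonneg hQb hr)
          linarith
        refine le_of_mul_le_mul_right ?_ h
        nlinarith [sq_nonneg (Ys - e * r ^ 2)]
    have a2 : S * (Ys + C * S ^ 2) ≤ e * r * (Ys + B) :=
      mul_le_mul hS (by linarith) (by positivity) (by positivity)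
    have a3 : c * (S * (Ys + C * S ^ 2)) ≤ c * ((Qb + e ^ 2 * r ^ 3) / 2 + C * e ^ 3 * r ^ 3) := by
      refine mul_le_mul_of_nonneg_left ?_ hc
      have : e * r * B = C * e ^ 3 * r ^ 3 := by rw [hB]; ring
      nlinarith
    have a4 : c / (1 - L) * ((1 + L) / 2 * Qb) + c * (Qb / 2) = c / (1 - L) * Qb := by
      field_simp
      ring
    have a5 := mul_le_mul_of_nonneg_right hD (pow_nonneg hr 3)
    nlinarith

set_option maxHeartbeats 1000000 in
theorem cap_lower {q : ℕ} {α γ δ c₁ c₂ C : ℝ} (hc : ConeCert q α γ δ) (hlow : LowCert q c₁ c₂ C)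
    (hq : 3 ≤ q) {V : Type u} [DecidableEq V]
    (T : LocFinTree V) {lam : ℝ} (h0 : 0 < lam) (h1 : lam < 1)
    (h : ∃ θ : V → ℝ, IsFlow T θ ∧ 0 < flowMass T θ ∧
      ∀ ξ : ℕ → V, T.IsRay ξ → rayPotential lam θ ξ ≤ 1) :
    ∃ ε : ℝ, 0 < ε ∧ ∀ n, ε ≤ treeAdvantage q T lam n := by
  obtain ⟨θ, hθ, hm, hpot⟩ := h
  have hq0 : 0 < q := by omega
  have hq3 : (3 : ℝ) ≤ q := by exact_mod_cast hq
  have hqpos : (0 : ℝ) < q := by linarith
  have hok : ∀ t : ℝ, 0 ≤ t → t ≤ 1 → ChanOK q t := fun t a b =>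
    ⟨hq0, b, add_nonneg a (div_nonneg (by linarith) hqpos.le)⟩
  have hl : ChanOK q lam := hok lam h0.le h1.le
  set m := flowMass T θ with hmdef
  set r := clr T lam θ with hrdef
  have hr0 : ∀ v, 0 ≤ r v := clr_nonneg h0 hθ
  have hS : ∀ v, 0 < r v → clS T lam θ v ≤ 1 + m ^ 2 := fun v hv => clS_le h0 hθ hpot hv
  have hrR : ∀ v, r v ≤ 1 + m := by
    intro v
    rcases (hr0 v).eq_or_lt with h | h
    · rw [← h]; linarith
    · have := (clr_sq_le_clS T lam θ v).trans (hS v h)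
      refine le_of_sq_le_sq ?_ (by linarith)
      nlinarith
  set L := lam ^ 2 with hLdef
  have hL0 : 0 < L := by positivity
  have hL1 : L < 1 := by rw [hLdef]; nlinarith
  have h1L : 0 < 1 - L := by linarith
  set c := c₁ + c₂ * ((q : ℝ) - 1) with hcdef
  have hC := hlow.C_nonneg
  have hc0 : 0 ≤ c := add_nonneg hlow.c₁_nonneg (mul_nonneg hlow.c₂_nonneg (by linarith))
  set D₁ := c / 2 + c * C + c / (1 - L) * ((1 + L) / (1 - L) * C ^ 2) with hD₁
  set E₁ := c / (1 - L) * (((q : ℝ) - 2) ^ 2 * (1 + m)) with hE₁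
  have hD₁0 : 0 ≤ D₁ := by positivity
  have hE₁0 : 0 ≤ E₁ := by positivity
  set K := 2 * (D₁ * (1 + m ^ 2) + E₁) + (1 + m) with hK
  have hK1 : 1 + m ≤ K := by
    have : 0 ≤ 2 * (D₁ * (1 + m ^ 2) + E₁) := by positivity
    linarith
  have hKpos : 0 < K := by linarith
  set e := 1 / K with he
  have he0 : 0 < e := by positivity
  have heK : e * K = 1 := by rw [he]; field_simp
  have he1 : e * (1 + m) ≤ 1 := by
    have := mul_le_mul_of_nonneg_left hK1 he0.le
    linarith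
  have he1' : e ≤ 1 := by nlinarith
  have he2 : e * (D₁ * (1 + m ^ 2) + E₁) ≤ 1 / 2 := by
    have : 0 ≤ e * (1 + m) := by positivity
    rw [hK] at heK
    nlinarith
  clear_value e K E₁ D₁ c L
  clear hK heK he hK1 hKpos K
  refine ⟨e * m / 2 / (2 * ((q : ℝ) - 1)), by
    have : (0 : ℝ) < (q : ℝ) - 1 := by linarith
    positivity, fun n => ?_⟩
  have hq1 : (0 : ℝ) < (q : ℝ) - 1 := by linarith
  set τ : V → ℝ := fun v => √(e * r v / ((q : ℝ) - 1)) with hτdef
  have hτsq : ∀ v, τ v ^ 2 = e * r v / ((q : ℝ) - 1) := fun v =>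
    Real.sq_sqrt (div_nonneg (mul_nonneg he0.le (hr0 v)) hq1.le)
  have hτ0 : ∀ v, 0 ≤ τ v := fun v => Real.sqrt_nonneg _
  have hτ1 : ∀ v, τ v ≤ 1 := by
    intro v
    refine Real.sqrt_le_one.mpr ?_
    rw [div_le_one hq1]
    have := mul_le_mul_of_nonneg_left (hrR v) he0.le
    linarith
  have hτ : ∀ v, ChanOK q (τ v) := fun v => hok _ (hτ0 v) (hτ1 v)
  have hone : ∀ _ : V, ChanOK q 1 := fun _ => hok 1 zero_le_one le_rfl
  clear_value τ
  obtain ⟨P, A, hF, -⟩ := exists_fam T lam hl n τ hτ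
  obtain ⟨P', A', hF', hadv⟩ := exists_fam T lam hl n (fun _ => 1) hone
  have hdr : T.depth T.root ≤ n := by rw [(T.depth_eq_zero_iff _).2 rfl]; omega
  have hln := (cl_ln hF hτ0 hF' T.root hdr).x
  have hTV := (P' T.root).x_le_TV (by omega)
  rw [hadv fun _ => rfl, div_le_iff₀ (by positivity)]
  have hinv : ∀ v, T.depth v ≤ n → Cone α γ (P v) ∧ (P v).x ≤ e * r v ∧
      ∃ Q : ℝ, 0 ≤ Q ∧ (P v).y ^ 2 ≤ Q * r v ∧ (e * r v - (P v).x) + c / (1 - L) * Q ≤
        r v * (e ^ 2 * D₁ * (1 + m ^ 2 - clS T lam θ v + r v ^ 2) + e ^ 2 * E₁) := by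
    refine cl_down T n _ ?_ ?_
    · intro v hv
      have a1 := hF.leaf v hv
      have a2 : (P v).x = e * r v := by
        rw [a1.x, x_chan, x_full hq0, hτsq]
        field_simp
      have a3 : (P v).y ^ 2 = (e * r v) ^ 3 * ((q : ℝ) - 2) ^ 2 / ((q : ℝ) - 1) := by
        rw [a1.y, y_chan, y_full hq0]
        have : (τ v ^ 3 * (((q : ℝ) - 1) * ((q : ℝ) - 2))) ^ 2 =
            (τ v ^ 2) ^ 3 * (((q : ℝ) - 1) * ((q : ℝ) - 2)) ^ 2 := by ring
        rw [this, hτsq]
        field_simp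
      refine ⟨Cone.eqv a1 (Cone.chan hc (cone_full hc) (hτ0 v) _), a2.le,
        ((q : ℝ) - 2) ^ 2 * e ^ 3 * r v ^ 2, by positivity, ?_, ?_⟩
      · rw [a3, div_le_iff₀ hq1]
        have b1 : 0 ≤ (e * r v) ^ 3 * ((q : ℝ) - 2) ^ 2 := by
          have := hr0 v
          positivity
        have b2 : ((q : ℝ) - 2) ^ 2 * e ^ 3 * r v ^ 2 * r v =
            (e * r v) ^ 3 * ((q : ℝ) - 2) ^ 2 := by ring
        rw [b2]
        exact le_mul_of_one_le_right b1 (by linarith)
      · rw [a2, sub_self, zero_add]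
        rcases (hr0 v).eq_or_lt with h | h
        · rw [← h]; simp
        · have b1 : 0 ≤ e ^ 2 * D₁ * (1 + m ^ 2 - clS T lam θ v + r v ^ 2) := by
            have := hS v h
            have : 0 ≤ 1 + m ^ 2 - clS T lam θ v + r v ^ 2 := by nlinarith [sq_nonneg (r v)]
            positivity
          have b2 : e * r v ≤ 1 + m := by
            have := mul_le_mul he1' (hrR v) (hr0 v) zero_le_one
            linarith
          have b3 : c / (1 - L) * (((q : ℝ) - 2) ^ 2 * e ^ 3 * r v ^ 2) =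
              r v * (e ^ 2 * (c / (1 - L) * (((q : ℝ) - 2) ^ 2 * (e * r v)))) := by ring
          rw [b3]
          refine mul_le_mul_of_nonneg_left ?_ h.le
          have b4 : c / (1 - L) * (((q : ℝ) - 2) ^ 2 * (e * r v)) ≤ E₁ := by
            rw [hE₁]
            exact mul_le_mul_of_nonneg_left (mul_le_mul_of_nonneg_left b2 (sq_nonneg _))
              (div_nonneg hc0 h1L.le)
          have := mul_le_mul_of_nonneg_left b4 (sq_nonneg e)
          linarith
    · intro v hv ih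
      obtain ⟨a1, a2, a3, a4⟩ := cl_node hc hlow h0.le hF hv (fun w hw => (ih w hw).1)
        (T.children v) subset_rfl
      have hN := hF.node v hv
      rw [← hLdef] at a2 a3 a4
      rw [← hcdef] at a4
      rw [← hN.x] at a2 a4
      rw [← hN.y] at a3
      have hcone : Cone α γ (P v) := Cone.eqv hN a1
      have hrs : r v = ∑ w ∈ T.children v, L * r w := hLdef ▸ clr_sum h0 hθ v
      have ih2 : ∀ w, ∃ Q : ℝ, w ∈ T.children v → (0 ≤ Q ∧ (P w).y ^ 2 ≤ Q * r w ∧
          (e * r w - (P w).x) + c / (1 - L) * Q ≤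
          r w * (e ^ 2 * D₁ * (1 + m ^ 2 - clS T lam θ w + r w ^ 2) + e ^ 2 * E₁)) := by
        intro w
        by_cases hw : w ∈ T.children v
        · obtain ⟨Q, hQ⟩ := (ih w hw).2.2
          exact ⟨Q, fun _ => hQ⟩
        · exact ⟨0, fun h => absurd h hw⟩
      choose Q hQ using ih2
      have hSle : ∑ w ∈ T.children v, L * (P w).x ≤ e * r v := by
        rw [hrs, Finset.mul_sum]
        refine Finset.sum_le_sum fun w hw => ?_
        have := mul_le_mul_of_nonneg_left (ih w hw).2.1 hL0.le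
        linarith
      have hCS : (∑ w ∈ T.children v, lam ^ 3 * (P w).y) ^ 2 ≤
          L * ((∑ w ∈ T.children v, L * Q w) * r v) := by
        have b1 : ∑ w ∈ T.children v, lam ^ 3 * (P w).y =
            lam * ∑ w ∈ T.children v, L * (P w).y := by
          rw [Finset.mul_sum]
          refine Finset.sum_congr rfl fun w _ => ?_
          rw [hLdef]; ring
        rw [b1, mul_pow, hrs, ← hLdef]
        refine mul_le_mul_of_nonneg_left ?_ hL0.le
        refine Finset.sum_sq_le_sum_mul_sum_of_sq_le_mul _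
          (fun w hw => mul_nonneg hL0.le (hQ w hw).1)
          (fun w _ => mul_nonneg hL0.le (hr0 w)) fun w hw => ?_
        have := mul_le_mul_of_nonneg_left (hQ w hw).2.1 (sq_nonneg L)
        calc (L * (P w).y) ^ 2 = L ^ 2 * (P w).y ^ 2 := by ring
          _ ≤ L ^ 2 * (Q w * r w) := this
          _ = L * Q w * (L * r w) := by ring
      have hG : (e * r v - ∑ w ∈ T.children v, L * (P w).x) +
          c / (1 - L) * ∑ w ∈ T.children v, L * Q w ≤
          r v * (e ^ 2 * D₁ * (1 + m ^ 2 - clS T lam θ v) + e ^ 2 * E₁) := by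
        rw [hrs, Finset.mul_sum, Finset.mul_sum, Finset.sum_mul, ← Finset.sum_sub_distrib,
          ← Finset.sum_add_distrib]
        refine Finset.sum_le_sum fun w hw => ?_
        have b1 := (hQ w hw).2.2
        rw [clS_child lam θ hw] at b1
        have b2 : 1 + m ^ 2 - (clS T lam θ v + clr T lam θ w ^ 2) + r w ^ 2 =
            1 + m ^ 2 - clS T lam θ v := by rw [hrdef]; ring
        rw [b2] at b1
        have := mul_le_mul_of_nonneg_left b1 hL0.le
        linarith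
      obtain ⟨Q', b1, b2, b3⟩ := cl_inv_real (D := e ^ 2 * D₁) hL0 hL1 hc0 hC he0.le (hr0 v)
        (Finset.sum_nonneg fun w _ => mul_nonneg hL0.le (P w).x_nonneg) hSle
        (Finset.sum_nonneg fun w hw =>
          mul_nonneg (pow_nonneg h0.le 3) (Cone.y_nonneg hc (ih w hw).1))
        (Finset.sum_nonneg fun w hw => mul_nonneg hL0.le (hQ w hw).1) hCS
        (Cone.y_nonneg hc hcone) a3 a4 hG (by
          have c1 : e ^ 3 ≤ e ^ 2 := pow_le_pow_of_le_one he0.le he1' (by norm_num)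
          have c2 : e ^ 4 ≤ e ^ 2 := pow_le_pow_of_le_one he0.le he1' (by norm_num)
          have c3 := mul_le_mul_of_nonneg_left c1 (mul_nonneg hc0 hC)
          have c4 := mul_le_mul_of_nonneg_left c2
            (show 0 ≤ c / (1 - L) * ((1 + L) / (1 - L) * C ^ 2) by positivity)
          rw [hD₁]
          linarith)
      refine ⟨hcone, a2.trans hSle, Q', b1, b2, b3.trans (le_of_eq ?_)⟩
      ring
  obtain ⟨-, -, Q, a1, -, a3⟩ := hinv T.root hdr
  have hrr : r T.root = m := clr_root T lam θ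
  rw [clS_root, hrr, ← hmdef] at a3
  have a4 : 0 ≤ c / (1 - L) * Q := by positivity
  have a5 : m * (e ^ 2 * D₁ * (1 + m ^ 2 - m ^ 2 + m ^ 2) + e ^ 2 * E₁) =
      e * m * (e * (D₁ * (1 + m ^ 2) + E₁)) := by ring
  have a6 := mul_le_mul_of_nonneg_left he2 (show 0 ≤ e * m by positivity)
  linarith

end Crest.Agent.R163
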