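import Crest.Agent.R163.Cone
import Crest.Agent.R163.TreeFam

/-! Row 163: reconstruction implies positive cubic capacity. -/

set_option autoImplicit false

namespace Crest.Agent.R163

open Crest.ProbabilityR.Broadcast Crest.ProbabilityR.TreeBroadcast

universe u

section aux

variable {V : Type u} [DecidableEq V] (T : LocFinTree V)

theorem cu_mem_children {v w : V} :
    w ∈ T.children v ↔ T.depth w = T.depth v + 1 ∧ T.parent w = v := by
  simp [LocFinTree.children, T.mem_level_iff]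

theorem cu_child_ne_root {v w : V} (h : w ∈ T.children v) : w ≠ T.root := by
  intro e
  have h1 := ((cu_mem_children T).1 h).1
  have h2 := (T.depth_eq_zero_iff w).2 e
  omega

theorem cu_mem_children_parent {w : V} (h : w ≠ T.root) : w ∈ T.children (T.parent w) :=
  (cu_mem_children T).2 ⟨(T.depth_parent w h).symm, rfl⟩

omit [DecidableEq V] in
theorem cu_induction {p : V → Prop} (h0 : p T.root) (hs : ∀ w, w ≠ T.root → p (T.parent w) → p w)
    (v : V) : p v := by
  induction hn : T.depth v generalizing v with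
  | zero => rw [(T.depth_eq_zero_iff v).1 hn]; exact h0
  | succ n ih =>
    have hv : v ≠ T.root := fun e => by
      have := (T.depth_eq_zero_iff v).2 e
      omega
    exact hs v hv (ih _ (by have := T.depth_parent v hv; omega))

/-- product of `f` along the path from the root -/
noncomputable def cuPP (f : V → ℝ) (v : V) : ℝ :=
  ∏ j ∈ Finset.range (T.depth v), f (T.parent^[j] v)

omit [DecidableEq V] in
theorem cuPP_root (f : V → ℝ) : cuPP T f T.root = 1 := by
  unfold cuPP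
  rw [(T.depth_eq_zero_iff _).2 rfl, Finset.prod_range_zero]

omit [DecidableEq V] in
theorem cuPP_step (f : V → ℝ) {w : V} (h : w ≠ T.root) :
    cuPP T f w = cuPP T f (T.parent w) * f w := by
  unfold cuPP
  rw [← T.depth_parent w h, Finset.prod_range_succ']
  rfl

theorem cu_ray_depth {ξ : ℕ → V} (hξ : T.IsRay ξ) (k : ℕ) : T.depth (ξ k) = k := by
  induction k with
  | zero => rw [hξ.1]; exact (T.depth_eq_zero_iff _).2 rfl
  | succ k ih => rw [((cu_mem_children T).1 (hξ.2 k)).1, ih]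

theorem cu_finite_flow {lam c m0 : ℝ} (h0 : 0 < lam) (hc : 0 < c) (hm : 0 ≤ m0) (n : ℕ)
    (G : V → ℝ) (hG0 : ∀ v, 0 ≤ G v) (hG1 : ∀ v, c * G v ^ 2 ≤ 1) (hroot : m0 ≤ G T.root)
    (hstep : ∀ v, T.depth v < n →
      G v ≤ ∑ w ∈ T.children v, lam ^ 2 * G w * (1 - c * G w ^ 2)) :
    ∃ θ : V → ℝ, θ T.root = m0 * √c ∧ (∀ v, θ v ∈ Set.Icc 0 (m0 * √c)) ∧
      (∀ v, T.depth v < n → θ v = ∑ w ∈ T.children v, θ w) ∧
      ∀ ξ : ℕ → V, T.IsRay ξ → ∀ k ≤ n,
        ∑ j ∈ Finset.range k, (θ (ξ (j + 1)) / lam ^ (2 * (j + 1))) ^ 2 ≤ 1 := by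
  set F : V → ℝ := fun w => lam ^ 2 * G w * (1 - c * G w ^ 2) with hF
  set S : V → ℝ := fun v => ∑ w ∈ T.children v, F w with hS
  have hF0 : ∀ w, 0 ≤ F w := fun w =>
    mul_nonneg (mul_nonneg (by positivity) (hG0 w)) (by linarith [hG1 w])
  have hS0 : ∀ v, 0 ≤ S v := fun v => Finset.sum_nonneg fun w _ => hF0 w
  set θ : V → ℝ := fun v => m0 * √c * cuPP T (fun w => F w / S (T.parent w)) v with hθ
  set ρ : V → ℝ := fun v => √c * cuPP T (fun w => 1 - c * G w ^ 2) v with hρ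
  have θr : θ T.root = m0 * √c := by simp only [hθ, cuPP_root, mul_one]
  have ρr : ρ T.root = √c := by simp only [hρ, cuPP_root, mul_one]
  have θs : ∀ w, w ≠ T.root → θ w = θ (T.parent w) * (F w / S (T.parent w)) := fun w hw => by
    simp only [hθ]; rw [cuPP_step T _ hw]; ring
  have ρs : ∀ w, w ≠ T.root → ρ w = ρ (T.parent w) * (1 - c * G w ^ 2) := fun w hw => by
    simp only [hρ]; rw [cuPP_step T _ hw]; ring
  have hθb : ∀ v, θ v ∈ Set.Icc 0 (m0 * √c) := by
    refine cu_induction T ?_ fun w hw ih => ?_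
    · rw [θr]; exact ⟨by positivity, le_rfl⟩
    · have a0 : 0 ≤ F w / S (T.parent w) := div_nonneg (hF0 w) (hS0 _)
      have a1 : F w / S (T.parent w) ≤ 1 := div_le_one_of_le₀
        (Finset.single_le_sum (fun w _ => hF0 w) (cu_mem_children_parent T hw)) (hS0 _)
      rw [θs w hw]
      exact ⟨mul_nonneg ih.1 a0, (mul_le_of_le_one_right ih.1 a1).trans ih.2⟩
  have hρ0 : ∀ v, 0 ≤ ρ v := by
    refine cu_induction T ?_ fun w hw ih => ?_
    · rw [ρr]; positivity
    · rw [ρs w hw]; exact mul_nonneg ih (by linarith [hG1 w])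
  have hinv : ∀ v, T.depth v ≤ n → θ v ≤ lam ^ (2 * T.depth v) * ρ v * G v := by
    refine cu_induction T (fun _ => ?_) fun w hw ih hd => ?_
    · rw [θr, ρr, (T.depth_eq_zero_iff _).2 rfl]
      simp only [mul_zero, pow_zero, one_mul]
      rw [mul_comm]
      exact mul_le_mul_of_nonneg_left hroot (by positivity)
    · have hdp := T.depth_parent w hw
      have i1 := ih (by omega)
      have a1 : G (T.parent w) / S (T.parent w) ≤ 1 :=
        div_le_one_of_le₀ (hstep _ (by omega)) (hS0 _)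
      have a2 : 0 ≤ lam ^ (2 * T.depth (T.parent w)) * ρ (T.parent w) * F w :=
        mul_nonneg (mul_nonneg (by positivity) (hρ0 _)) (hF0 w)
      rw [θs w hw, ρs w hw, ← hdp]
      calc θ (T.parent w) * (F w / S (T.parent w))
          ≤ lam ^ (2 * T.depth (T.parent w)) * ρ (T.parent w) * G (T.parent w)
            * (F w / S (T.parent w)) :=
            mul_le_mul_of_nonneg_right i1 (div_nonneg (hF0 w) (hS0 _))
        _ = lam ^ (2 * T.depth (T.parent w)) * ρ (T.parent w) * F w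
            * (G (T.parent w) / S (T.parent w)) := by ring
        _ ≤ lam ^ (2 * T.depth (T.parent w)) * ρ (T.parent w) * F w :=
            mul_le_of_le_one_right a2 a1
        _ = _ := by simp only [hF]; ring
  refine ⟨θ, θr, hθb, fun v hv => ?_, fun ξ hξ k hk => ?_⟩
  · have e : ∑ w ∈ T.children v, θ w = θ v * (S v / S v) := by
      conv_rhs => rw [show S v / S v = (∑ w ∈ T.children v, F w) / S v from rfl,
        Finset.sum_div, Finset.mul_sum]
      refine Finset.sum_congr rfl fun w hw => ?_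
      rw [θs w (cu_child_ne_root T hw), ((cu_mem_children T).1 hw).2]
    rw [e]
    by_cases hSv : S v = 0
    · have a1 : G v = 0 := le_antisymm (hSv ▸ hstep v hv) (hG0 v)
      have a2 := hinv v hv.le
      rw [a1, mul_zero] at a2
      rw [le_antisymm a2 (hθb v).1, zero_mul]
    · rw [div_self hSv, mul_one]
  · have key : ∀ k ≤ n, c * ∑ j ∈ Finset.range k, (θ (ξ (j + 1)) / lam ^ (2 * (j + 1))) ^ 2
        + ρ (ξ k) ^ 2 ≤ c := by
      intro k
      induction k with
      | zero =>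
        intro _
        rw [hξ.1, ρr, Real.sq_sqrt hc.le]; simp
      | succ k ih =>
        intro hk
        have i1 := ih (by omega)
        have hw := cu_child_ne_root T (hξ.2 k)
        have hp := ((cu_mem_children T).1 (hξ.2 k)).2
        have a1 := hinv (ξ (k + 1)) (by rw [cu_ray_depth T hξ]; exact hk)
        rw [cu_ray_depth T hξ] at a1
        have a2 : θ (ξ (k + 1)) / lam ^ (2 * (k + 1)) ≤ ρ (ξ (k + 1)) * G (ξ (k + 1)) := by
          rw [div_le_iff₀ (by positivity)]; linarith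
        have a3 : (θ (ξ (k + 1)) / lam ^ (2 * (k + 1))) ^ 2
            ≤ (ρ (ξ (k + 1)) * G (ξ (k + 1))) ^ 2 :=
          pow_le_pow_left₀ (div_nonneg (hθb _).1 (by positivity)) a2 2
        have a4 := ρs _ hw
        rw [hp] at a4
        have u0 : 0 ≤ c * G (ξ (k + 1)) ^ 2 := by positivity
        have u1 := hG1 (ξ (k + 1))
        have a5 : c * (ρ (ξ (k + 1)) * G (ξ (k + 1))) ^ 2 + ρ (ξ (k + 1)) ^ 2 ≤ ρ (ξ k) ^ 2 := by
          have e : c * (ρ (ξ (k + 1)) * G (ξ (k + 1))) ^ 2 + ρ (ξ (k + 1)) ^ 2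
              = ρ (ξ k) ^ 2 * ((1 - c * G (ξ (k + 1)) ^ 2) ^ 2 * (1 + c * G (ξ (k + 1)) ^ 2)) := by
            rw [a4]; ring
          rw [e]
          refine mul_le_of_le_one_right (sq_nonneg _) ?_
          set u := c * G (ξ (k + 1)) ^ 2
          nlinarith [mul_nonneg u0 (sub_nonneg.2 u1), mul_nonneg (mul_nonneg u0 u0) (sub_nonneg.2 u1)]
        rw [Finset.sum_range_succ, mul_add]
        nlinarith [mul_le_mul_of_nonneg_left a3 hc.le]
    have := key k hk
    have h2 : c * ∑ j ∈ Finset.range k, (θ (ξ (j + 1)) / lam ^ (2 * (j + 1))) ^ 2 ≤ c * 1 := by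
      nlinarith [sq_nonneg (ρ (ξ k))]
    exact le_of_mul_le_mul_left h2 hc

theorem cu_limit {lam m : ℝ} (hm : 0 < m) (θ : ℕ → V → ℝ) (hr : ∀ n, θ n T.root = m)
    (hb : ∀ n v, θ n v ∈ Set.Icc 0 m)
    (hcons : ∀ n v, T.depth v < n → θ n v = ∑ w ∈ T.children v, θ n w)
    (hpot : ∀ n (ξ : ℕ → V), T.IsRay ξ → ∀ k ≤ n,
      ∑ j ∈ Finset.range k, (θ n (ξ (j + 1)) / lam ^ (2 * (j + 1))) ^ 2 ≤ 1) :
    ∃ θ : V → ℝ, IsFlow T θ ∧ 0 < flowMass T θ ∧
      ∀ ξ : ℕ → V, T.IsRay ξ → rayPotential lam θ ξ ≤ 1 := by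
  let U : Ultrafilter ℕ := Filter.hyperfilter ℕ
  have hU : (U : Filter ℕ) ≤ Filter.atTop := by
    rw [← Nat.cofinite_eq_atTop]; exact Filter.hyperfilter_le_cofinite
  have hex : ∀ v, ∃ a ∈ Set.Icc 0 m, Filter.Tendsto (fun n => θ n v) U (nhds a) := fun v =>
    isCompact_Icc.ultrafilter_le_nhds (U.map fun n => θ n v)
      (Filter.le_principal_iff.2 (Filter.mem_map.2 (Filter.Eventually.of_forall fun n => hb n v)))
  choose a ha hlim using hex
  have hc : ∀ v, a v = ∑ w ∈ T.children v, a w := fun v =>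
    tendsto_nhds_unique_of_eventuallyEq (hlim v) (tendsto_finsetSum _ fun w _ => hlim w)
      (hU ((Filter.eventually_gt_atTop (T.depth v)).mono fun n hn => hcons n v hn))
  have hroot : a T.root = m :=
    tendsto_nhds_unique (hlim T.root) (by simp only [hr]; exact tendsto_const_nhds)
  refine ⟨a, ⟨fun v => (ha v).1, fun v _ => hc v⟩, ?_, fun ξ hξ => ?_⟩
  · unfold flowMass
    rw [← hc, hroot]; exact hm
  · unfold rayPotential
    refine ENNReal.tsum_le_of_sum_range_le fun k => ?_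
    rw [← ENNReal.ofReal_sum_of_nonneg fun _ _ => sq_nonneg _, ENNReal.ofReal_le_one]
    refine le_of_tendsto (tendsto_finsetSum (Finset.range k) fun j _ =>
      ((hlim (ξ (j + 1))).div_const (lam ^ (2 * (j + 1)))).pow 2) ?_
    exact hU ((Filter.eventually_ge_atTop k).mono fun n hn => hpot n ξ hξ k hn)

end aux

theorem cu_g_sub {δ a b x : ℝ} (hδ : 0 < δ) (ha : 0 ≤ a) (hb : 0 ≤ b) (hx : 0 ≤ x)
    (h : x ≤ a + b - δ * (a * b * (a + b))) :
    x + δ / 3 * x ^ 3 ≤ (a + δ / 3 * a ^ 3) + (b + δ / 3 * b ^ 3) := by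
  have h1 : x ≤ a + b := by
    have : 0 ≤ δ * (a * b * (a + b)) := by positivity
    linarith
  have h2 : x ^ 3 ≤ (a + b) ^ 3 := pow_le_pow_left₀ hx h1 3
  nlinarith [mul_le_mul_of_nonneg_left h2 hδ.le]

theorem cu_fam {q : ℕ} {α γ δ : ℝ} (hc : ConeCert q α γ δ) {V : Type u} [DecidableEq V]
    {T : LocFinTree V} {lam : ℝ} (h0 : 0 ≤ lam) {hl : ChanOK q lam} {n : ℕ}
    {hτ : ∀ _ : V, ChanOK q 1} {P : V → Ex.{u} q} {A : V → Finset V → Ex.{u} q}
    (hF : IsFam T lam hl n (fun _ => 1) hτ P A) :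
    ∀ v, T.depth v < n → (P v).x + δ / 3 * (P v).x ^ 3
      ≤ ∑ w ∈ T.children v, (lam ^ 2 * (P w).x + δ / 3 * (lam ^ 2 * (P w).x) ^ 3) := by
  have step : ∀ v, T.depth v < n → (∀ w ∈ T.children v, Cone α γ (P w)) →
      Cone α γ (P v) ∧ (P v).x + δ / 3 * (P v).x ^ 3
        ≤ ∑ w ∈ T.children v, (lam ^ 2 * (P w).x + δ / 3 * (lam ^ 2 * (P w).x) ^ 3) := by
    intro v hv hch
    have key : ∀ t : Finset V, t ⊆ T.children v → Cone α γ (A v t) ∧
        (A v t).x + δ / 3 * (A v t).x ^ 3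
          ≤ ∑ w ∈ t, (lam ^ 2 * (P w).x + δ / 3 * (lam ^ 2 * (P w).x) ^ 3) := by
      intro t
      induction t using Finset.induction_on with
      | empty =>
        intro _
        refine ⟨Cone.eqv (hF.empty v hv) cone_null, ?_⟩
        rw [(hF.empty v hv).x, x_null]; simp
      | insert w t hw ih =>
        intro ht
        obtain ⟨i1, i2⟩ := ih ((Finset.subset_insert _ _).trans ht)
        have e := hF.insert v hv t w hw ht
        have c2 := Cone.chan hc (hch w (ht (Finset.mem_insert_self _ _))) h0 hl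
        refine ⟨Cone.eqv e (Cone.merge hc i1 c2), ?_⟩
        have := cu_g_sub hc.δ_pos (Ex.x_nonneg _) (Ex.x_nonneg _) (Ex.x_nonneg _)
          (Cone.x_merge_le hc i1 c2)
        rw [x_chan] at this
        rw [Finset.sum_insert hw, e.x]
        linarith
    obtain ⟨k1, k2⟩ := key _ (Finset.Subset.refl _)
    refine ⟨Cone.eqv (hF.node v hv) k1, ?_⟩
    rw [(hF.node v hv).x]; exact k2
  have cone : ∀ k v, T.depth v + k = n → Cone α γ (P v) := by
    intro k
    induction k with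
    | zero =>
      intro v hv
      exact Cone.eqv (hF.leaf v hv) (Cone.chan hc (cone_full hc) zero_le_one _)
    | succ k ih =>
      intro v hv
      refine (step v (by omega) fun w hw => ih w ?_).1
      have := ((cu_mem_children T).1 hw).1
      omega
  intro v hv
  refine (step v hv fun w hw => cone (n - T.depth w) w ?_).2
  have := ((cu_mem_children T).1 hw).1
  omega

theorem cap_upper {q : ℕ} {α γ δ : ℝ} (hc : ConeCert q α γ δ) {V : Type u} [DecidableEq V]
    (T : LocFinTree V) {lam : ℝ} (h0 : 0 < lam) (h1 : lam < 1)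
    (h : ∃ ε : ℝ, 0 < ε ∧ ∀ n, ε ≤ treeAdvantage q T lam n) :
    ∃ θ : V → ℝ, IsFlow T θ ∧ 0 < flowMass T θ ∧
      ∀ ξ : ℕ → V, T.IsRay ξ → rayPotential lam θ ξ ≤ 1 := by
  obtain ⟨ε, hε, hadv⟩ := h
  have hq : 0 < q := by have := hc.two_le; omega
  have hq' : (0 : ℝ) < q := by exact_mod_cast hq
  have hl : ChanOK q lam := ⟨hq, h1.le, by have : 0 ≤ 1 - lam := by linarith
                                           positivity⟩
  have hl1 : ChanOK q 1 := ⟨hq, le_rfl, by simp⟩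
  have hδ := hc.δ_pos
  set κ := δ / 3 with hκ
  have hκ0 : 0 < κ := by positivity
  set K := 1 + κ * ((q : ℝ) - 1) ^ 2 with hK
  have hK0 : 0 < K := by positivity
  have hl4 : lam ^ 4 < 1 := pow_lt_one₀ h0.le h1 (by norm_num)
  have hl4' : 0 < 1 - lam ^ 4 := by linarith
  set c := κ * (1 - lam ^ 4) / K ^ 3 with hcdef
  have hc0 : 0 < c := by positivity
  have hcK : c * K ^ 3 = κ * (1 - lam ^ 4) := by rw [hcdef]; field_simp
  have hGK : ∀ x : ℝ, 0 ≤ x → x ≤ q - 1 → x + κ * x ^ 3 ≤ K * x := by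
    intro x hx0 hx1
    have : x ^ 2 ≤ ((q : ℝ) - 1) ^ 2 := pow_le_pow_left₀ hx0 hx1 2
    rw [hK]
    nlinarith [mul_le_mul_of_nonneg_left this (mul_nonneg hκ0.le hx0)]
  have hfin : ∀ n, ∃ θ : V → ℝ, θ T.root = 4 * ε ^ 2 * √c ∧
      (∀ v, θ v ∈ Set.Icc 0 (4 * ε ^ 2 * √c)) ∧
      (∀ v, T.depth v < n → θ v = ∑ w ∈ T.children v, θ w) ∧
      ∀ ξ : ℕ → V, T.IsRay ξ → ∀ k ≤ n,
        ∑ j ∈ Finset.range k, (θ (ξ (j + 1)) / lam ^ (2 * (j + 1))) ^ 2 ≤ 1 := by
    intro n
    obtain ⟨P, A, hF, hT⟩ := exists_fam T lam hl n (fun _ => 1) (fun _ => hl1)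
    have hx0 : ∀ v, 0 ≤ (P v).x := fun v => Ex.x_nonneg _
    have hx1 : ∀ v, (P v).x ≤ q - 1 := fun v => Ex.x_le _ hq
    have hG0 : ∀ v, 0 ≤ (P v).x + κ * (P v).x ^ 3 := fun v => by have := hx0 v; positivity
    refine cu_finite_flow T h0 hc0 (by positivity) n (fun v => (P v).x + κ * (P v).x ^ 3) hG0
      (fun v => ?_) ?_ fun v hv => (cu_fam hc h0.le hF v hv).trans ?_
    · have a1 : ((P v).x + κ * (P v).x ^ 3) ^ 2 ≤ (K * ((q : ℝ) - 1)) ^ 2 :=
        pow_le_pow_left₀ (hG0 v) ((hGK _ (hx0 v) (hx1 v)).trans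
          (mul_le_mul_of_nonneg_left (hx1 v) hK0.le)) 2
      refine (mul_le_mul_of_nonneg_left a1 hc0.le).trans ?_
      refine le_of_mul_le_mul_right ?_ hK0
      have e : c * (K * ((q : ℝ) - 1)) ^ 2 * K = c * K ^ 3 * ((q : ℝ) - 1) ^ 2 := by ring
      rw [e, hcK, one_mul, hK]
      have : 0 ≤ κ * lam ^ 4 * ((q : ℝ) - 1) ^ 2 := by positivity
      nlinarith
    · have a1 := hadv n
      rw [hT fun _ => rfl] at a1
      have a2 := Ex.TV_sq_le (P T.root) hq
      have a3 : ε ^ 2 ≤ (P T.root).E TVh ^ 2 := pow_le_pow_left₀ hε.le a1 2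
      have a4 : 0 ≤ κ * (P T.root).x ^ 3 := by have := hx0 T.root; positivity
      show _ ≤ (P T.root).x + κ * (P T.root).x ^ 3
      linarith
    · refine Finset.sum_le_sum fun w _ => ?_
      have a1 : ((P w).x + κ * (P w).x ^ 3) ^ 3 ≤ (K * (P w).x) ^ 3 :=
        pow_le_pow_left₀ (hG0 w) (hGK _ (hx0 w) (hx1 w)) 3
      have a2 : c * ((P w).x + κ * (P w).x ^ 3) ^ 3 ≤ κ * (1 - lam ^ 4) * (P w).x ^ 3 := by
        rw [← hcK]
        calc _ ≤ c * (K * (P w).x) ^ 3 := mul_le_mul_of_nonneg_left a1 hc0.le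
          _ = _ := by ring
      have a3 := mul_le_mul_of_nonneg_left a2 (sq_nonneg lam)
      rw [← hκ]
      nlinarith
  choose θ h1' h2' h3' h4' using hfin
  exact cu_limit T (by positivity) θ h1' h2' h3' h4'

end Crest.Agent.R163
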