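import Crest.Agent.R163.Geo3
import Crest.Agent.R163.CertData

/-! Row 163: the cone certificate for three spins. -/

set_option autoImplicit false

namespace Crest.Agent.R163.PE

open Finset

theorem dotN_six {n : ℕ} (h : 6 ≤ n) (a b c d e g : ℤ) (f : ℕ → ℝ) :
    dotN n (toF [a, b, c, d, e, g]) f =
      a * f 0 + b * f 1 + c * f 2 + d * f 3 + e * f 4 + g * f 5 := by
  obtain ⟨m, rfl⟩ := Nat.exists_eq_add_of_le' h
  simp only [dotN, sum_range_succ', toF_cons_succ, toF_cons_zero, toF_nil, zero_mul,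
    sum_const_zero]
  ring

theorem assemble {q : ℕ} {L : List (Equiv.Perm (Fin q))} (hL : L ≠ []) {rho : Vec q → List ℝ}
    {fe : List E} {n : ℕ} {A Wl : List ℤ} {M P : List (List ℤ)} {ex : List (List ℤ × List ℤ)}
    {k1 d1 kA dW B : ℝ} (hk1 : 0 < k1) (hd1 : 0 < d1) (hkA : 0 < kA) (hk : k1 * d1 = kA * dW)
    (hA : A.length ≤ n) (hB : 0 ≤ B) {F W : Vec q → ℝ} {R : Vec q → Vec q → ℝ}
    (hid : ∀ x y, Nrm x → Nrm y →
      k1 * (L.map (fun σ : Equiv.Perm (Fin q) => polZ P (x * (y ∘ σ)))).sum =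
        L.length * (bilN n n M (FE fe (rho x)) (FE fe (rho y)) +
          pairsR n ((A, Wl) :: (Wl, A) :: ex) (FE fe (rho x)) (FE fe (rho y))))
    (hval : ∀ x y, Nrm x → Nrm y → polZ P (x * y) ≤ d1 * F (x * y))
    (hbil : ∀ x y, Nrm x → Nrm y → 0 ≤ bilN n n M (FE fe (rho x)) (FE fe (rho y)))
    (hA0 : ∀ x, Nrm x → 0 ≤ dotN n (toF A) (FE fe (rho x)))
    (hW : ∀ x, Nrm x → dotN n (toF Wl) (FE fe (rho x)) = dW * W x)
    (hex : ∀ x y, Nrm x → Nrm y → pairsR n ex (FE fe (rho x)) (FE fe (rho y)) = k1 * d1 * R x y)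
    (hb : ∀ x, Nrm x → ∀ r ∈ rho x, |r| ≤ B) :
    ∃ (A' : Vec q → ℝ) (C : ℝ), (∀ x, Nrm x → 0 ≤ A' x ∧ A' x ≤ C) ∧
      ∀ x y, Nrm x → Nrm y →
        A' y * W x + A' x * W y + R x y ≤ pavg L (fun σ => F (x * (y ∘ σ))) := by
  obtain ⟨C, hC⟩ := dotN_bdd A hA fe B hB
  refine ⟨fun x => dotN n (toF A) (FE fe (rho x)) / kA, C / kA, fun x hx =>
    ⟨div_nonneg (hA0 x hx) hkA.le, div_le_div_of_nonneg_right (hC _ (hb x hx)) hkA.le⟩, ?_⟩
  intro x y hx hy
  have hl : (0 : ℝ) < L.length := by exact_mod_cast List.length_pos_of_ne_nil hL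
  have h1 := hid x y hx hy
  have h2 : (L.map (fun σ : Equiv.Perm (Fin q) => polZ P (x * (y ∘ σ)))).sum ≤
      d1 * (L.map (fun σ : Equiv.Perm (Fin q) => F (x * (y ∘ σ)))).sum := by
    rw [← List.sum_map_mul_left]
    exact List.sum_le_sum fun σ _ => hval x _ hx (nrm_perm hy σ)
  have h3 := hbil x y hx hy
  simp only [pairsR, hW x hx, hW y hy, hex x y hx hy] at h1
  rw [pavg, le_div_iff₀ hl]
  set a := dotN n (toF A) (FE fe (rho x))
  set b := dotN n (toF A) (FE fe (rho y))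
  have h4 : k1 * d1 * ((b / kA * W x + a / kA * W y + R x y) * L.length) =
      L.length * (b * (dW * W x) + (dW * W y * a + k1 * d1 * R x y)) := by
    have : dW = k1 * d1 / kA := by rw [hk]; field_simp
    rw [this]; field_simp; ring
  have h5 := mul_le_mul_of_nonneg_left h2 hk1.le
  have h6 : 0 ≤ L.length * bilN n n M (FE fe (rho x)) (FE fe (rho y)) := by positivity
  refine le_of_mul_le_mul_left ?_ (mul_pos hk1 hd1)
  rw [h4]
  nlinarith

theorem Xh_nrm {q : ℕ} {x : Vec q} (hx : Nrm x) : Xh x = cm 2 x := by simp [Xh, hx.2]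

theorem Wh_nrm {q : ℕ} (α γ : ℝ) {x : Vec q} (hx : Nrm x) :
    Wh α γ x = 2 * cm 3 x - α * cm 2 x ^ 2 + γ * (cm 2 x * cm 3 x) := by
  simp [Wh, Yh, XXh, XYh, hx.2]

def I5 : List (List ℤ) :=
  [[1, 0, 0, 0, 0], [0, 1, 0, 0, 0], [0, 0, 1, 0, 0], [0, 0, 0, 1, 0], [0, 0, 0, 0, 1]]
def I4 : List (List ℤ) := [[1, 0, 0, 0], [0, 1, 0, 0], [0, 0, 1, 0], [0, 0, 0, 1]]
def I2 : List (List ℤ) := [[1, 0], [0, 1]]

def W3 : List ℤ := [0, 0, 18, -2, 0, 0]

def ex33 : List (List ℤ × List ℤ) :=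
  [([-2430000000000, 0, 0, 0, 0, 0], [0, 1, 0, 0, 0, 0]),
   ([0, 1, 0, 0, 0, 0], [-2430000000000, 0, 0, 0, 0, 0]),
   ([0, 10800000000, 0, 0, 0, 0], [0, 0, 0, 1, 0, 0]),
   ([0, 0, 0, 1, 0, 0], [0, 10800000000, 0, 0, 0, 0])]

set_option maxRecDepth 100000

theorem v32 : idV 2 3 4 4 P32 H32 I4 vm32 = true := by decide +kernel
theorem v33 : idV 2 3 2 4 P33 H33 I2 vm33 = true := by decide +kernel
theorem g32 : ctrlGood (cellPolys inv3 (vm32.map monoE) base3) = true := by decide +kernel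
theorem g33 : ctrlGood (cellPolys inv3 (vm33.map monoE) base3) = true := by decide +kernel
theorem s32 : signV 8 48 4 4 H32 I4 (ctrl (cellPolys inv3 (vm32.map monoE) base3)) [-1, 0, 1]
    = true := by decide +kernel
theorem s33 : signV 4 14 2 4 H33 I2 (ctrl (cellPolys inv3 (vm33.map monoE) base3)) [-1, 0, 1]
    = true := by decide +kernel
theorem i32 : id3 8 1458 P32 M32 [(A32, W3), (W3, A32)] (mo32.map monoE) = true := by
  decide +kernel
theorem i33 : id3 8 7290000000 P33 M33 ((A33, W3) :: (W3, A33) :: ex33) (mo32.map monoE)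
    = true := by decide +kernel

noncomputable def G3 : List (List ℤ) := ctrl (cellPolys inv3 (mo32.map monoE) base3)

theorem c3 : (ctrlGood (cellPolys inv3 (mo32.map monoE) base3) && pairOK 15 15 51 8 8 M32 G3 G3 &&
    pairOK 15 15 42 8 8 M33 G3 G3 && allDot A32 G3 && allDot A33 G3) = true := by decide +kernel

theorem inG3 {x : Vec 3} (hx : Nrm x) : InCone 8 G3 (FE (mo32.map monoE) (rho3 x)) := by
  have h := c3
  simp only [Bool.and_eq_true] at h
  exact inCone3 hx (by decide +kernel) h.1.1.1.1 8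

theorem fe3 (x : Vec 3) : FE (mo32.map monoE) (rho3 x) 0 = 1 ∧
    FE (mo32.map monoE) (rho3 x) 1 = 3 / 2 * cm 2 x ∧ FE (mo32.map monoE) (rho3 x) 2 = cm 3 x ∧
    FE (mo32.map monoE) (rho3 x) 3 = 9 / 4 * cm 2 x ^ 2 := by
  refine ⟨?_, ?_, ?_, ?_⟩
  · show (monoE (7, 0, 0, 0)).ev (rho3 x) = _
    rw [rho3, ev_monoE]; simp
  · show (monoE (5, 1, 0, 0)).ev (rho3 x) = _
    rw [rho3, ev_monoE]; simp
  · show (monoE (4, 0, 1, 0)).ev (rho3 x) = _
    rw [rho3, ev_monoE]; simp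
  · show (monoE (3, 2, 0, 0)).ev (rho3 x) = _
    rw [rho3, ev_monoE]; simp; ring

theorem hW3 (x : Vec 3) (hx : Nrm x) :
    dotN 8 (toF W3) (FE (mo32.map monoE) (rho3 x)) = 9 * Wh (1 / 2) 0 x := by
  obtain ⟨-, -, f2, f3⟩ := fe3 x
  rw [W3, dotN_six (by norm_num), f2, f3, Wh_nrm _ _ hx]
  push_cast; ring

theorem hb3 (x : Vec 3) (hx : Nrm x) : ∀ r ∈ rho3 x, |r| ≤ 27 := by
  have h2 := abs_cm_nrm 2 hx
  have h3 := abs_cm_nrm 3 hx
  push_cast at h2 h3
  intro r hr
  simp only [rho3, List.mem_cons, List.not_mem_nil, or_false] at hr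
  rcases hr with rfl | rfl | rfl | rfl
  · norm_num
  · rw [abs_mul, abs_of_pos (by norm_num : (0 : ℝ) < 3 / 2)]; linarith
  · linarith
  · norm_num

theorem coneCert3 : ConeCert 3 (1 / 2) 0 (1 / 100) := by
  have h := c3
  simp only [Bool.and_eq_true] at h
  obtain ⟨⟨⟨⟨-, p2⟩, p3⟩, a2⟩, a3⟩ := h
  have hL : L3 ≠ [] := by simp [L3]
  refine ⟨by norm_num, le_rfl, by norm_num, by norm_num, by norm_num, ?_, ?_⟩
  · obtain ⟨A, C, h1, h2⟩ := assemble (rho := rho3) (n := 8) (A := A32) (ex := []) (k1 := 1458)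
      (d1 := 270000000000) (kA := 43740000000000) (dW := 9) (F := Wh (1 / 2) 0)
      (R := fun _ _ => 0) hL (by norm_num) (by norm_num) (by norm_num) (by norm_num) (by decide)
      (by norm_num)
      (fun x y hx hy => by
        have := id3_sound i32 hx hy
        push_cast at this
        rw [this]; rfl)
      (fun x y hx hy => by
        refine (valid3 (by norm_num) v32 (by decide +kernel) g32 s32 hx hy).trans (le_of_eq ?_)
        simp [tgtZ, P32, toF, Wh]; ring)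
      (fun x y hx hy => cone_pairs (by norm_num) p2 (inG3 hx) (inG3 hy))
      (fun x hx => allDot_sound (by decide) a2 (inG3 hx)) hW3
      (fun x y _ _ => by simp [pairsR]) hb3
    exact ⟨L3, A, C, hL, h1, fun x y hx hy => by simpa using h2 x y hx hy⟩
  · obtain ⟨A, C, h1, h2⟩ := assemble (rho := rho3) (n := 8) (A := A33) (ex := ex33)
      (k1 := 7290000000) (d1 := 500) (kA := 405000000000) (dW := 9) (F := fun z => (-1) * Xh z)
      (R := fun x y => 1 / 100 * (Xh x * Xh y * (Xh x + Xh y)) - (Xh x + Xh y)) hL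
      (by norm_num) (by norm_num) (by norm_num) (by norm_num) (by decide) (by norm_num)
      (fun x y hx hy => by
        have := id3_sound i33 hx hy
        push_cast at this
        rw [this]; rfl)
      (fun x y hx hy => by
        refine (valid3 (by norm_num) v33 (by decide +kernel) g33 s33 hx hy).trans (le_of_eq ?_)
        simp [tgtZ, P33, toF])
      (fun x y hx hy => cone_pairs (by norm_num) p3 (inG3 hx) (inG3 hy))
      (fun x hx => allDot_sound (by decide) a3 (inG3 hx)) hW3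
      (fun x y hx hy => by
        obtain ⟨f0, f1, -, f3⟩ := fe3 x
        obtain ⟨g0, g1, -, g3⟩ := fe3 y
        simp only [ex33, pairsR, dotN_six (show 6 ≤ 8 by norm_num), f0, f1, f3, g0, g1, g3,
          Xh_nrm hx, Xh_nrm hy]
        push_cast; ring) hb3
    refine ⟨L3, A, C, hL, h1, fun x y hx hy => ?_⟩
    have := h2 x y hx hy
    rw [cone_pavg_mul] at this
    linarith

end Crest.Agent.R163.PE
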