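import Crest.Agent.R163.Cert4T
import Crest.Agent.R163.Cert3

/-! Row 163: the cone certificate for four spins. -/

set_option autoImplicit false

namespace Crest.Agent.R163.PE

open Finset

def W4 : List ℤ := [0, 0, 80, -60, 0, 9]

def ex43 : List (List ℤ × List ℤ) :=
  [([-10800000000000, 0, 0, 0, 0, 0], [0, 1, 0, 0, 0, 0]),
   ([0, 1, 0, 0, 0, 0], [-10800000000000, 0, 0, 0, 0, 0]),
   ([0, 54000000000, 0, 0, 0, 0], [0, 0, 0, 1, 0, 0]),
   ([0, 0, 0, 1, 0, 0], [0, 54000000000, 0, 0, 0, 0])]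

set_option maxRecDepth 100000

theorem v42 : idV 1 1 5 6 P42 H42 I5 vm42 = true := by decide +kernel
theorem v43 : idV 1 1 2 4 P43 H43 I2 vm43 = true := by decide +kernel
theorem g42 : ctrlGood (cellPolys inv4 (vm42.map monoE) base4) = true := by decide +kernel
theorem g43 : ctrlGood (cellPolys inv4 (vm43.map monoE) base4) = true := by decide +kernel
theorem s42 : signV 14 55 5 6 H42 I5 (ctrl (cellPolys inv4 (vm42.map monoE) base4)) [-1, 0, 1, 2]
    = true := by decide +kernel
theorem s43 : signV 5 20 2 4 H43 I2 (ctrl (cellPolys inv4 (vm43.map monoE) base4)) [-1, 0, 1, 2]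
    = true := by decide +kernel
theorem i42 : id4 18 77760 P42 M42 [(A42, W4), (W4, A42)] (mo42.map monoE) = true := by
  decide +kernel
theorem i43 : id4 11 10800000000 P43 M43 ((A43, W4) :: (W4, A43) :: ex43) (mo43.map monoE)
    = true := by decide +kernel

noncomputable def GG42 : List (List (List ℤ)) := [G42_0, G42_1, G42_2, G42_3]

theorem q42_0 : (allDot A42 G42_0 && GG42.all (fun G => pairOK 59 59 56 18 18 M42 G G42_0))
    = true := by decide +kernel

theorem q42_1 : (allDot A42 G42_1 && GG42.all (fun G => pairOK 59 59 56 18 18 M42 G G42_1))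
    = true := by decide +kernel

theorem q42_2 : (allDot A42 G42_2 && GG42.all (fun G => pairOK 59 59 56 18 18 M42 G G42_2))
    = true := by decide +kernel

theorem q42_3 : (allDot A42 G42_3 && GG42.all (fun G => pairOK 59 59 56 18 18 M42 G G42_3))
    = true := by decide +kernel

noncomputable def GG43 : List (List (List ℤ)) :=
  (tr4.cells base4).map (fun c => ctrl (cellPolys inv4 (mo43.map monoE) c))

theorem c43 : ((tr4.cells base4).all (fun c => ctrlGood (cellPolys inv4 (mo43.map monoE) c)) &&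
    GG43.all (fun G' => allDot A43 G' && GG43.all (fun G => pairOK 45 45 44 11 11 M43 G G')))
    = true := by decide +kernel

theorem q42 : ∀ G' ∈ GG42, allDot A42 G' = true ∧
    ∀ G ∈ GG42, pairOK 59 59 56 18 18 M42 G G' = true := by
  have h0 := q42_0
  have h1 := q42_1
  have h2 := q42_2
  have h3 := q42_3
  simp only [Bool.and_eq_true, List.all_eq_true] at h0 h1 h2 h3
  intro G' hG'
  rw [GG42] at hG'
  simp only [List.mem_cons, List.not_mem_nil, or_false] at hG'
  rcases hG' with rfl | rfl | rfl | rfl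
  exacts [h0, h1, h2, h3]

theorem inG42 {x : Vec 4} (hx : Nrm x) :
    ∃ G ∈ GG42, InCone 18 G (FE (mo42.map monoE) (rho4 x)) := by
  obtain ⟨c, hc, h⟩ := inCone4 tr4 rfl hx (fe := mo42.map monoE) (by decide +kernel)
  have h0 := c42_0
  have h1 := c42_1
  have h2 := c42_2
  have h3 := c42_3
  simp only [Bool.and_eq_true, decide_eq_true_eq] at h0 h1 h2 h3
  have e : tr4.cells base4 = [(tr4.cells base4).getD 0 base4, (tr4.cells base4).getD 1 base4,
    (tr4.cells base4).getD 2 base4, (tr4.cells base4).getD 3 base4] := rfl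
  rw [e] at hc
  simp only [List.mem_cons, List.not_mem_nil, or_false] at hc
  rcases hc with rfl | rfl | rfl | rfl
  · exact ⟨_, by simp [GG42], h0.2 ▸ h h0.1 18⟩
  · exact ⟨_, by simp [GG42], h1.2 ▸ h h1.1 18⟩
  · exact ⟨_, by simp [GG42], h2.2 ▸ h h2.1 18⟩
  · exact ⟨_, by simp [GG42], h3.2 ▸ h h3.1 18⟩

theorem inG43 {x : Vec 4} (hx : Nrm x) :
    ∃ G ∈ GG43, InCone 11 G (FE (mo43.map monoE) (rho4 x)) := by
  obtain ⟨c, hc, h⟩ := inCone4 tr4 rfl hx (fe := mo43.map monoE) (by decide +kernel)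
  have h0 := c43
  simp only [Bool.and_eq_true, List.all_eq_true] at h0
  exact ⟨_, List.mem_map_of_mem hc, h (h0.1 c hc) 11⟩

theorem fe42 (x : Vec 4) : FE (mo42.map monoE) (rho4 x) 0 = 1 ∧
    FE (mo42.map monoE) (rho4 x) 1 = cm 2 x ∧ FE (mo42.map monoE) (rho4 x) 2 = cm 3 x ∧
    FE (mo42.map monoE) (rho4 x) 3 = cm 2 x ^ 2 ∧
    FE (mo42.map monoE) (rho4 x) 5 = cm 2 x * cm 3 x := by
  refine ⟨?_, ?_, ?_, ?_, ?_⟩
  · show (monoE (9, 0, 0, 0)).ev (rho4 x) = _
    rw [rho4, ev_monoE]; simp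
  · show (monoE (7, 1, 0, 0)).ev (rho4 x) = _
    rw [rho4, ev_monoE]; simp
  · show (monoE (6, 0, 1, 0)).ev (rho4 x) = _
    rw [rho4, ev_monoE]; simp
  · show (monoE (5, 2, 0, 0)).ev (rho4 x) = _
    rw [rho4, ev_monoE]; simp
  · show (monoE (4, 1, 1, 0)).ev (rho4 x) = _
    rw [rho4, ev_monoE]; simp

theorem hW42 (x : Vec 4) (hx : Nrm x) :
    dotN 18 (toF W4) (FE (mo42.map monoE) (rho4 x)) = 40 * Wh (3 / 2) (9 / 40) x := by
  obtain ⟨-, -, f2, f3, f5⟩ := fe42 x
  rw [W4, dotN_six (by norm_num), f2, f3, f5, Wh_nrm _ _ hx]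
  push_cast; ring

theorem fe43 (x : Vec 4) : FE (mo43.map monoE) (rho4 x) 0 = 1 ∧
    FE (mo43.map monoE) (rho4 x) 1 = cm 2 x ∧ FE (mo43.map monoE) (rho4 x) 2 = cm 3 x ∧
    FE (mo43.map monoE) (rho4 x) 3 = cm 2 x ^ 2 ∧
    FE (mo43.map monoE) (rho4 x) 5 = cm 2 x * cm 3 x := by
  refine ⟨?_, ?_, ?_, ?_, ?_⟩
  · show (monoE (7, 0, 0, 0)).ev (rho4 x) = _
    rw [rho4, ev_monoE]; simp
  · show (monoE (5, 1, 0, 0)).ev (rho4 x) = _
    rw [rho4, ev_monoE]; simp
  · show (monoE (4, 0, 1, 0)).ev (rho4 x) = _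
    rw [rho4, ev_monoE]; simp
  · show (monoE (3, 2, 0, 0)).ev (rho4 x) = _
    rw [rho4, ev_monoE]; simp
  · show (monoE (2, 1, 1, 0)).ev (rho4 x) = _
    rw [rho4, ev_monoE]; simp

theorem hW43 (x : Vec 4) (hx : Nrm x) :
    dotN 11 (toF W4) (FE (mo43.map monoE) (rho4 x)) = 40 * Wh (3 / 2) (9 / 40) x := by
  obtain ⟨-, -, f2, f3, f5⟩ := fe43 x
  rw [W4, dotN_six (by norm_num), f2, f3, f5, Wh_nrm _ _ hx]
  push_cast; ring

theorem hb4 (x : Vec 4) (hx : Nrm x) : ∀ r ∈ rho4 x, |r| ≤ 256 := by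
  have h2 := abs_cm_nrm 2 hx
  have h3 := abs_cm_nrm 3 hx
  have h4 := abs_cm_nrm 4 hx
  push_cast at h2 h3 h4
  intro r hr
  simp only [rho4, List.mem_cons, List.not_mem_nil, or_false] at hr
  rcases hr with rfl | rfl | rfl | rfl
  · norm_num
  · linarith
  · linarith
  · linarith

theorem coneCert4 : ConeCert 4 (3 / 2) (9 / 40) (1 / 200) := by
  have h := c43
  simp only [Bool.and_eq_true, List.all_eq_true] at h
  have hL : L4 ≠ [] := by simp [L4]
  have e24 : ((L4.length : ℕ) : ℝ) = 24 := by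
    rw [show L4.length = 24 from rfl]; norm_num
  refine ⟨by norm_num, by norm_num, by norm_num, by norm_num, by norm_num, ?_, ?_⟩
  · obtain ⟨A, C, h1, h2⟩ := assemble (rho := rho4) (n := 18) (A := A42) (ex := []) (k1 := 77760)
      (d1 := 20000000000) (kA := 38880000000000) (dW := 40) (F := Wh (3 / 2) (9 / 40))
      (R := fun _ _ => 0) hL (by norm_num) (by norm_num) (by norm_num) (by norm_num) (by decide)
      (by norm_num)
      (fun x y hx hy => by
        have := id4_sound i42 hx hy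
        push_cast at this
        rw [this, e24])
      (fun x y hx hy => by
        refine (valid4 (by norm_num) v42 (by decide +kernel) g42 s42 hx hy).trans (le_of_eq ?_)
        simp [tgtZ, P42, toF, Wh]; ring)
      (fun x y hx hy => by
        obtain ⟨G, hG, h1⟩ := inG42 hx
        obtain ⟨G', hG', h2⟩ := inG42 hy
        exact cone_pairs (by norm_num) ((q42 G hG).2 G' hG') h1 h2)
      (fun x hx => by
        obtain ⟨G, hG, h1⟩ := inG42 hx
        exact allDot_sound (by decide) (q42 G hG).1 h1) hW42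
      (fun x y _ _ => by simp [pairsR]) hb4
    exact ⟨L4, A, C, hL, h1, fun x y hx hy => by simpa using h2 x y hx hy⟩
  · obtain ⟨A, C, h1, h2⟩ := assemble (rho := rho4) (n := 11) (A := A43) (ex := ex43)
      (k1 := 10800000000) (d1 := 1000) (kA := 270000000000) (dW := 40)
      (F := fun z => (-1) * Xh z)
      (R := fun x y => 1 / 200 * (Xh x * Xh y * (Xh x + Xh y)) - (Xh x + Xh y)) hL
      (by norm_num) (by norm_num) (by norm_num) (by norm_num) (by decide) (by norm_num)
      (fun x y hx hy => by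
        have := id4_sound i43 hx hy
        push_cast at this
        rw [this, e24])
      (fun x y hx hy => by
        refine (valid4 (by norm_num) v43 (by decide +kernel) g43 s43 hx hy).trans (le_of_eq ?_)
        simp [tgtZ, P43, toF])
      (fun x y hx hy => by
        obtain ⟨G, hG, h1⟩ := inG43 hx
        obtain ⟨G', hG', h2⟩ := inG43 hy
        exact cone_pairs (by norm_num) ((h.2 G hG).2 G' hG') h1 h2)
      (fun x hx => by
        obtain ⟨G, hG, h1⟩ := inG43 hx
        exact allDot_sound (by decide) (h.2 G hG).1 h1) hW43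
      (fun x y hx hy => by
        obtain ⟨f0, f1, -, f3, -⟩ := fe43 x
        obtain ⟨g0, g1, -, g3, -⟩ := fe43 y
        simp only [ex43, pairsR, dotN_six (show 6 ≤ 11 by norm_num), f0, f1, f3, g0, g1, g3,
          Xh_nrm hx, Xh_nrm hy]
        push_cast; ring) hb4
    refine ⟨L4, A, C, hL, h1, fun x y hx hy => ?_⟩
    have := h2 x y hx hy
    rw [cone_pavg_mul] at this
    linarith

end Crest.Agent.R163.PE
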