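import Crest.Agent.R163.Ex

/-! Row 163: the regular and the Poisson tree as experiments. -/

set_option autoImplicit false

namespace Crest.Agent.R163

open Crest.ProbabilityR.Broadcast

variable {q : ℕ}

noncomputable def regEx (b : ℕ) (lam : ℝ) (h : ChanOK q lam) : ℕ → Ex.{0} q
  | 0 => full q
  | n + 1 => ((regEx b lam h n).chan lam h).pow b

noncomputable def gwEx (lam d : ℝ) (h : ChanOK q lam) (hd : 0 ≤ d) : ℕ → Ex.{0} q
  | 0 => full q
  | n + 1 => ((gwEx lam d h hd n).chan lam h).pois d hd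

theorem regEx_zero (b : ℕ) (lam : ℝ) (h : ChanOK q lam) : regEx b lam h 0 = full q := rfl

theorem regEx_succ (b : ℕ) (lam : ℝ) (h : ChanOK q lam) (n : ℕ) :
    regEx b lam h (n + 1) = ((regEx b lam h n).chan lam h).pow b := rfl

theorem gwEx_zero (lam d : ℝ) (h : ChanOK q lam) (hd : 0 ≤ d) : gwEx lam d h hd 0 = full q := rfl

theorem gwEx_succ (lam d : ℝ) (h : ChanOK q lam) (hd : 0 ≤ d) (n : ℕ) :
    gwEx lam d h hd (n + 1) = ((gwEx lam d h hd n).chan lam h).pois d hd := rfl

theorem sym_regEx (b : ℕ) (lam : ℝ) (h : ChanOK q lam) (n : ℕ) : Sym (regEx b lam h n) := by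
  induction n with
  | zero => exact sym_full
  | succ n ih => exact (ih.chan h).pow b

theorem sym_gwEx (lam d : ℝ) (h : ChanOK q lam) (hd : 0 ≤ d) (n : ℕ) :
    Sym (gwEx lam d h hd n) := by
  induction n with
  | zero => exact sym_full
  | succ n ih => exact (ih.chan h).pois hd

theorem exists_equiv_regEx (b : ℕ) (lam : ℝ) (h : ChanOK q lam) (n : ℕ) :
    ∃ e : ((Fin n → Fin b) → Fin q) ≃ (regEx b lam h n).Ω,
      ∀ τ i, (regEx b lam h n).p (e τ) i = leafLaw q b lam n i τ := by
  induction n with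
  | zero =>
    refine ⟨Equiv.funUnique (Fin 0 → Fin b) (Fin q), fun τ i => ?_⟩
    have : (default : Fin 0 → Fin b) = Fin.elim0 := Subsingleton.elim _ _
    change (if τ default = i then (1 : ℝ) else 0) = if τ Fin.elim0 = i then 1 else 0
    rw [this]
  | succ n ih =>
    obtain ⟨e, he⟩ := ih
    let c : Fin b × (Fin n → Fin b) ≃ (Fin (n + 1) → Fin b) := Fin.consEquiv fun _ => Fin b
    refine ⟨((Equiv.arrowCongr c.symm (Equiv.refl (Fin q))).trans (Equiv.curry _ _ _)).trans
      (Equiv.piCongrRight fun _ => e), fun τ i => ?_⟩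
    change ∏ m : Fin b, ∑ j, channel q lam i j *
      (regEx b lam h n).p (e fun w => τ (Fin.cons m w)) j = _
    simp only [he, leafLaw]

theorem exists_equiv_gwEx (lam d : ℝ) (h : ChanOK q lam) (hd : 0 ≤ d) (n : ℕ) :
    ∃ e : PObs q n ≃ (gwEx lam d h hd n).Ω,
      ∀ o i, (gwEx lam d h hd n).p (e o) i = gwLaw q lam d n i o := by
  induction n with
  | zero => exact ⟨Equiv.refl (Fin q), fun o i => rfl⟩
  | succ n ih =>
    obtain ⟨e, he⟩ := ih
    refine ⟨Equiv.listEquivOfEquiv e, fun o i => ?_⟩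
    change pw d (List.map e o).length * ((List.map e o).map fun o' =>
      ∑ j, channel q lam i j * (gwEx lam d h hd n).p o' j).prod = _
    rw [List.length_map, List.map_map]
    simp only [Function.comp_def, he, gwLaw, pw]

theorem advantage_eq (b : ℕ) (lam : ℝ) (h : ChanOK q lam) (n : ℕ) :
    advantage q b lam n = (regEx b lam h n).E TVh := by
  obtain ⟨e, he⟩ := exists_equiv_regEx b lam h n
  unfold advantage Ex.E
  rw [← e.tsum_eq, tsum_fintype, Finset.mul_sum]
  simp only [TVh, he]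

theorem gwAdvantage_eq (lam d : ℝ) (h : ChanOK q lam) (hd : 0 ≤ d) (n : ℕ) :
    gwAdvantage q lam d n = (gwEx lam d h hd n).E TVh := by
  obtain ⟨e, he⟩ := exists_equiv_gwEx lam d h hd n
  unfold gwAdvantage Ex.E
  rw [← e.tsum_eq, ← tsum_mul_left]
  simp only [TVh, he]

end Crest.Agent.R163
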