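import Crest.Agent.R163.Ln
import Crest.Agent.R163.Trees

/-! Row 163: the cone method (ferromagnetic channels). -/

set_option autoImplicit false

namespace Crest.Agent.R163

open Crest.ProbabilityR.Broadcast

universe u v

variable {q : ℕ}

/-- normalised likelihood vectors -/
def Nrm (x : Vec q) : Prop := NN x ∧ sm x = 1

/-- average over a list of permutations -/
noncomputable def pavg (L : List (Equiv.Perm (Fin q))) (f : Equiv.Perm (Fin q) → ℝ) : ℝ :=
  (L.map f).sum / L.length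

/-- The pointwise inequalities behind the cone method. -/
structure ConeCert (q : ℕ) (α γ δ : ℝ) : Prop where
  two_le : 2 ≤ q
  γ_nonneg : 0 ≤ γ
  α_ge : 2 * γ * ((q : ℝ) - 1) ≤ α
  δ_pos : 0 < δ
  vertex : α * ((q : ℝ) - 1) ≤ 2 * ((q : ℝ) - 2) + γ * (((q : ℝ) - 1) * ((q : ℝ) - 2))
  ii : ∃ (L : List (Equiv.Perm (Fin q))) (A : Vec q → ℝ) (C : ℝ), L ≠ [] ∧
    (∀ x, Nrm x → 0 ≤ A x ∧ A x ≤ C) ∧
    ∀ x y, Nrm x → Nrm y →
      A y * Wh α γ x + A x * Wh α γ y ≤ pavg L (fun σ => Wh α γ (x * (y ∘ σ)))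
  iii : ∃ (L : List (Equiv.Perm (Fin q))) (B : Vec q → ℝ) (C : ℝ), L ≠ [] ∧
    (∀ x, Nrm x → 0 ≤ B x ∧ B x ≤ C) ∧
    ∀ x y, Nrm x → Nrm y →
      pavg L (fun σ => Xh (x * (y ∘ σ))) + B y * Wh α γ x + B x * Wh α γ y
        + δ * (Xh x * Xh y * (Xh x + Xh y)) ≤ Xh x + Xh y

/-- symmetric experiments in the cone -/
def Cone (α γ : ℝ) (P : Ex.{u} q) : Prop := Sym P ∧ 0 ≤ P.E (Wh α γ)

theorem cone_good_zero {F : Vec q → ℝ} (hF : Good F) : F 0 = 0 := by
  have := hF.2 0 0 le_rfl (fun _ => le_rfl)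
  simpa using this

theorem cone_sm_nonneg {x : Vec q} (hx : NN x) : 0 ≤ sm x :=
  div_nonneg (Finset.sum_nonneg fun i _ => hx i) (Nat.cast_nonneg _)

theorem cone_eq_zero (hq : 0 < q) {x : Vec q} (hx : NN x) (h : sm x = 0) : x = 0 := by
  have hq' : (q : ℝ) ≠ 0 := Nat.cast_ne_zero.2 hq.ne'
  have h1 : ∑ i, x i = 0 := by
    unfold sm at h
    exact (div_eq_zero_iff.1 h).resolve_right hq'
  funext i
  exact (Finset.sum_eq_zero_iff_of_nonneg fun i _ => hx i).1 h1 i (Finset.mem_univ i)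

theorem cone_nrm {x : Vec q} (hx : NN x) (h : sm x ≠ 0) : Nrm ((sm x)⁻¹ • x) := by
  have h0 : 0 ≤ (sm x)⁻¹ := inv_nonneg.2 (cone_sm_nonneg hx)
  refine ⟨fun i => mul_nonneg h0 (hx i), ?_⟩
  rw [(good_sm (q := q)).2 _ _ h0 hx, inv_mul_cancel₀ h]

theorem cone_decomp (hq : 0 < q) {x : Vec q} (hx : NN x) :
    x = 0 ∨ ∃ (s : ℝ) (x' : Vec q), 0 ≤ s ∧ Nrm x' ∧ x = s • x' := by
  by_cases h : sm x = 0
  · exact Or.inl (cone_eq_zero hq hx h)
  · exact Or.inr ⟨sm x, _, cone_sm_nonneg hx, cone_nrm hx h, by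
      rw [smul_smul, mul_inv_cancel₀ h, one_smul]⟩

theorem cone_pavg_mul (L : List (Equiv.Perm (Fin q))) (c : ℝ) (f : Equiv.Perm (Fin q) → ℝ) :
    pavg L (fun σ => c * f σ) = c * pavg L f := by
  unfold pavg
  rw [List.sum_map_mul_left, mul_div_assoc]

theorem cone_list (Q : Ex.{u} q) (L : List (Equiv.Perm (Fin q)))
    (G : Equiv.Perm (Fin q) → Vec q → ℝ) (hG : ∀ σ, Good (G σ)) (c : ℝ)
    (hc : ∀ σ, Q.E (G σ) = c) :
    Good (fun y => (L.map fun σ => G σ y).sum) ∧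
      Q.E (fun y => (L.map fun σ => G σ y).sum) = L.length * c := by
  induction L with
  | nil =>
    have h0 : (fun y : Vec q => (([] : List (Equiv.Perm (Fin q))).map fun σ => G σ y).sum)
        = fun y => 0 * sm y := by
      funext y; simp
    rw [h0]
    exact ⟨good_sm.const_mul 0, by rw [Ex.E_const_mul]; simp⟩
  | cons σ L ih =>
    simp only [List.map_cons, List.sum_cons, List.length_cons]
    refine ⟨(hG σ).add ih.1, ?_⟩
    rw [Q.E_add (hG σ).1 ih.1.1, ih.2]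
    have := hc σ
    push_cast
    rw [show Q.E (fun x => G σ x) = c from this]
    ring

/-- Transfer of a pointwise bilinear inequality for normalised vectors to experiments:
if `∑ k, f k x * g k y ≤ avg_σ F (x * y ∘ σ)` then the same holds in expectation. -/
theorem merge_ge_of_pointwise {P Q : Ex.{u} q} (hq : 0 < q) (hQ : Sym Q)
    {L : List (Equiv.Perm (Fin q))} (hL : L ≠ []) {F : Vec q → ℝ} (hF : Good F)
    {n : ℕ} {f g : Fin n → Vec q → ℝ} (hf : ∀ k, Good (f k)) (hg : ∀ k, Good (g k))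
    (h : ∀ x y, Nrm x → Nrm y → ∑ k, f k x * g k y ≤ pavg L (fun σ => F (x * (y ∘ σ)))) :
    ∑ k, P.E (f k) * Q.E (g k) ≤ (P.merge Q).E F := by
  have hpt : ∀ x y, NN x → NN y →
      ∑ k, f k x * g k y ≤ pavg L (fun σ => F (x * (y ∘ σ))) := by
    intro x y hx hy
    rcases cone_decomp hq hx with rfl | ⟨s, x', hs, hx', rfl⟩
    · simp [cone_good_zero (hf _), cone_good_zero hF, pavg]
    rcases cone_decomp hq hy with rfl | ⟨t, y', ht, hy', rfl⟩
    · have : ∀ σ : Equiv.Perm (Fin q), (s • x') * ((0 : Vec q) ∘ σ) = 0 := fun σ => by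
        funext i; simp
      simp [cone_good_zero (hg _), cone_good_zero hF, pavg, this]
    have h1 : ∀ σ : Equiv.Perm (Fin q),
        F ((s • x') * ((t • y') ∘ σ)) = (s * t) * F (x' * (y' ∘ σ)) := by
      intro σ
      rw [← hF.2 (s * t) (x' * (y' ∘ σ)) (mul_nonneg hs ht)
        (fun i => mul_nonneg (hx'.1 i) (hy'.1 (σ i)))]
      congr 1
      funext i
      simp only [Pi.mul_apply, Pi.smul_apply, Function.comp_apply, smul_eq_mul]
      ring
    have h2 : ∑ k, f k (s • x') * g k (t • y') = (s * t) * ∑ k, f k x' * g k y' := by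
      rw [Finset.mul_sum]
      refine Finset.sum_congr rfl fun k _ => ?_
      rw [(hf k).2 s x' hs hx'.1, (hg k).2 t y' ht hy'.1]
      ring
    simp_rw [h1]
    rw [h2, cone_pavg_mul]
    exact mul_le_mul_of_nonneg_left (h x' y' hx' hy') (mul_nonneg hs ht)
  have hLpos : (0 : ℝ) < L.length := Nat.cast_pos.2 (List.length_pos_of_ne_nil hL)
  have hin : ∀ x, NN x → ∑ k, Q.E (g k) * f k x ≤ Q.E (fun y => F (x * y)) := by
    intro x hx
    obtain ⟨h1, h2⟩ := cone_list Q L (fun σ y => F (x * (y ∘ σ)))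
      (fun σ => (hF.tilt hx).perm σ) _ (fun σ => hQ σ _ (hF.tilt hx))
    have h3 : ∑ k, Q.E (g k) * f k x = Q.E (fun y => ∑ k, f k x * g k y) := by
      rw [Q.E_sum Finset.univ (F := fun k y => f k x * g k y)
        fun k _ => ((hg k).const_mul _).1]
      refine Finset.sum_congr rfl fun k _ => ?_
      rw [Ex.E_const_mul, mul_comm]
    have h4 : Q.E (fun y => F (x * y)) =
        Q.E (fun y => (L.length : ℝ)⁻¹ *
          (L.map fun σ : Equiv.Perm (Fin q) => F (x * (y ∘ σ))).sum) := by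
      rw [Ex.E_const_mul, h2, ← mul_assoc, inv_mul_cancel₀ hLpos.ne', one_mul]
    rw [h3, h4]
    refine Q.E_mono (Good.sum _ fun k _ => (hg k).const_mul _).1 (h1.const_mul _).1
      fun y hy => ?_
    have := hpt x y hx hy
    unfold pavg at this
    rwa [div_eq_inv_mul] at this
  have h5 : ∑ k, P.E (f k) * Q.E (g k) = P.E (fun x => ∑ k, Q.E (g k) * f k x) := by
    rw [P.E_sum Finset.univ (F := fun k x => Q.E (g k) * f k x)
      fun k _ => ((hf k).const_mul _).1]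
    refine Finset.sum_congr rfl fun k _ => ?_
    rw [Ex.E_const_mul, mul_comm]
  rw [E_merge P Q hF.1, h5]
  exact P.E_mono (Good.sum _ fun k _ => (hf k).const_mul _).1 (hF.inner Q).1 hin

variable {α γ δ : ℝ}

theorem Cone.eqv {P : Ex.{u} q} {Q : Ex.{v} q} (h : Eqv P Q) (hQ : Cone α γ Q) :
    Cone α γ P := by
  exact ⟨h.sym hQ.1, by rw [h _ (good_Wh α γ)]; exact hQ.2⟩

theorem cone_null : Cone α γ (null.{u} q) := by
  refine ⟨sym_null, ?_⟩
  rw [E_null]
  have h : ∀ k, k ≠ 0 → cm k (1 : Vec q) = 0 := by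
    intro k hk
    rcases Nat.eq_zero_or_pos q with rfl | hq
    · simp [cm]
    · have hq' : (q : ℝ) ≠ 0 := Nat.cast_ne_zero.2 hq.ne'
      simp [cm, sm, hq', hk]
  simp [Wh, Yh, XXh, XYh, h]

theorem cone_full (hc : ConeCert q α γ δ) : Cone α γ (full q) := by
  refine ⟨sym_full, ?_⟩
  rw [E_full (good_Wh α γ)]
  have hq2 : (2 : ℝ) ≤ q := by exact_mod_cast hc.two_le
  have hq' : (q : ℝ) ≠ 0 := by linarith
  refine div_nonneg (Finset.sum_nonneg fun j _ => ?_) (by linarith)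
  have hs : sm (vtx j) = 1 := by simp [sm, vtx, hq']
  have hcm : ∀ k, cm k (vtx j) = (((q : ℝ) - 1) ^ k + ((q : ℝ) - 1) * (-1) ^ k) / q := by
    intro k
    unfold cm
    rw [hs, ← Finset.add_sum_erase _ _ (Finset.mem_univ j)]
    congr 2
    · simp [vtx]
    · rw [Finset.sum_congr rfl (g := fun _ => (-1 : ℝ) ^ k)]
      · rw [Finset.sum_const, Finset.card_erase_of_mem (Finset.mem_univ j), Finset.card_univ,
          Fintype.card_fin, nsmul_eq_mul, Nat.cast_sub (by have := hc.two_le; omega),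
          Nat.cast_one]
      · intro i hi
        simp [vtx, (Finset.ne_of_mem_erase hi).symm]
  have h2 : cm 2 (vtx j) = (q : ℝ) - 1 := by rw [hcm]; field_simp; ring
  have h3 : cm 3 (vtx j) = ((q : ℝ) - 1) * ((q : ℝ) - 2) := by rw [hcm]; field_simp; ring
  simp only [Wh, Yh, XXh, XYh, hs, h2, h3, one_pow, div_one]
  have := mul_nonneg (by linarith : (0 : ℝ) ≤ q - 1) (sub_nonneg.2 hc.vertex)
  nlinarith

theorem cone_XY_le (hc : ConeCert q α γ δ) {x : Vec q} (hx : NN x) {c : ℝ} (h0 : 0 ≤ c)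
    (h2 : c ≤ 2) : c * γ * XYh x ≤ α * XXh x := by
  have hq2 : (2 : ℝ) ≤ q := by exact_mod_cast hc.two_le
  have e1 : XXh x = Xh x / sm x * Xh x := by unfold XXh Xh; ring
  have e2 : XYh x = Xh x / sm x * Yh x := by unfold XYh Xh Yh; ring
  have hX := Xh_nonneg hx
  have hr : 0 ≤ Xh x / sm x := div_nonneg hX (cone_sm_nonneg hx)
  have hγ := hc.γ_nonneg
  have h3 : c * γ * Yh x ≤ α * Xh x :=
    calc c * γ * Yh x ≤ c * γ * (((q : ℝ) - 1) * Xh x) :=
          mul_le_mul_of_nonneg_left (Yh_le hx) (mul_nonneg h0 hγ)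
      _ = c * (γ * ((q : ℝ) - 1) * Xh x) := by ring
      _ ≤ 2 * (γ * ((q : ℝ) - 1) * Xh x) :=
          mul_le_mul_of_nonneg_right h2 (mul_nonneg (mul_nonneg hγ (by linarith)) hX)
      _ = 2 * γ * ((q : ℝ) - 1) * Xh x := by ring
      _ ≤ α * Xh x := mul_le_mul_of_nonneg_right hc.α_ge hX
  rw [e1, e2]
  nlinarith [mul_le_mul_of_nonneg_left h3 hr]

theorem Cone.chan (hc : ConeCert q α γ δ) {P : Ex.{u} q} (hP : Cone α γ P) {lam : ℝ}
    (h0 : 0 ≤ lam) (hl : ChanOK q lam) : Cone α γ (P.chan lam hl) := by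
  refine ⟨hP.1.chan hl, ?_⟩
  rw [E_chan]
  refine le_trans (mul_nonneg (pow_nonneg h0 3) hP.2) ?_
  rw [← Ex.E_const_mul]
  refine P.E_mono ((good_Wh α γ).const_mul _).1 ((good_Wh α γ).chan hl).1 fun x hx => ?_
  have h1 := cone_XY_le hc hx (c := 1 + lam) (by linarith) (by linarith [hl.2.1])
  have e : Wh α γ (Kv lam x) =
      2 * (lam ^ 3 * Yh x) - α * (lam ^ 4 * XXh x) + γ * (lam ^ 5 * XYh x) := by
    simp only [Wh, Yh, XXh, XYh, cm_Kv hl.1, sm_Kv hl.1]
    ring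
  rw [e, Wh]
  have h2 := mul_nonneg (mul_nonneg (pow_nonneg h0 3) (sub_nonneg.2 hl.2.1)) (sub_nonneg.2 h1)
  nlinarith

theorem Cone.y_nonneg (hc : ConeCert q α γ δ) {P : Ex.{u} q} (hP : Cone α γ P) : 0 ≤ P.y := by
  have h1 : P.E (Wh α γ) ≤ P.E (fun x => 2 * Yh x) := by
    refine P.E_mono (good_Wh α γ).1 (good_Yh.const_mul _).1 fun x hx => ?_
    have := cone_XY_le hc hx (c := 1) (by norm_num) (by norm_num)
    rw [Wh]
    linarith
  rw [Ex.E_const_mul] at h1
  have := hP.2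
  unfold Ex.y
  linarith

/-- homogeneous extension -/
noncomputable def coneExt (A : Vec q → ℝ) : Vec q → ℝ := fun x => sm x * A ((sm x)⁻¹ • x)

theorem coneExt_nrm (A : Vec q → ℝ) {x : Vec q} (hx : Nrm x) : coneExt A x = A x := by
  simp [coneExt, hx.2]

theorem good_coneExt {A : Vec q → ℝ} {C : ℝ} (hA : ∀ x, Nrm x → 0 ≤ A x ∧ A x ≤ C) :
    Good (coneExt A) :=
  good_homExt C fun x hx h1 => by
    rw [abs_of_nonneg (hA x ⟨hx, h1⟩).1]; exact (hA x ⟨hx, h1⟩).2

theorem coneExt_E_nonneg {A : Vec q → ℝ} {C : ℝ} (hA : ∀ x, Nrm x → 0 ≤ A x ∧ A x ≤ C)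
    (P : Ex.{u} q) : 0 ≤ P.E (coneExt A) := by
  refine P.E_nonneg fun x hx => ?_
  unfold coneExt
  by_cases h : sm x = 0
  · rw [h, zero_mul]
  · exact mul_nonneg (cone_sm_nonneg hx) (hA _ (cone_nrm hx h)).1

theorem Cone.merge (hc : ConeCert q α γ δ) {P Q : Ex.{u} q} (hP : Cone α γ P)
    (hQ : Cone α γ Q) : Cone α γ (P.merge Q) := by
  refine ⟨hP.1.merge hQ.1, ?_⟩
  obtain ⟨L, A, C, hL, hA, h⟩ := hc.ii
  have hq : 0 < q := by have := hc.two_le; omega
  have key := merge_ge_of_pointwise (P := P) hq hQ.1 hL (good_Wh α γ) (n := 2)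
    (f := ![Wh α γ, coneExt A]) (g := ![coneExt A, Wh α γ])
    (fun k => by fin_cases k; exacts [good_Wh α γ, good_coneExt hA])
    (fun k => by fin_cases k; exacts [good_coneExt hA, good_Wh α γ])
    (fun x y hx hy => by
      have := h x y hx hy
      simp only [Fin.sum_univ_two, Matrix.cons_val_zero, Matrix.cons_val_one,
        coneExt_nrm A hx, coneExt_nrm A hy]
      linarith)
  simp only [Fin.sum_univ_two, Matrix.cons_val_zero, Matrix.cons_val_one] at key
  have h1 := mul_nonneg hP.2 (coneExt_E_nonneg hA Q)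
  have h2 := mul_nonneg (coneExt_E_nonneg hA P) hQ.2
  linarith

theorem Cone.x_merge_le (hc : ConeCert q α γ δ) {P Q : Ex.{u} q} (hP : Cone α γ P)
    (hQ : Cone α γ Q) :
    (P.merge Q).x ≤ P.x + Q.x - δ * (P.x * Q.x * (P.x + Q.x)) := by
  obtain ⟨L, B, C, hL, hB, h⟩ := hc.iii
  have hq : 0 < q := by have := hc.two_le; omega
  have key := merge_ge_of_pointwise (P := P) hq hQ.1 hL (good_Xh.const_mul (-1)) (n := 6)
    (f := ![Xh, sm, Wh α γ, coneExt B, XXh, Xh])
    (g := ![fun y => (-1) * sm y, fun y => (-1) * Xh y, coneExt B, Wh α γ, fun y => δ * Xh y,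
      fun y => δ * XXh y])
    (fun k => by
      fin_cases k
      exacts [good_Xh, good_sm, good_Wh α γ, good_coneExt hB, good_XXh, good_Xh])
    (fun k => by
      fin_cases k
      exacts [good_sm.const_mul _, good_Xh.const_mul _, good_coneExt hB, good_Wh α γ,
        good_Xh.const_mul _, good_XXh.const_mul _])
    (fun x y hx hy => by
      have := h x y hx hy
      have ex : XXh x = Xh x ^ 2 := by simp [XXh, Xh, hx.2]
      have ey : XXh y = Xh y ^ 2 := by simp [XXh, Xh, hy.2]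
      rw [cone_pavg_mul]
      simp only [Fin.sum_univ_succ, Fin.sum_univ_zero, Matrix.cons_val_zero, Matrix.cons_val_succ,
        coneExt_nrm B hx, coneExt_nrm B hy, hx.2, hy.2, ex, ey]
      linarith)
  simp only [Fin.sum_univ_succ, Fin.sum_univ_zero, Matrix.cons_val_zero, Matrix.cons_val_succ,
    Ex.E_const_mul, Ex.E_sm _ hq] at key
  have h1 := mul_nonneg hP.2 (coneExt_E_nonneg hB Q)
  have h2 := mul_nonneg (coneExt_E_nonneg hB P) hQ.2
  have h3 := mul_le_mul_of_nonneg_right (P.sq_x_le hq) (mul_nonneg hc.δ_pos.le Q.x_nonneg)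
  have h4 := mul_le_mul_of_nonneg_right (Q.sq_x_le hq) (mul_nonneg hc.δ_pos.le P.x_nonneg)
  unfold Ex.x at *
  linarith

theorem Cone.pow (hc : ConeCert q α γ δ) {P : Ex.{u} q} (hP : Cone α γ P) (n : ℕ) :
    Cone α γ (P.pow n) := by
  induction n with
  | zero => exact Cone.eqv (pow_zero_eqv P) cone_null
  | succ n ih => exact Cone.eqv (pow_succ_eqv P n) (ih.merge hc hP)

theorem Cone.pois (hc : ConeCert q α γ δ) {P : Ex.{u} q} (hP : Cone α γ P) {d : ℝ}
    (hd : 0 ≤ d) : Cone α γ (P.pois d hd) := by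
  exact ⟨hP.1.pois hd, (hasSum_pois P hd (good_Wh α γ)).nonneg fun n =>
    mul_nonneg (pw_nonneg hd n) (hP.pow hc n).2⟩

theorem Cone.x_pow_succ (hc : ConeCert q α γ δ) {P : Ex.{u} q} (hP : Cone α γ P) (n : ℕ) :
    (P.pow (n + 1)).x ≤ (P.pow n).x + P.x := by
  rw [(pow_succ_eqv P n).x]
  have h1 := (hP.pow hc n).x_merge_le hc hP
  have h2 := (P.pow n).x_nonneg
  have h3 := P.x_nonneg
  have h4 := mul_nonneg hc.δ_pos.le (mul_nonneg (mul_nonneg h2 h3) (add_nonneg h2 h3))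
  linarith

theorem cone_pow_one (P : Ex.{u} q) : Eqv (P.pow 1) P := by
  refine (pow_succ_eqv P 0).trans fun F hF => ?_
  rw [E_merge' _ _ hF.1]
  refine P.E_congr fun y hy => ?_
  rw [pow_zero_eqv P _ (hF.tilt' hy), E_null, one_mul]

theorem Cone.x_pow_le (hc : ConeCert q α γ δ) {P : Ex.{u} q} (hP : Cone α γ P) (n : ℕ) :
    (P.pow n).x ≤ n * P.x := by
  induction n with
  | zero => rw [(pow_zero_eqv P).x, x_null]; simp
  | succ n ih =>
    have := hP.x_pow_succ hc n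
    push_cast
    linarith

theorem Cone.x_pow_le' (hc : ConeCert q α γ δ) {P : Ex.{u} q} (hP : Cone α γ P) {n : ℕ}
    (hn : 2 ≤ n) : (P.pow n).x ≤ n * P.x - 2 * δ * P.x ^ 3 := by
  induction n, hn using Nat.le_induction with
  | base =>
    rw [(pow_succ_eqv P 1).x]
    have h1 := (hP.pow hc 1).x_merge_le hc hP
    rw [(cone_pow_one P).x] at h1
    push_cast
    linarith
  | succ n _ ih =>
    have := hP.x_pow_succ hc n
    push_cast
    linarith

theorem cone_tendsto {x : ℕ → ℝ} (hx : ∀ n, 0 ≤ x n) {d l κ : ℝ} (hl : 0 ≤ l) (hκ : 0 < κ)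
    (hdl : d * l ≤ 1) (h : ∀ n, x (n + 1) ≤ d * (l * x n) - κ * (l * x n) ^ 3) :
    Filter.Tendsto x Filter.atTop (nhds 0) := by
  rcases hl.eq_or_lt with rfl | hl
  · rw [← Filter.tendsto_add_atTop_iff_nat 1]
    have : (fun n => x (n + 1)) = fun _ => 0 := by
      funext n
      exact le_antisymm (by simpa using h n) (hx _)
    rw [this]
    exact tendsto_const_nhds
  have h1 : ∀ n, x (n + 1) ≤ x n - κ * (l * x n) ^ 3 := fun n => by
    have := mul_le_mul_of_nonneg_right hdl (hx n)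
    have := h n
    linarith
  have hanti : Antitone x := antitone_nat_of_succ_le fun n => by
    have := h1 n
    have := mul_nonneg hκ.le (pow_nonneg (mul_nonneg hl.le (hx n)) 3)
    linarith
  have hlim := tendsto_atTop_ciInf hanti ⟨0, by rintro _ ⟨n, rfl⟩; exact hx n⟩
  set a := ⨅ n, x n
  have ha : 0 ≤ a := ge_of_tendsto' hlim hx
  have h2 : a ≤ a - κ * (l * a) ^ 3 :=
    le_of_tendsto_of_tendsto' ((Filter.tendsto_add_atTop_iff_nat 1).2 hlim)
      (hlim.sub (((hlim.const_mul l).pow 3).const_mul κ)) h1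
  have h3 : a = 0 := by
    by_contra hne
    have := mul_pos hκ (pow_pos (mul_pos hl (lt_of_le_of_ne ha (Ne.symm hne))) 3)
    linarith
  rwa [h3] at hlim

theorem cone_chanOK (hc : ConeCert q α γ δ) {lam : ℝ} (h0 : 0 ≤ lam) (h1 : lam ≤ 1) :
    ChanOK q lam :=
  ⟨by have := hc.two_le; omega, h1,
    add_nonneg h0 (div_nonneg (sub_nonneg.2 h1) (Nat.cast_nonneg _))⟩

theorem Cone.x_pois_le (hc : ConeCert q α γ δ) {P : Ex.{u} q} (hP : Cone α γ P) {d : ℝ}
    (hd : 0 ≤ d) : (P.pois d hd).x ≤ d * P.x - pw d 2 * (2 * δ) * P.x ^ 3 := by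
  have h1 := hasSum_pois P hd good_Xh
  have h2 := ((hasSum_pw_mul d).mul_right P.x).sub
    (hasSum_ite_eq 2 (pw d 2 * (2 * δ) * P.x ^ 3))
  refine hasSum_le (fun n => ?_) h1 h2
  split_ifs with hn
  · subst hn
    have := mul_le_mul_of_nonneg_left (hP.x_pow_le' hc le_rfl) (pw_nonneg hd 2)
    unfold Ex.x at *
    linarith
  · have := mul_le_mul_of_nonneg_left (hP.x_pow_le hc n) (pw_nonneg hd n)
    unfold Ex.x at *
    linarith

/-- non-reconstruction on the regular tree, ferromagnetic channel -/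
theorem ferro_reg (hc : ConeCert q α γ δ) {b : ℕ} (hb : 2 ≤ b) {lam : ℝ} (h0 : 0 ≤ lam)
    (h1 : lam ≤ 1) (hcrit : (b : ℝ) * lam ^ 2 ≤ 1) :
    Filter.Tendsto (advantage q b lam) Filter.atTop (nhds 0) := by
  have hl := cone_chanOK hc h0 h1
  have hcone : ∀ n, Cone α γ (regEx b lam hl n) := by
    intro n
    induction n with
    | zero => exact cone_full hc
    | succ n ih => exact (ih.chan hc h0 hl).pow hc b
  have : advantage q b lam = fun n => (regEx b lam hl n).E TVh :=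
    funext fun n => advantage_eq b lam hl n
  rw [this]
  refine tendsto_TV hl.1 _ (cone_tendsto (fun n => Ex.x_nonneg _) (sq_nonneg lam)
    (mul_pos two_pos hc.δ_pos) hcrit fun n => ?_)
  have h2 := ((hcone n).chan hc h0 hl).x_pow_le' hc hb
  rwa [x_chan] at h2

/-- non-reconstruction on the Poisson tree, ferromagnetic channel -/
theorem ferro_gw (hc : ConeCert q α γ δ) {d : ℝ} (hd : 0 < d) {lam : ℝ} (h0 : 0 ≤ lam)
    (h1 : lam ≤ 1) (hcrit : d * lam ^ 2 ≤ 1) :
    Filter.Tendsto (gwAdvantage q lam d) Filter.atTop (nhds 0) := by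
  have hl := cone_chanOK hc h0 h1
  have hcone : ∀ n, Cone α γ (gwEx lam d hl hd.le n) := by
    intro n
    induction n with
    | zero => exact cone_full hc
    | succ n ih => exact (ih.chan hc h0 hl).pois hc hd.le
  have : gwAdvantage q lam d = fun n => (gwEx lam d hl hd.le n).E TVh :=
    funext fun n => gwAdvantage_eq lam d hl hd.le n
  rw [this]
  have hpw : 0 < pw d 2 := by unfold pw; positivity
  refine tendsto_TV hl.1 _ (cone_tendsto (fun n => Ex.x_nonneg _) (sq_nonneg lam)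
    (mul_pos hpw (mul_pos two_pos hc.δ_pos)) hcrit fun n => ?_)
  have h2 := ((hcone n).chan hc h0 hl).x_pois_le hc hd.le
  rwa [x_chan] at h2

end Crest.Agent.R163
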