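import Mathlib
import Crest.Prelude.Def_Broadcast

/-!
Row 163 (broadcasting on trees): basic definitions.

An experiment is a family of nonnegative likelihood vectors `p ω : Fin q → ℝ` with
`∑ ω, p ω i = 1` for every `i`.  All information is read off through `P.E F = ∑' ω, F (p ω)`
for `F` positively homogeneous of degree one with linear growth (`Good F`).
-/

set_option autoImplicit false

namespace Crest.Agent.R163

open Crest.ProbabilityR.Broadcast

universe u v

abbrev Vec (q : ℕ) := Fin q → ℝ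

variable {q : ℕ}

/-- nonnegative vectors -/
def NN (x : Vec q) : Prop := ∀ i, 0 ≤ x i

structure Ex (q : ℕ) where
  Ω : Type u
  p : Ω → Vec q
  nonneg : ∀ ω, NN (p ω)
  sum_one : ∀ i, HasSum (fun ω => p ω i) 1

noncomputable def Ex.E (P : Ex.{u} q) (F : Vec q → ℝ) : ℝ := ∑' ω, F (P.p ω)

/-- linear growth on the nonnegative orthant -/
def Lin (F : Vec q → ℝ) : Prop := ∃ C : ℝ, ∀ x, NN x → |F x| ≤ C * ∑ i, x i

/-- positive homogeneity on the nonnegative orthant -/
def Hom (F : Vec q → ℝ) : Prop := ∀ (t : ℝ) (x : Vec q), 0 ≤ t → NN x → F (t • x) = t * F x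

def Good (F : Vec q → ℝ) : Prop := Lin F ∧ Hom F

/-- two experiments with the same functional -/
def Eqv (P : Ex.{u} q) (Q : Ex.{v} q) : Prop := ∀ F, Good F → P.E F = Q.E F

/-- invariance under relabelling the spins -/
def Sym (P : Ex.{u} q) : Prop :=
  ∀ (σ : Equiv.Perm (Fin q)) (F : Vec q → ℝ), Good F → P.E (fun x => F (x ∘ σ)) = P.E F

/-- mean of the coordinates -/
noncomputable def sm (x : Vec q) : ℝ := (∑ i, x i) / q

/-- `k`-th central moment of the coordinates -/
noncomputable def cm (k : ℕ) (x : Vec q) : ℝ := (∑ i, (x i - sm x) ^ k) / q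

noncomputable def Xh (x : Vec q) : ℝ := cm 2 x / sm x
noncomputable def Yh (x : Vec q) : ℝ := cm 3 x / sm x ^ 2
noncomputable def XXh (x : Vec q) : ℝ := cm 2 x ^ 2 / sm x ^ 3
noncomputable def XYh (x : Vec q) : ℝ := cm 2 x * cm 3 x / sm x ^ 4
noncomputable def Wh (α γ : ℝ) (x : Vec q) : ℝ := 2 * Yh x - α * XXh x + γ * XYh x
noncomputable def TVh (x : Vec q) : ℝ := (1 / (2 * q)) * ∑ i, |x i - (1 / q) * ∑ j, x j|

/-- chi-square information -/
noncomputable def Ex.x (P : Ex.{u} q) : ℝ := P.E Xh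
/-- third moment -/
noncomputable def Ex.y (P : Ex.{u} q) : ℝ := P.E Yh

/-- the channel acting on likelihood vectors -/
noncomputable def Kv (lam : ℝ) (x : Vec q) : Vec q := fun i => ∑ j, channel q lam i j * x j

/-- the channel has nonnegative entries (and `q > 0`) -/
def ChanOK (q : ℕ) (lam : ℝ) : Prop := 0 < q ∧ lam ≤ 1 ∧ 0 ≤ lam + (1 - lam) / q

/-- symmetrisation of `F` at the point `a` -/
noncomputable def symv (F : Vec q → ℝ) (a : Vec q) : ℝ :=
  (∑ σ : Equiv.Perm (Fin q), F (a ∘ σ)) / (q.factorial : ℝ)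

/-- less-noisy test functions `(h·x)² / (ν·x)` with `|h| ≤ ν` -/
def Test (h ν : Vec q) : Prop := ∀ i, |h i| ≤ ν i

noncomputable def Ft (h ν : Vec q) (x : Vec q) : ℝ := (∑ i, h i * x i) ^ 2 / ∑ i, ν i * x i

/-- less-noisy order -/
def Ln (P : Ex.{u} q) (Q : Ex.{v} q) : Prop :=
  ∀ h ν : Vec q, Test h ν → P.E (Ft h ν) ≤ Q.E (Ft h ν)

/-- Poisson weights -/
noncomputable def pw (d : ℝ) (n : ℕ) : ℝ := Real.exp (-d) * d ^ n / n.factorial

/-- one merging step with the symmetrised finite mixture `∑ w i • δ (a i)` -/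
noncomputable def opMix {ι : Type} [Fintype ι] (w : ι → ℝ) (a : ι → Vec q) (G : Vec q → ℝ) :
    Vec q → ℝ :=
  fun x => ∑ i, w i * symv (fun y => G (x * y)) (a i)

/-- admissible data for a symmetrised finite mixture -/
def MixOK {ι : Type} [Fintype ι] (w : ι → ℝ) (a : ι → Vec q) : Prop :=
  0 < q ∧ (∀ i, 0 ≤ w i) ∧ (∀ i, NN (a i)) ∧ ∑ i, w i * sm (a i) = 1

/-- the vector `q • e_j` -/
noncomputable def vtx (j : Fin q) : Vec q := fun i => if j = i then (q : ℝ) else 0

end Crest.Agent.R163
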