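import Crest.Agent.R163.Defs

/-! Row 163: constructions of experiments and their basic calculus. -/

set_option autoImplicit false

namespace Crest.Agent.R163

open Crest.ProbabilityR.Broadcast

universe u v w

variable {q : ℕ}

/-! ### helpers -/

theorem NN.sum_nonneg {x : Vec q} (hx : NN x) : 0 ≤ ∑ i, x i :=
  Finset.sum_nonneg fun i _ => hx i

theorem NN.le_sum {x : Vec q} (hx : NN x) (i : Fin q) : x i ≤ ∑ j, x j :=
  Finset.single_le_sum (fun j _ => hx j) (Finset.mem_univ i)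

theorem NN.smul {x : Vec q} (hx : NN x) {t : ℝ} (ht : 0 ≤ t) : NN (t • x) :=
  fun i => mul_nonneg ht (hx i)

theorem NN.mul {x y : Vec q} (hx : NN x) (hy : NN y) : NN (x * y) :=
  fun i => mul_nonneg (hx i) (hy i)

theorem NN.perm {x : Vec q} (hx : NN x) (σ : Equiv.Perm (Fin q)) : NN (x ∘ σ) :=
  fun i => hx (σ i)

theorem NN.sm_nonneg {x : Vec q} (hx : NN x) : 0 ≤ sm x :=
  div_nonneg hx.sum_nonneg (Nat.cast_nonneg _)

theorem NN.sm_le_sum {x : Vec q} (hx : NN x) : sm x ≤ ∑ i, x i := by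
  rcases Nat.eq_zero_or_pos q with h | h
  · subst h
    simp [sm]
  · exact div_le_self hx.sum_nonneg (by exact_mod_cast h)

theorem NN.sum_mul_le {x y : Vec q} (hx : NN x) (hy : NN y) :
    ∑ i, (x * y) i ≤ (∑ i, x i) * ∑ i, y i := by
  rw [Finset.mul_sum]
  exact Finset.sum_le_sum fun i _ => mul_le_mul_of_nonneg_right (hx.le_sum i) (hy i)

theorem sum_perm (x : Vec q) (σ : Equiv.Perm (Fin q)) : ∑ i, (x ∘ σ) i = ∑ i, x i :=
  Equiv.sum_comp σ x

theorem sm_perm (x : Vec q) (σ : Equiv.Perm (Fin q)) : sm (x ∘ σ) = sm x := by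
  unfold sm
  rw [sum_perm]

theorem sm_smul (t : ℝ) (x : Vec q) : sm (t • x) = t * sm x := by
  unfold sm
  simp only [Pi.smul_apply, smul_eq_mul]
  rw [← Finset.mul_sum, mul_div_assoc]

theorem cm_smul (k : ℕ) (t : ℝ) (x : Vec q) : cm k (t • x) = t ^ k * cm k x := by
  unfold cm
  simp only [sm_smul, Pi.smul_apply, smul_eq_mul, ← mul_sub, mul_pow]
  rw [← Finset.mul_sum, mul_div_assoc]

theorem Lin.exists_nonneg {F : Vec q → ℝ} (hF : Lin F) :
    ∃ C : ℝ, 0 ≤ C ∧ ∀ x, NN x → |F x| ≤ C * ∑ i, x i := by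
  obtain ⟨C, hC⟩ := hF
  exact ⟨|C|, abs_nonneg C, fun x hx =>
    (hC x hx).trans (mul_le_mul_of_nonneg_right (le_abs_self C) hx.sum_nonneg)⟩

theorem Lin.add {F G : Vec q → ℝ} (hF : Lin F) (hG : Lin G) : Lin (fun x => F x + G x) := by
  obtain ⟨C, hC⟩ := hF
  obtain ⟨D, hD⟩ := hG
  refine ⟨C + D, fun x hx => (abs_add_le _ _).trans ?_⟩
  rw [add_mul]
  exact add_le_add (hC x hx) (hD x hx)

theorem Lin.const_mul {F : Vec q → ℝ} (c : ℝ) (hF : Lin F) : Lin (fun x => c * F x) := by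
  obtain ⟨C, hC⟩ := hF
  refine ⟨|c| * C, fun x hx => ?_⟩
  rw [abs_mul, mul_assoc]
  exact mul_le_mul_of_nonneg_left (hC x hx) (abs_nonneg c)

theorem Lin.tilt {F : Vec q → ℝ} (hF : Lin F) {a : Vec q} (ha : NN a) :
    Lin (fun x => F (a * x)) := by
  obtain ⟨C, hC0, hC⟩ := hF.exists_nonneg
  refine ⟨C * ∑ i, a i, fun x hx => (hC _ (ha.mul hx)).trans ?_⟩
  rw [mul_assoc]
  exact mul_le_mul_of_nonneg_left (ha.sum_mul_le hx) hC0

theorem Good.congr {F G : Vec q → ℝ} (hF : Good F) (h : ∀ x, NN x → G x = F x) : Good G := by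
  obtain ⟨⟨C, hC⟩, hH⟩ := hF
  refine ⟨⟨C, fun x hx => by rw [h x hx]; exact hC x hx⟩, fun t x ht hx => ?_⟩
  rw [h _ (hx.smul ht), h x hx, hH t x ht hx]

theorem abs_cm_le (k : ℕ) {x : Vec q} (hx : NN x) : |cm k x| ≤ (∑ i, x i) ^ k := by
  rcases Nat.eq_zero_or_pos q with h | h
  · subst h
    simp only [cm, Nat.cast_zero, div_zero, abs_zero]
    exact pow_nonneg hx.sum_nonneg k
  have hq : (0 : ℝ) < q := by exact_mod_cast h
  unfold cm
  rw [abs_div, abs_of_pos hq, div_le_iff₀ hq]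
  refine (Finset.abs_sum_le_sum_abs _ _).trans ?_
  have : ∀ i ∈ (Finset.univ : Finset (Fin q)), |(x i - sm x) ^ k| ≤ (∑ i, x i) ^ k := by
    intro i _
    rw [abs_pow]
    refine pow_le_pow_left₀ (abs_nonneg _) (abs_le.2 ⟨?_, ?_⟩) k
    · linarith [hx i, hx.sm_le_sum]
    · linarith [hx.le_sum i, hx.sm_nonneg]
  refine (Finset.sum_le_card_nsmul _ _ _ this).trans (le_of_eq ?_)
  simp [mul_comm]

theorem good_ratio (m : ℕ) {A : Vec q → ℝ} (h1 : ∀ x, NN x → |A x| ≤ (∑ i, x i) ^ (m + 1))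
    (h2 : ∀ (t : ℝ) (x : Vec q), A (t • x) = t ^ (m + 1) * A x) :
    Good (fun x : Vec q => A x / sm x ^ m) := by
  refine ⟨⟨(q : ℝ) ^ m, fun x hx => ?_⟩, fun t x _ _ => ?_⟩
  · rcases hx.sum_nonneg.eq_or_lt with h0 | h0
    · have := h1 x hx
      rw [← h0] at this ⊢
      have hA : A x = 0 := by simpa using this
      simp [hA]
    · have hq : (0 : ℝ) < q := by
        rcases Nat.eq_zero_or_pos q with h | h
        · subst h
          simp at h0
        · exact_mod_cast h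
      have hs : 0 < sm x := div_pos h0 hq
      show |A x / sm x ^ m| ≤ _
      rw [abs_div, abs_of_pos (pow_pos hs m), div_le_iff₀ (pow_pos hs m)]
      refine (h1 x hx).trans (le_of_eq ?_)
      unfold sm
      rw [div_pow]
      field_simp
      ring
  · show A (t • x) / sm (t • x) ^ m = t * (A x / sm x ^ m)
    rw [h2, sm_smul, mul_pow]
    rcases eq_or_ne t 0 with h | h
    · simp [h]
    · rw [pow_succ, mul_assoc, mul_div_mul_left _ _ (pow_ne_zero m h), mul_div_assoc]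

theorem sum_perm_apply (hq : 0 < q) (a : Vec q) (j : Fin q) :
    ∑ σ : Equiv.Perm (Fin q), a (σ j) = (q.factorial : ℝ) * sm a := by
  have hq' : (0 : ℝ) < q := by exact_mod_cast hq
  have h1 : ∀ j' : Fin q, ∑ σ : Equiv.Perm (Fin q), a (σ j') =
      ∑ σ : Equiv.Perm (Fin q), a (σ j) := by
    intro j'
    rw [← Equiv.sum_comp (Equiv.mulRight (Equiv.swap j j'))]
    simp
  have h2 : ∑ j' : Fin q, ∑ σ : Equiv.Perm (Fin q), a (σ j') = (q.factorial : ℝ) * ∑ i, a i := by
    rw [Finset.sum_comm]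
    simp only [Equiv.sum_comp]
    simp [Fintype.card_perm]
  simp only [h1, Finset.sum_const, Finset.card_univ, Fintype.card_fin, nsmul_eq_mul] at h2
  unfold sm
  field_simp
  linarith

theorem hasSum_prod_one {Ω : Type u} {f : Ω → ℝ} (h0 : ∀ ω, 0 ≤ f ω) (h1 : HasSum f 1) (n : ℕ) :
    HasSum (fun ω : Fin n → Ω => ∏ m, f (ω m)) 1 := by
  induction n with
  | zero => simp
  | succ n ih =>
    have h := h1.mul ih (h1.summable.mul_of_nonneg ih.summable h0
      fun ω => Finset.prod_nonneg fun m _ => h0 _)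
    rw [mul_one] at h
    rw [← (Fin.consEquiv fun _ : Fin (n + 1) => Ω).hasSum_iff]
    refine h.congr_fun fun x => ?_
    simp [Fin.prod_univ_succ, Fin.consEquiv]

theorem pw_nonneg' {d : ℝ} (hd : 0 ≤ d) (n : ℕ) : 0 ≤ pw d n := by
  unfold pw
  positivity

theorem hasSum_pw' (d z : ℝ) : HasSum (fun n => pw d n * z ^ n) (Real.exp (-(d * (1 - z)))) := by
  have h := (NormedSpace.expSeries_div_hasSum_exp (d * z)).mul_left (Real.exp (-d))
  rw [← Real.exp_eq_exp_ℝ, ← Real.exp_add] at h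
  have e : -d + d * z = -(d * (1 - z)) := by ring
  rw [e] at h
  refine h.congr_fun fun n => ?_
  unfold pw
  rw [mul_pow]
  ring

theorem map_prod_ofFn {Ω : Type u} (f : Ω → ℝ) {n : ℕ} (ω : Fin n → Ω) :
    ((List.ofFn ω).map f).prod = ∏ m, f (ω m) := by
  rw [List.map_ofFn, List.prod_ofFn]
  rfl

theorem hasSum_list_one {Ω : Type u} {f : Ω → ℝ} (h0 : ∀ ω, 0 ≤ f ω) (h1 : HasSum f 1) {d : ℝ}
    (hd : 0 ≤ d) : HasSum (fun o : List Ω => pw d o.length * (o.map f).prod) 1 := by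
  rw [← (List.equivSigmaTuple (α := Ω)).symm.hasSum_iff]
  have e : ((fun o : List Ω => pw d o.length * (o.map f).prod) ∘
      (List.equivSigmaTuple (α := Ω)).symm) =
      fun x : (Σ n, Fin n → Ω) => pw d x.1 * ∏ m, f (x.2 m) := by
    funext x
    simp only [Function.comp, List.equivSigmaTuple_symm_apply, List.length_ofFn, map_prod_ofFn]
  rw [e]
  have hf : ∀ n, HasSum (fun ω : Fin n → Ω => pw d n * ∏ m, f (ω m)) (pw d n) := fun n => by
    simpa using (hasSum_prod_one h0 h1 n).mul_left (pw d n)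
  have hp : HasSum (pw d) 1 := by simpa using hasSum_pw' d 1
  refine HasSum.sigma_of_hasSum hp hf ?_
  rw [summable_sigma_of_nonneg fun x =>
    mul_nonneg (pw_nonneg' hd _) (Finset.prod_nonneg fun m _ => h0 _)]
  refine ⟨fun n => (hf n).summable, ?_⟩
  simp only [(hf _).tsum_eq]
  exact hp.summable

/-! ### good functions -/

theorem Good.add {F G : Vec q → ℝ} (hF : Good F) (hG : Good G) :
    Good (fun x => F x + G x) := by
  refine ⟨hF.1.add hG.1, fun t x ht hx => ?_⟩
  show F (t • x) + G (t • x) = t * (F x + G x)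
  rw [hF.2 t x ht hx, hG.2 t x ht hx, mul_add]

theorem Good.sub {F G : Vec q → ℝ} (hF : Good F) (hG : Good G) :
    Good (fun x => F x - G x) := by
  refine ⟨(hF.1.add (hG.1.const_mul (-1))).imp fun C hC x hx => ?_, fun t x ht hx => ?_⟩
  · simpa [sub_eq_add_neg] using hC x hx
  · show F (t • x) - G (t • x) = t * (F x - G x)
    rw [hF.2 t x ht hx, hG.2 t x ht hx, mul_sub]

theorem Good.const_mul {F : Vec q → ℝ} (c : ℝ) (hF : Good F) : Good (fun x => c * F x) := by
  refine ⟨hF.1.const_mul c, fun t x ht hx => ?_⟩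
  show c * F (t • x) = t * (c * F x)
  rw [hF.2 t x ht hx, mul_left_comm]

theorem Good.sum {ι : Type*} (s : Finset ι) {F : ι → Vec q → ℝ} (hF : ∀ i ∈ s, Good (F i)) :
    Good (fun x => ∑ i ∈ s, F i x) := by
  classical
  induction s using Finset.induction_on with
  | empty => exact ⟨⟨0, fun x _ => by simp⟩, fun t x _ _ => by simp⟩
  | insert a s ha ih =>
    simp only [Finset.sum_insert ha]
    exact (hF a (Finset.mem_insert_self a s)).add
      (ih fun i hi => hF i (Finset.mem_insert_of_mem hi))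

theorem Good.perm {F : Vec q → ℝ} (hF : Good F) (σ : Equiv.Perm (Fin q)) :
    Good (fun x => F (x ∘ σ)) := by
  obtain ⟨⟨C, hC⟩, hH⟩ := hF
  refine ⟨⟨C, fun x hx => ?_⟩, fun t x ht hx => hH t (x ∘ σ) ht (hx.perm σ)⟩
  rw [← sum_perm x σ]
  exact hC _ (hx.perm σ)

theorem Good.tilt {F : Vec q → ℝ} (hF : Good F) {a : Vec q} (ha : NN a) :
    Good (fun x => F (a * x)) := by
  refine ⟨hF.1.tilt ha, fun t x ht hx => ?_⟩
  show F (a * t • x) = t * F (a * x)
  rw [mul_smul_comm, hF.2 t _ ht (ha.mul hx)]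

theorem Good.tilt' {F : Vec q → ℝ} (hF : Good F) {a : Vec q} (ha : NN a) :
    Good (fun x => F (x * a)) := by
  simpa only [mul_comm a] using hF.tilt ha

theorem Kv_nonneg {lam : ℝ} (h : ChanOK q lam) {x : Vec q} (hx : NN x) : NN (Kv lam x) := by
  intro i
  refine Finset.sum_nonneg fun j _ => mul_nonneg ?_ (hx j)
  unfold channel
  split_ifs
  · exact h.2.2
  · have := h.2.1
    rw [zero_add]
    exact div_nonneg (by linarith) (Nat.cast_nonneg _)

theorem Kv_apply (lam : ℝ) (x : Vec q) (i : Fin q) :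
    Kv lam x i = lam * x i + (1 - lam) * sm x := by
  unfold Kv channel sm
  simp only [add_mul, Finset.sum_add_distrib, ite_mul, zero_mul, Finset.sum_ite_eq,
    Finset.mem_univ, if_true]
  rw [← Finset.mul_sum]
  ring

theorem sm_Kv (hq : 0 < q) (lam : ℝ) (x : Vec q) : sm (Kv lam x) = sm x := by
  have hq' : (q : ℝ) ≠ 0 := by exact_mod_cast hq.ne'
  have e : ∑ i, Kv lam x i = lam * ∑ i, x i + q * ((1 - lam) * sm x) := by
    simp only [Kv_apply, Finset.sum_add_distrib, ← Finset.mul_sum, Finset.sum_const,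
      Finset.card_univ, Fintype.card_fin, nsmul_eq_mul]
    ring
  rw [sm, e, sm]
  field_simp
  ring

theorem Good.chan {F : Vec q → ℝ} (hF : Good F) {lam : ℝ} (h : ChanOK q lam) :
    Good (fun x => F (Kv lam x)) := by
  obtain ⟨⟨C, hC⟩, hH⟩ := hF
  have hq' : (q : ℝ) ≠ 0 := by exact_mod_cast h.1.ne'
  refine ⟨⟨C, fun x hx => ?_⟩, fun t x ht hx => ?_⟩
  · have e := sm_Kv h.1 lam x
    unfold sm at e
    rw [div_left_inj' hq'] at e
    rw [← e]
    exact hC _ (Kv_nonneg h hx)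
  · have e : Kv lam (t • x) = t • Kv lam x := by
      funext i
      simp only [Kv_apply, sm_smul, Pi.smul_apply, smul_eq_mul]
      ring
    show F (Kv lam (t • x)) = t * F (Kv lam x)
    rw [e, hH t _ ht (Kv_nonneg h hx)]

theorem Good.symv {F : Vec q → ℝ} (hF : Good F) : Good (symv F) := by
  refine ((Good.sum Finset.univ fun σ _ => hF.perm σ).const_mul
    ((q.factorial : ℝ)⁻¹)).congr fun x _ => ?_
  unfold R163.symv
  rw [div_eq_inv_mul]

theorem Good.opMix {ι : Type} [Fintype ι] {w : ι → ℝ} {a : ι → Vec q} (h : MixOK w a)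
    {G : Vec q → ℝ} (hG : Good G) : Good (opMix w a G) := by
  refine Good.sum Finset.univ fun i _ => Good.const_mul _ ?_
  refine ((Good.sum Finset.univ fun σ _ => hG.tilt' ((h.2.2.1 i).perm σ)).const_mul
    ((q.factorial : ℝ)⁻¹)).congr fun x _ => ?_
  unfold R163.symv
  rw [div_eq_inv_mul]

theorem good_coord (i : Fin q) : Good (fun x : Vec q => x i) := by
  refine ⟨⟨1, fun x hx => ?_⟩, fun t x _ _ => rfl⟩
  rw [abs_of_nonneg (hx i), one_mul]
  exact hx.le_sum i

theorem good_sm : Good (sm : Vec q → ℝ) := by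
  refine ⟨⟨1, fun x hx => ?_⟩, fun t x _ _ => sm_smul t x⟩
  rw [abs_of_nonneg hx.sm_nonneg, one_mul]
  exact hx.sm_le_sum

theorem good_Xh : Good (Xh : Vec q → ℝ) := by
  refine (good_ratio 1 (A := cm 2) (fun x hx => abs_cm_le 2 hx) (cm_smul 2)).congr fun x _ => ?_
  simp [Xh]

theorem good_Yh : Good (Yh : Vec q → ℝ) := by
  exact good_ratio 2 (A := cm 3) (fun x hx => abs_cm_le 3 hx) (cm_smul 3)

theorem good_XXh : Good (XXh : Vec q → ℝ) := by
  refine good_ratio 3 (A := fun x => cm 2 x ^ 2) (fun x hx => ?_) fun t x => ?_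
  · rw [abs_pow, show 3 + 1 = 2 * 2 from rfl, pow_mul]
    exact pow_le_pow_left₀ (abs_nonneg _) (abs_cm_le 2 hx) 2
  · rw [cm_smul]
    ring

theorem good_XYh : Good (XYh : Vec q → ℝ) := by
  refine good_ratio 4 (A := fun x => cm 2 x * cm 3 x) (fun x hx => ?_) fun t x => ?_
  · rw [abs_mul, show 4 + 1 = 2 + 3 from rfl, pow_add]
    exact mul_le_mul (abs_cm_le 2 hx) (abs_cm_le 3 hx) (abs_nonneg _)
      (pow_nonneg hx.sum_nonneg 2)
  · rw [cm_smul, cm_smul]
    ring

theorem good_Wh (α γ : ℝ) : Good (Wh α γ : Vec q → ℝ) := by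
  exact ((good_Yh.const_mul 2).sub (good_XXh.const_mul α)).add (good_XYh.const_mul γ)

theorem good_TVh : Good (TVh : Vec q → ℝ) := by
  have h : ∀ i : Fin q, Good (fun x : Vec q => |x i - sm x|) := by
    intro i
    obtain ⟨⟨C, hC⟩, hH⟩ := (good_coord i).sub good_sm
    refine ⟨⟨C, fun x hx => by rw [abs_abs]; exact hC x hx⟩, fun t x ht hx => ?_⟩
    have := hH t x ht hx
    simp only at this ⊢
    rw [this, abs_mul, abs_of_nonneg ht]
  refine ((Good.sum Finset.univ fun i _ => h i).const_mul (1 / (2 * q))).congr fun x _ => ?_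
  unfold TVh sm
  simp only [div_eq_inv_mul, mul_one]

theorem good_Ft {h ν : Vec q} (ht : Test h ν) : Good (Ft h ν) := by
  have hν : NN ν := fun i => (abs_nonneg _).trans (ht i)
  refine ⟨⟨∑ i, ν i, fun x hx => ?_⟩, fun t x _ _ => ?_⟩
  · have h0 : 0 ≤ ∑ i, ν i * x i := (hν.mul hx).sum_nonneg
    have h1 : |∑ i, h i * x i| ≤ ∑ i, ν i * x i := by
      refine (Finset.abs_sum_le_sum_abs _ _).trans (Finset.sum_le_sum fun i _ => ?_)
      rw [abs_mul, abs_of_nonneg (hx i)]
      exact mul_le_mul_of_nonneg_right (ht i) (hx i)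
    refine le_trans ?_ (hν.sum_mul_le hx)
    unfold Ft
    rw [abs_of_nonneg (div_nonneg (sq_nonneg _) h0)]
    refine div_le_of_le_mul₀ h0 h0 ?_
    rw [← sq_abs]
    exact (pow_le_pow_left₀ (abs_nonneg _) h1 2).trans (le_of_eq (sq _))
  · unfold Ft
    have e : ∀ g : Vec q, ∑ i, g i * (t • x) i = t * ∑ i, g i * x i := fun g => by
      rw [Finset.mul_sum]
      exact Finset.sum_congr rfl fun i _ => by simp only [Pi.smul_apply, smul_eq_mul]; ring
    rw [e, e]
    rcases eq_or_ne t 0 with h | h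
    · simp [h]
    · rw [mul_pow, sq t, mul_assoc, mul_div_mul_left _ _ h, mul_div_assoc]

/-- homogeneous extension of a function that is bounded on normalised vectors -/
theorem good_homExt {A : Vec q → ℝ} (C : ℝ) (hA : ∀ x, NN x → sm x = 1 → |A x| ≤ C) :
    Good (fun x : Vec q => sm x * A ((sm x)⁻¹ • x)) := by
  refine ⟨⟨|C|, fun x hx => ?_⟩, fun t x ht hx => ?_⟩
  · rcases hx.sm_nonneg.eq_or_lt with h0 | h0
    · simp only [← h0, zero_mul, abs_zero]
      exact mul_nonneg (abs_nonneg C) hx.sum_nonneg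
    · have h1 := hA _ (hx.smul (inv_nonneg.2 h0.le)) (by rw [sm_smul, inv_mul_cancel₀ h0.ne'])
      show |sm x * A ((sm x)⁻¹ • x)| ≤ _
      rw [abs_mul, abs_of_pos h0, mul_comm]
      exact mul_le_mul (h1.trans (le_abs_self C)) hx.sm_le_sum h0.le (abs_nonneg C)
  · show sm (t • x) * A ((sm (t • x))⁻¹ • t • x) = t * (sm x * A ((sm x)⁻¹ • x))
    rw [sm_smul]
    rcases eq_or_ne t 0 with h | h
    · simp [h]
    · rw [smul_smul, mul_inv, mul_right_comm t⁻¹, inv_mul_cancel₀ h, one_mul, mul_assoc]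

/-! ### expectation -/

theorem Ex.summable (P : Ex.{u} q) {F : Vec q → ℝ} (hF : Lin F) :
    Summable (fun ω => F (P.p ω)) := by
  obtain ⟨C, hC⟩ := hF
  refine Summable.of_norm_bounded (g := fun ω => C * ∑ i, P.p ω i) ?_ fun ω => hC _ (P.nonneg ω)
  exact (summable_sum fun i _ => (P.sum_one i).summable).mul_left C

theorem Ex.E_add (P : Ex.{u} q) {F G : Vec q → ℝ} (hF : Lin F) (hG : Lin G) :
    P.E (fun x => F x + G x) = P.E F + P.E G := by
  exact (P.summable hF).tsum_add (P.summable hG)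

theorem Ex.E_sub (P : Ex.{u} q) {F G : Vec q → ℝ} (hF : Lin F) (hG : Lin G) :
    P.E (fun x => F x - G x) = P.E F - P.E G := by
  exact (P.summable hF).tsum_sub (P.summable hG)

theorem Ex.E_const_mul (P : Ex.{u} q) (c : ℝ) (F : Vec q → ℝ) :
    P.E (fun x => c * F x) = c * P.E F := by
  exact tsum_mul_left

theorem Ex.E_sum (P : Ex.{u} q) {ι : Type*} (s : Finset ι) {F : ι → Vec q → ℝ}
    (hF : ∀ i ∈ s, Lin (F i)) : P.E (fun x => ∑ i ∈ s, F i x) = ∑ i ∈ s, P.E (F i) := by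
  exact Summable.tsum_finsetSum fun i hi => P.summable (hF i hi)

theorem Ex.E_mono (P : Ex.{u} q) {F G : Vec q → ℝ} (hF : Lin F) (hG : Lin G)
    (h : ∀ x, NN x → F x ≤ G x) : P.E F ≤ P.E G := by
  exact (P.summable hF).tsum_le_tsum (fun ω => h _ (P.nonneg ω)) (P.summable hG)

theorem Ex.E_congr (P : Ex.{u} q) {F G : Vec q → ℝ} (h : ∀ x, NN x → F x = G x) :
    P.E F = P.E G := by
  exact tsum_congr fun ω => h _ (P.nonneg ω)

theorem Ex.E_nonneg (P : Ex.{u} q) {F : Vec q → ℝ} (h : ∀ x, NN x → 0 ≤ F x) : 0 ≤ P.E F := by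
  exact tsum_nonneg fun ω => h _ (P.nonneg ω)

theorem Ex.E_coord (P : Ex.{u} q) (i : Fin q) : P.E (fun x => x i) = 1 := by
  exact (P.sum_one i).tsum_eq

theorem Ex.E_sm (P : Ex.{u} q) (hq : 0 < q) : P.E sm = 1 := by
  have hq' : (q : ℝ) ≠ 0 := by exact_mod_cast hq.ne'
  have h := ((hasSum_sum (s := Finset.univ) fun i _ => P.sum_one i).div_const (q : ℝ)).tsum_eq
  simp only [Finset.sum_const, Finset.card_univ, Fintype.card_fin, nsmul_eq_mul, mul_one,
    div_self hq'] at h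
  exact h

theorem Ex.abs_E_le (P : Ex.{u} q) {F : Vec q → ℝ} {C : ℝ}
    (hF : ∀ x, NN x → |F x| ≤ C * ∑ i, x i) : |P.E F| ≤ C * q := by
  have h := (hasSum_sum (s := Finset.univ) fun i _ => P.sum_one i).mul_left C
  simp only [Finset.sum_const, Finset.card_univ, Fintype.card_fin, nsmul_eq_mul, mul_one] at h
  exact tsum_of_norm_bounded (f := fun ω => F (P.p ω)) h fun ω => hF _ (P.nonneg ω)

theorem Sym.E_symv {P : Ex.{u} q} (hP : Sym P) {F : Vec q → ℝ} (hF : Good F) :
    P.E (symv F) = P.E F := by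
  have e : P.E (symv F) = P.E (fun x => (q.factorial : ℝ)⁻¹ *
      ∑ σ : Equiv.Perm (Fin q), F (x ∘ σ)) :=
    P.E_congr fun x _ => by unfold symv; rw [div_eq_inv_mul]
  rw [e, P.E_const_mul, P.E_sum _ fun σ _ => (hF.perm σ).1]
  simp only [hP _ F hF, Finset.sum_const, Finset.card_univ, Fintype.card_perm, Fintype.card_fin,
    nsmul_eq_mul]
  have : (q.factorial : ℝ) ≠ 0 := by exact_mod_cast q.factorial_ne_zero
  field_simp

/-! ### constructions -/

/-- no information -/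
def null (q : ℕ) : Ex.{u} q where
  Ω := PUnit
  p := fun _ => 1
  nonneg := fun _ _ => zero_le_one
  sum_one := fun _ => by simp

/-- two conditionally independent observations -/
noncomputable def Ex.merge (P Q : Ex.{u} q) : Ex.{u} q where
  Ω := P.Ω × Q.Ω
  p := fun ω => P.p ω.1 * Q.p ω.2
  nonneg := fun ω i => mul_nonneg (P.nonneg ω.1 i) (Q.nonneg ω.2 i)
  sum_one := fun i => by
    simpa using (P.sum_one i).mul (Q.sum_one i) ((P.sum_one i).summable.mul_of_nonneg
      (Q.sum_one i).summable (fun ω => P.nonneg ω i) fun ω => Q.nonneg ω i)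

/-- observation through the channel -/
noncomputable def Ex.chan (P : Ex.{u} q) (lam : ℝ) (h : ChanOK q lam) : Ex.{u} q where
  Ω := P.Ω
  p := fun ω => Kv lam (P.p ω)
  nonneg := fun ω => Kv_nonneg h (P.nonneg ω)
  sum_one := fun i => by
    simp only [Kv_apply]
    have h1 := ((P.sum_one i).mul_left lam).add
      (((P.summable good_sm.1).hasSum).mul_left (1 - lam))
    have h2 : ∑' ω, sm (P.p ω) = 1 := P.E_sm h.1
    rw [h2] at h1
    simpa using h1

/-- `n` conditionally independent copies -/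
noncomputable def Ex.pow (P : Ex.{u} q) (n : ℕ) : Ex.{u} q where
  Ω := Fin n → P.Ω
  p := fun ω i => ∏ m, P.p (ω m) i
  nonneg := fun ω i => Finset.prod_nonneg (fun m _ => P.nonneg (ω m) i)
  sum_one := fun i => by exact hasSum_prod_one (fun ω => P.nonneg ω i) (P.sum_one i) n

/-- a Poisson number of conditionally independent copies -/
noncomputable def Ex.pois (P : Ex.{u} q) (d : ℝ) (hd : 0 ≤ d) : Ex.{u} q where
  Ω := List P.Ω
  p := fun o i => pw d o.length * (o.map (fun o' => P.p o' i)).prod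
  nonneg := fun o i => by
    refine mul_nonneg (pw_nonneg' hd _) (List.prod_nonneg fun a ha => ?_)
    obtain ⟨o', _, rfl⟩ := List.mem_map.1 ha
    exact P.nonneg o' i
  sum_one := fun i => by exact hasSum_list_one (fun ω => P.nonneg ω i) (P.sum_one i) hd

/-- symmetrised finite mixture of point experiments -/
noncomputable def symMix {ι : Type} [Fintype ι] (w : ι → ℝ) (a : ι → Vec q) (h : MixOK w a) :
    Ex.{0} q where
  Ω := ι × Equiv.Perm (Fin q)
  p := fun ω => (w ω.1 / (q.factorial : ℝ)) • (a ω.1 ∘ ω.2)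
  nonneg := fun ω i => by exact mul_nonneg (div_nonneg (h.2.1 _) (Nat.cast_nonneg _)) (h.2.2.1 _ _)
  sum_one := fun i => by
    have h1 := hasSum_fintype (fun ω : ι × Equiv.Perm (Fin q) =>
      ((w ω.1 / (q.factorial : ℝ)) • (a ω.1 ∘ ω.2)) i)
    have : (q.factorial : ℝ) ≠ 0 := by exact_mod_cast q.factorial_ne_zero
    have e : ∑ ω : ι × Equiv.Perm (Fin q), ((w ω.1 / (q.factorial : ℝ)) • (a ω.1 ∘ ω.2)) i = 1 := by
      rw [← h.2.2.2, Fintype.sum_prod_type]
      refine Finset.sum_congr rfl fun j _ => ?_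
      simp only [Pi.smul_apply, smul_eq_mul, Function.comp]
      rw [← Finset.mul_sum, sum_perm_apply h.1]
      field_simp
    rwa [e] at h1

/-- the spin itself is observed -/
noncomputable def full (q : ℕ) : Ex.{0} q where
  Ω := Fin q
  p := fun j i => if j = i then 1 else 0
  nonneg := fun j i => by by_cases hji : j = i <;> simp [hji]
  sum_one := fun i => by exact hasSum_ite_eq i 1

theorem E_null (F : Vec q → ℝ) : (null.{u} q).E F = F 1 := by
  show ∑' _ : PUnit.{u + 1}, F 1 = F 1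
  simp

theorem E_full {F : Vec q → ℝ} (hF : Good F) :
    (full q).E F = (∑ j, F (vtx j)) / q := by
  show ∑' j : Fin q, F ((full q).p j) = _
  rw [tsum_fintype, Finset.sum_div]
  refine Finset.sum_congr rfl fun j _ => ?_
  have hq : (0 : ℝ) < q := by exact_mod_cast (Fin.pos j)
  have e : (full q).p j = (q : ℝ)⁻¹ • vtx j := by
    funext i
    simp only [full, vtx, Pi.smul_apply, smul_eq_mul]
    split_ifs
    · rw [inv_mul_cancel₀ hq.ne']
    · rw [mul_zero]
  have hv : NN (vtx j) := fun i => by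
    unfold vtx
    split_ifs
    · exact hq.le
    · exact le_rfl
  rw [e, hF.2 _ _ (inv_nonneg.2 hq.le) hv, div_eq_inv_mul]

theorem E_merge (P Q : Ex.{u} q) {F : Vec q → ℝ} (hF : Lin F) :
    (P.merge Q).E F = P.E (fun x => Q.E (fun y => F (x * y))) := by
  exact ((P.merge Q).summable hF).tsum_prod

theorem E_merge' (P Q : Ex.{u} q) {F : Vec q → ℝ} (hF : Lin F) :
    (P.merge Q).E F = Q.E (fun y => P.E (fun x => F (x * y))) := by
  rw [E_merge P Q hF]
  exact (Summable.tsum_comm (f := fun a b => F (P.p a * Q.p b)) ((P.merge Q).summable hF)).symm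

theorem Good.inner {F : Vec q → ℝ} (hF : Good F) (Q : Ex.{u} q) :
    Good (fun x => Q.E (fun y => F (x * y))) := by
  obtain ⟨C, hC0, hC⟩ := hF.1.exists_nonneg
  refine ⟨⟨C * q, fun x hx => ?_⟩, fun t x ht hx => ?_⟩
  · refine (Q.abs_E_le (C := C * ∑ i, x i) fun y hy => (hC _ (hx.mul hy)).trans ?_).trans
      (le_of_eq (by ring))
    rw [mul_assoc]
    exact mul_le_mul_of_nonneg_left (hx.sum_mul_le hy) hC0
  · show Q.E (fun y => F (t • x * y)) = t * Q.E (fun y => F (x * y))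
    rw [← Q.E_const_mul]
    exact Q.E_congr fun y hy => by rw [smul_mul_assoc, hF.2 t _ ht (hx.mul hy)]

theorem Good.inner' {F : Vec q → ℝ} (hF : Good F) (P : Ex.{u} q) :
    Good (fun y => P.E (fun x => F (x * y))) := by
  refine (hF.inner P).congr fun y _ => ?_
  simp only [mul_comm y]

theorem E_chan (P : Ex.{u} q) {lam : ℝ} (h : ChanOK q lam) (F : Vec q → ℝ) :
    (P.chan lam h).E F = P.E (fun x => F (Kv lam x)) := rfl

theorem pow_zero_eqv (P : Ex.{u} q) : Eqv (P.pow 0) (null.{u} q) := by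
  intro F _
  rw [E_null]
  show ∑' ω : Fin 0 → P.Ω, F ((P.pow 0).p ω) = _
  rw [tsum_fintype, Fintype.sum_unique]
  congr 1

theorem pow_succ_eqv (P : Ex.{u} q) (n : ℕ) : Eqv (P.pow (n + 1)) ((P.pow n).merge P) := by
  intro F _
  refine (((Equiv.prodComm _ _).trans (Fin.consEquiv fun _ : Fin (n + 1) => P.Ω)).tsum_eq
    (fun ω => F ((P.pow (n + 1)).p ω))).symm.trans (tsum_congr fun ω => ?_)
  congr 1
  funext i
  simp [Ex.pow, Ex.merge, Fin.prod_univ_succ, Fin.consEquiv, mul_comm]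

theorem pw_nonneg {d : ℝ} (hd : 0 ≤ d) (n : ℕ) : 0 ≤ pw d n := by
  exact pw_nonneg' hd n

theorem hasSum_pw (d z : ℝ) : HasSum (fun n => pw d n * z ^ n) (Real.exp (-(d * (1 - z)))) := by
  exact hasSum_pw' d z

theorem hasSum_pw_mul (d : ℝ) : HasSum (fun n : ℕ => pw d n * n) d := by
  have hp : HasSum (pw d) 1 := by simpa using hasSum_pw' d 1
  rw [← hasSum_nat_add_iff' 1]
  simp only [Finset.range_one, Finset.sum_singleton, Nat.cast_zero, mul_zero, sub_zero]
  have h := hp.mul_left d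
  rw [mul_one] at h
  refine h.congr_fun fun n => ?_
  unfold pw
  rw [Nat.factorial_succ]
  have : (n.factorial : ℝ) ≠ 0 := by exact_mod_cast n.factorial_ne_zero
  push_cast
  field_simp
  ring

theorem hasSum_pois (P : Ex.{u} q) {d : ℝ} (hd : 0 ≤ d) {F : Vec q → ℝ} (hF : Good F) :
    HasSum (fun n => pw d n * (P.pow n).E F) ((P.pois d hd).E F) := by
  have h : HasSum (fun o : List P.Ω => F ((P.pois d hd).p o)) ((P.pois d hd).E F) :=
    ((P.pois d hd).summable hF.1).hasSum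
  rw [← (List.equivSigmaTuple (α := P.Ω)).symm.hasSum_iff] at h
  refine h.sigma fun n => ?_
  refine (((P.pow n).summable hF.1).hasSum.mul_left (pw d n)).congr_fun fun ω => ?_
  rw [← hF.2 _ _ (pw_nonneg hd n) ((P.pow n).nonneg ω)]
  simp only [Function.comp, List.equivSigmaTuple_symm_apply]
  congr 1
  funext i
  simp only [Ex.pois, Ex.pow, List.length_ofFn, map_prod_ofFn, Pi.smul_apply, smul_eq_mul]

theorem E_symMix {ι : Type} [Fintype ι] {w : ι → ℝ} {a : ι → Vec q} (h : MixOK w a)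
    {F : Vec q → ℝ} (hF : Good F) : (symMix w a h).E F = ∑ i, w i * symv F (a i) := by
  show ∑' ω : ι × Equiv.Perm (Fin q), F ((symMix w a h).p ω) = _
  rw [tsum_fintype, Fintype.sum_prod_type]
  refine Finset.sum_congr rfl fun i _ => ?_
  unfold symv
  rw [Finset.sum_div, Finset.mul_sum]
  refine Finset.sum_congr rfl fun σ _ => ?_
  show F ((w i / (q.factorial : ℝ)) • (a i ∘ σ)) = _
  rw [hF.2 _ _ (div_nonneg (h.2.1 _) (Nat.cast_nonneg _)) ((h.2.2.1 i).perm σ)]
  ring

theorem E_pow_symMix {ι : Type} [Fintype ι] {w : ι → ℝ} {a : ι → Vec q} (h : MixOK w a)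
    {F : Vec q → ℝ} (hF : Good F) (n : ℕ) :
    ((symMix w a h).pow n).E F = (opMix w a)^[n] F 1 := by
  induction n generalizing F with
  | zero => rw [pow_zero_eqv _ F hF, E_null]; rfl
  | succ n ih =>
    rw [pow_succ_eqv _ n F hF, E_merge _ _ hF.1, Function.iterate_succ_apply,
      ← ih (hF.opMix h)]
    exact Ex.E_congr _ fun x hx => E_symMix h (hF.tilt hx)

/-! ### `Eqv` and `Sym` -/

theorem Eqv.refl (P : Ex.{u} q) : Eqv P P := fun _ _ => rfl

theorem Eqv.symm {P : Ex.{u} q} {Q : Ex.{v} q} (h : Eqv P Q) : Eqv Q P :=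
  fun F hF => (h F hF).symm

theorem Eqv.trans {P : Ex.{u} q} {Q : Ex.{v} q} {R : Ex.{w} q} (h : Eqv P Q) (h' : Eqv Q R) :
    Eqv P R := fun F hF => (h F hF).trans (h' F hF)

theorem Eqv.sym {P : Ex.{u} q} {Q : Ex.{v} q} (h : Eqv P Q) (hQ : Sym Q) : Sym P := by
  intro σ F hF
  rw [h _ (hF.perm σ), h _ hF, hQ σ F hF]

theorem sym_null : Sym (null.{u} q) := by
  intro σ F _
  rw [E_null, E_null]
  rfl

theorem sym_full : Sym (full q) := by
  intro σ F hF
  rw [E_full (hF.perm σ), E_full hF, ← Equiv.sum_comp σ]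
  congr 1
  refine Finset.sum_congr rfl fun j _ => ?_
  congr 1
  funext i
  simp [vtx]

theorem Sym.merge {P Q : Ex.{u} q} (hP : Sym P) (hQ : Sym Q) : Sym (P.merge Q) := by
  intro σ F hF
  rw [E_merge _ _ (hF.perm σ).1, E_merge _ _ hF.1, ← hP σ _ (hF.inner Q)]
  exact P.E_congr fun x hx => hQ σ (fun y => F (x ∘ σ * y)) (hF.tilt (hx.perm σ))

theorem Sym.chan {P : Ex.{u} q} (hP : Sym P) {lam : ℝ} (h : ChanOK q lam) :
    Sym (P.chan lam h) := by
  intro σ F hF
  rw [E_chan, E_chan, ← hP σ _ (hF.chan h)]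
  refine P.E_congr fun x _ => ?_
  congr 1
  funext i
  simp only [Function.comp, Kv_apply]
  rw [← sm_perm x σ]

theorem Sym.pow {P : Ex.{u} q} (hP : Sym P) (n : ℕ) : Sym (P.pow n) := by
  induction n with
  | zero => exact (pow_zero_eqv P).sym sym_null
  | succ n ih => exact (pow_succ_eqv P n).sym (ih.merge hP)

theorem Sym.pois {P : Ex.{u} q} (hP : Sym P) {d : ℝ} (hd : 0 ≤ d) : Sym (P.pois d hd) := by
  intro σ F hF
  refine (hasSum_pois P hd (hF.perm σ)).unique ?_
  simp only [hP.pow _ σ F hF]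
  exact hasSum_pois P hd hF

theorem sym_symMix {ι : Type} [Fintype ι] {w : ι → ℝ} {a : ι → Vec q} (h : MixOK w a) :
    Sym (symMix w a h) := by
  intro σ F hF
  rw [E_symMix h (hF.perm σ), E_symMix h hF]
  refine Finset.sum_congr rfl fun i _ => ?_
  congr 1
  unfold symv
  congr 1
  rw [← Equiv.sum_comp (Equiv.mulRight σ) (fun τ : Equiv.Perm (Fin q) => F (a i ∘ τ))]
  rfl

end Crest.Agent.R163
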