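import Crest.Agent.R163.Geo4

/-! Row 163: from kernel checks to the pointwise inequalities (three spins). -/

set_option autoImplicit false

namespace Crest.Agent.R163.PE

open Finset

noncomputable def dv (x : Vec 3) (i : Fin 3) : ℝ := x i - sm x

def inv3 : List E := [.var 0,
  .add (sqE (.var 1)) (.add (.mul (.var 1) (.var 2)) (sqE (.var 2))),
  .smul (-1) (.mul (.var 1) (.mul (.var 2) (.add (.var 1) (.var 2)))), .cst 0]

def base3 : Cell := ![![2, 0, 0, 0], ![2, 4, -2, 0], ![2, 1, 1, 0], ![0, 0, 0, 0]]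

noncomputable def rho3 (x : Vec 3) : List ℝ := [1, 3 / 2 * cm 2 x, cm 3 x, 0]

theorem sm3 (x : Vec 3) : sm x = (x 0 + x 1 + x 2) / 3 := by
  simp [sm, Fin.sum_univ_three]

theorem cm3_two (x : Vec 3) : cm 2 x = 2 / 3 * (dv x 0 ^ 2 + dv x 0 * dv x 1 + dv x 1 ^ 2) := by
  simp only [cm, dv, sm3, Fin.sum_univ_three]; push_cast; ring

theorem cm3_three (x : Vec 3) : cm 3 x = -(dv x 0 * dv x 1 * (dv x 0 + dv x 1)) := by
  simp only [cm, dv, sm3, Fin.sum_univ_three]; push_cast; ring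

theorem inv3_ev (x : Vec 3) : inv3.map (E.ev [1, dv x 0, dv x 1, 0]) = rho3 x := by
  simp only [inv3, sqE, rho3, E.ev, List.map_cons, List.map_nil, List.getD_cons_zero,
    List.getD_cons_succ, cm3_two, cm3_three, List.cons.injEq, true_and, and_true]
  refine ⟨?_, ?_, ?_⟩ <;> push_cast <;> ring

theorem rho3_perm (x : Vec 3) (σ : Equiv.Perm (Fin 3)) : rho3 (x ∘ σ) = rho3 x := by
  simp only [rho3, cm_perm]

theorem inCell_base3 {x : Vec 3} (hx : Nrm x) (ha : Antitone x) :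
    InCell base3 ![1, dv x 0, dv x 1, 0] := by
  have h1 : x 1 ≤ x 0 := ha (by decide)
  have h2 : x 2 ≤ x 1 := ha (by decide)
  have h4 := hx.1 2
  have h5 := hx.2
  have h6 := sm3 x
  refine ⟨![x 2 / 2, (x 0 - x 1) / 6, (x 1 - x 2) / 3, 0], ?_, ?_⟩
  · intro i; fin_cases i <;> simp <;> linarith
  · intro l; fin_cases l <;> simp [Fin.sum_univ_four, base3, dv] <;> linarith

theorem inCone3 {x : Vec 3} (hx : Nrm x) {fe : List E} (hd : degsOK inv3 fe = true)
    (hg : ctrlGood (cellPolys inv3 fe base3) = true) (n : ℕ) :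
    InCone n (ctrl (cellPolys inv3 fe base3)) (FE fe (rho3 x)) := by
  obtain ⟨σ, hσ⟩ := exists_anti x
  have := (inCell_base3 (nrm_perm hx σ) hσ).inCone hd hg n
  rw [← rho3_perm x σ, ← inv3_ev]
  exact this

theorem valid3 {k d a b : ℕ} (hk : k ≤ 31) {P H I : List (List ℤ)} {vm : List (ℕ × ℕ × ℕ × ℕ)}
    (h : idV 2 3 k d P H I vm = true) (hd : degsOK inv3 (vm.map monoE) = true)
    (hg : ctrlGood (cellPolys inv3 (vm.map monoE) base3) = true)
    (hs : signV a b k d H I (ctrl (cellPolys inv3 (vm.map monoE) base3)) [-1, 0, 1] = true)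
    {x y : Vec 3} (hx : Nrm x) (hy : Nrm y) : polZ P (x * y) ≤ tgtZ (P.headD []) (x * y) := by
  have hz := hx.1.mul hy.1
  refine valid_gen (by norm_num) (by norm_num) h hz fun v hv => ⟨0, ?_⟩
  have hm := inCone3 hv hd hg k
  have e : [1, ((3 : ℤ) : ℝ) * (cm 2 v / (2 : ℤ)), cm 3 v, 0] = rho3 v := by
    simp only [rho3, List.cons.injEq, true_and, and_true]; push_cast; ring
  rw [e]
  have h0 := sm_nonneg' hz
  have h1 := sm_mul_le hx hy
  push_cast at h1
  rcases le_total (sm (x * y)) 1 with c1 | c1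
  · exact signV_sound hk hs (t := -1) (by simp) (by push_cast; linarith) (by push_cast; linarith) hm
  rcases le_total (sm (x * y)) 2 with c2 | c2
  · exact signV_sound hk hs (t := 0) (by simp) (by push_cast; linarith) (by push_cast; linarith) hm
  · exact signV_sound hk hs (t := 1) (by simp) (by push_cast; linarith) (by push_cast; linarith) hm

def bE : Fin 3 → E := ![.var 3, .var 4, .smul (-1) (.add (.var 3) (.var 4))]

def st3z (σ : Equiv.Perm (Fin 3)) : List E :=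
  [.var 0, .var 1, .smul (-1) (.add (.var 0) (.var 1)), bE (σ 0), bE (σ 1), bE (σ 2)]

def dz3 : List (ℕ × ℕ) := [(1, 0), (1, 0), (1, 0), (0, 1), (0, 1), (0, 1)]

def cE : E := .add (.mul (.var 0) (.var 3)) (.add (.mul (.var 1) (.var 4)) (.mul (.var 2) (.var 5)))

def st3a : List E :=
  [.smul 3 cE,
   .add (.var 0) (.add (.var 3) (.add (.smul 3 (.mul (.var 0) (.var 3))) (.smul (-1) cE))),
   .add (.var 1) (.add (.var 4) (.add (.smul 3 (.mul (.var 1) (.var 4))) (.smul (-1) cE)))]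

def st3b : List E :=
  [.var 0, .add (.cst 1) (.var 0),
    .smul 6 (.add (sqE (.var 1)) (.add (.mul (.var 1) (.var 2)) (sqE (.var 2)))),
    .smul (-27) (.mul (.var 1) (.mul (.var 2) (.add (.var 1) (.var 2))))]

def stU3 : List E := [.cst 1, .smul 3 (.var 0), .smul 3 (.var 1), .cst 0]
def stV3 : List E := [.cst 1, .smul 3 (.var 3), .smul 3 (.var 4), .cst 0]

def L3 : List (Equiv.Perm (Fin 3)) := [
  ⟨![0, 1, 2], ![0, 1, 2], by decide, by decide⟩,
  ⟨![0, 2, 1], ![0, 2, 1], by decide, by decide⟩,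
  ⟨![1, 0, 2], ![1, 0, 2], by decide, by decide⟩,
  ⟨![1, 2, 0], ![2, 0, 1], by decide, by decide⟩,
  ⟨![2, 0, 1], ![1, 2, 0], by decide, by decide⟩,
  ⟨![2, 1, 0], ![2, 1, 0], by decide, by decide⟩]

noncomputable def pol3 (P : List (List ℤ)) (σ : Equiv.Perm (Fin 3)) : Poly :=
  polP P (st3b.map (E.norm (st3a.map (E.norm ((st3z σ).map (E.norm env0))))))

noncomputable def id3 (n : ℕ) (k1 : ℤ) (P M : List (List ℤ)) (prs : List (List ℤ × List ℤ))
    (fe : List E) : Bool :=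
  let db := st3b.map (E.deg (st3a.map (E.deg dz3)))
  let dU := inv3.map (E.deg (stU3.map (E.deg ds0)))
  let dV := inv3.map (E.deg (stV3.map (E.deg ds0)))
  let dr := (rhsE n M prs).deg (fe.map (E.deg dU) ++ fe.map (E.deg dV))
  lenOK n M prs && Nat.beq fe.length n && degOK db st6 && okD (polD P db) && degOK dU fe &&
    degOK dV fe && okD dr && okD ((fin2 k1 (-6)).deg [(15, 15), dr]) &&
    allZero ((fin2 k1 (-6)).norm [mergeAll (L3.map (pol3 P)),
      (rhsE n M prs).norm (fe.map (E.norm (inv3.map (E.norm (stU3.map (E.norm env0))))) ++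
        fe.map (E.norm (inv3.map (E.norm (stV3.map (E.norm env0))))))])

theorem rep_mergeAll {ι : Type} {w : ℕ → ℝ} (L : List ι) (p : ι → Poly) (f : ι → ℝ)
    (h : ∀ i, Rep w (15, 15) (p i) (f i)) :
    Rep w (15, 15) (mergeAll (L.map p)) (L.map f).sum := by
  induction L with
  | nil => exact ⟨by simp [mergeAll], by simp [mergeAll]⟩
  | cons i L ih => exact (h i).merge ih

theorem dv_two (x : Vec 3) : dv x 2 = -(dv x 0 + dv x 1) := by
  simp only [dv, sm3]; ring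

theorem dv_perm (x : Vec 3) (σ : Equiv.Perm (Fin 3)) (i : Fin 3) : dv (x ∘ σ) i = dv x (σ i) := by
  simp only [dv, sm_perm, Function.comp]

theorem merge3 {x y : Vec 3} (hx : Nrm x) (hy : Nrm y) :
    st3b.map (E.ev (st3a.map (E.ev
      [dv x 0 / 3, dv x 1 / 3, dv x 2 / 3, dv y 0 / 3, dv y 1 / 3, dv y 2 / 3]))) =
      [sm (x * y) - 1, sm (x * y), cm 2 (x * y), cm 3 (x * y)] := by
  have h1 := hx.2
  have h2 := hy.2
  rw [sm3] at h1 h2
  have e1 : x 2 = 3 - x 0 - x 1 := by linarith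
  have e2 : y 2 = 3 - y 0 - y 1 := by linarith
  simp only [st3a, st3b, cE, sqE, E.ev, List.map_cons, List.map_nil, List.getD_cons_zero,
    List.getD_cons_succ, cm3_two, cm3_three, List.cons.injEq, and_true, dv, sm3, Pi.mul_apply,
    e1, e2]
  refine ⟨?_, ?_, ?_, ?_⟩ <;> push_cast <;> ring

theorem id3_sound {n : ℕ} {k1 : ℤ} {P M : List (List ℤ)} {prs : List (List ℤ × List ℤ)}
    {fe : List E} (h : id3 n k1 P M prs fe = true) {x y : Vec 3} (hx : Nrm x) (hy : Nrm y) :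
    k1 * (L3.map (fun σ : Equiv.Perm (Fin 3) => polZ P (x * (y ∘ σ)))).sum =
      6 * (bilN n n M (FE fe (rho3 x)) (FE fe (rho3 y)) +
        pairsR n prs (FE fe (rho3 x)) (FE fe (rho3 y))) := by
  simp only [id3, Bool.and_eq_true, Nat.beq_eq] at h
  obtain ⟨⟨⟨⟨⟨⟨⟨⟨h1, h2⟩, h3⟩, h4⟩, h5⟩, h6⟩, h7⟩, h8⟩, h9⟩ := h
  have r0 : RepL (pt (dv x 0 / 3) (dv x 1 / 3) 0 (dv y 0 / 3) (dv y 1 / 3) 0) ds0 env0
    [dv x 0 / 3, dv x 1 / 3, 0, dv y 0 / 3, dv y 1 / 3, 0] := repL0 _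
  have hb : ∀ i : Fin 3, (bE i).ev [dv x 0 / 3, dv x 1 / 3, 0, dv y 0 / 3, dv y 1 / 3, 0] =
      dv y i / 3 ∧ (bE i).deg ds0 = (0, 1) := by
    intro i
    fin_cases i
    · exact ⟨rfl, rfl⟩
    · exact ⟨rfl, rfl⟩
    · refine ⟨?_, rfl⟩
      simp [bE, E.ev, dv_two]; ring
  have rep : ∀ σ : Equiv.Perm (Fin 3),
      Rep (pt (dv x 0 / 3) (dv x 1 / 3) 0 (dv y 0 / 3) (dv y 1 / 3) 0) (15, 15) (pol3 P σ)
        (polZ P (x * (y ∘ σ))) := by
    intro σ
    have d1 : (st3z σ).map (E.deg ds0) = dz3 := by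
      simp only [st3z, List.map_cons, List.map_nil, (hb _).2]; rfl
    have d2 : degOK ds0 (st3z σ) = true := by
      simp only [st3z, degOK, List.all_cons, (hb _).2]; rfl
    have e1 : (st3z σ).map (E.ev [dv x 0 / 3, dv x 1 / 3, 0, dv y 0 / 3, dv y 1 / 3, 0]) =
        [dv x 0 / 3, dv x 1 / 3, dv x 2 / 3, dv (y ∘ σ) 0 / 3, dv (y ∘ σ) 1 / 3,
          dv (y ∘ σ) 2 / 3] := by
      simp only [st3z, List.map_cons, List.map_nil, (hb _).1, dv_perm, E.ev, List.getD_cons_zero,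
        List.getD_cons_succ, List.cons.injEq, true_and, and_true, dv_two x]
      push_cast; ring
    have rz := r0.map (st3z σ) d2
    rw [d1, e1] at rz
    have rb := (rz.map st3a (by rfl)).map st3b (by rfl)
    rw [merge3 hx (nrm_perm hy σ)] at rb
    exact (rb.pol P h3 h4).to15 h4
  have rU := r0.map stU3 (by rfl)
  have eU : stU3.map (E.ev [dv x 0 / 3, dv x 1 / 3, 0, dv y 0 / 3, dv y 1 / 3, 0]) =
      [1, dv x 0, dv x 1, 0] := by
    simp only [stU3, E.ev, List.map_cons, List.map_nil, List.getD_cons_zero, List.getD_cons_succ,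
      List.cons.injEq, and_true]
    refine ⟨?_, ?_, ?_, ?_⟩ <;> push_cast <;> ring
  rw [eU] at rU
  have rU' := rU.map inv3 (by rfl)
  rw [inv3_ev] at rU'
  have rV := r0.map stV3 (by rfl)
  have eV : stV3.map (E.ev [dv x 0 / 3, dv x 1 / 3, 0, dv y 0 / 3, dv y 1 / 3, 0]) =
      [1, dv y 0, dv y 1, 0] := by
    simp only [stV3, E.ev, List.map_cons, List.map_nil, List.getD_cons_zero, List.getD_cons_succ,
      List.cons.injEq, and_true]
    refine ⟨?_, ?_, ?_, ?_⟩ <;> push_cast <;> ring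
  rw [eV] at rV
  have rV' := rV.map inv3 (by rfl)
  rw [inv3_ev] at rV'
  have rr := ((fin2 k1 (-6)).rep' (ds := [_, _]) (env := [_, _]) (ρ := [_, _])
      ⟨rep_mergeAll L3 _ _ rep, rep_rhs h1 rU' rV' h2 h2 h5 h6 h7, trivial⟩ h8).2
  rw [evG_of_allZero _ h9] at rr
  simp only [fin2, E.ev, List.getD_cons_zero, List.getD_cons_succ] at rr
  push_cast at rr
  linarith

end Crest.Agent.R163.PE
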