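import Crest.Agent.R163.Poly

/-! Row 163: checking that the average of a polynomial over the tetrahedral group vanishes. -/

set_option autoImplicit false

namespace Crest.Agent.R163.PE

def mergePairs (m : Poly → Poly → Poly) : List Poly → List Poly
  | a :: b :: t => m a b :: mergePairs m t
  | [a] => [a]
  | [] => []

noncomputable def evL (μ : ℕ → ℝ) (l : List Poly) : ℝ := (l.map (evG μ)).sum

theorem evL_mergePairs (μ : ℕ → ℝ) : ∀ l : List Poly, evL μ (mergePairs merge l) = evL μ l
  | a :: b :: t => by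
    have := evL_mergePairs μ t
    simp only [evL, mergePairs, List.map_cons, List.sum_cons, evG_merge] at *
    rw [this]; ring
  | [_] => rfl
  | [] => rfl

noncomputable def mergeAll (l : List Poly) : Poly :=
  List.rec (motive := fun _ => Poly) [] (fun a _ ih => merge a ih) l

theorem evG_mergeAll (μ : ℕ → ℝ) (l : List Poly) : evG μ (mergeAll l) = evL μ l := by
  induction l with
  | nil => rfl
  | cons a l ih =>
    have : mergeAll (a :: l) = merge a (mergeAll l) := rfl
    rw [this, evG_merge, ih]; simp [evL]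

noncomputable def msortAux (n : ℕ) : List Poly → Poly :=
  Nat.rec (motive := fun _ => List Poly → Poly) mergeAll
    (fun _ ih l => ih (mergePairs merge l)) n

theorem evG_msortAux (μ : ℕ → ℝ) (n : ℕ) (l : List Poly) : evG μ (msortAux n l) = evL μ l := by
  induction n generalizing l with
  | zero => exact evG_mergeAll μ l
  | succ n ih =>
    have : msortAux (n + 1) l = msortAux n (mergePairs merge l) := rfl
    rw [this, ih, evL_mergePairs]

/-- canonical key: the three exponents of the second block sorted -/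
def canon3 (lo a b c : ℕ) : ℕ :=
  cond (Nat.ble a b)
    (cond (Nat.ble b c) (lo + 4096 * a + 65536 * b + 1048576 * c)
      (cond (Nat.ble a c) (lo + 4096 * a + 65536 * c + 1048576 * b)
        (lo + 4096 * c + 65536 * a + 1048576 * b)))
    (cond (Nat.ble a c) (lo + 4096 * b + 65536 * a + 1048576 * c)
      (cond (Nat.ble b c) (lo + 4096 * b + 65536 * c + 1048576 * a)
        (lo + 4096 * c + 65536 * b + 1048576 * a)))

def parOK (a b c : ℕ) : Bool := Nat.beq (a % 2) (b % 2) && Nat.beq (b % 2) (c % 2)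

noncomputable def canonL (p : Poly) : List Poly :=
  List.rec (motive := fun _ => List Poly) []
    (fun t _ ih => cond (parOK (t.1 / 4096 % 16) (t.1 / 65536 % 16) (t.1 / 1048576))
      ([(canon3 (t.1 % 4096) (t.1 / 4096 % 16) (t.1 / 65536 % 16) (t.1 / 1048576), t.2)] :: ih)
      ih) p

/-- sum of `g` over the 24 signed permutations with an even number of sign changes -/
noncomputable def sum24 (g : ℝ → ℝ → ℝ → ℝ) (a b c : ℝ) : ℝ :=
  g a b c + g a (-b) (-c) + g (-a) b (-c) + g (-a) (-b) c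
  + (g a c b + g a (-c) (-b) + g (-a) c (-b) + g (-a) (-c) b)
  + (g b a c + g b (-a) (-c) + g (-b) a (-c) + g (-b) (-a) c)
  + (g b c a + g b (-c) (-a) + g (-b) c (-a) + g (-b) (-c) a)
  + (g c a b + g c (-a) (-b) + g (-c) a (-b) + g (-c) (-a) b)
  + (g c b a + g c (-b) (-a) + g (-c) b (-a) + g (-c) (-b) a)

noncomputable def pt (u1 u2 u3 v1 v2 v3 : ℝ) : ℕ → ℝ := fun i => [u1, u2, u3, v1, v2, v3].getD i 0

noncomputable def S3 (a b c : ℝ) (i j k : ℕ) : ℝ := sum24 (fun x y z => x ^ i * y ^ j * z ^ k) a b c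

theorem S3_swap12 (a b c : ℝ) (i j k : ℕ) : S3 a b c i j k = S3 a b c j i k := by
  simp only [S3, sum24]; ring

theorem S3_swap23 (a b c : ℝ) (i j k : ℕ) : S3 a b c i j k = S3 a b c i k j := by
  simp only [S3, sum24]; ring

theorem S3_par (a b c : ℝ) {i j k : ℕ} (h : parOK i j k = false) : S3 a b c i j k = 0 := by
  rcases Nat.even_or_odd i with hi | hi <;> rcases Nat.even_or_odd j with hj | hj <;>
    rcases Nat.even_or_odd k with hk | hk
  all_goals first
    | (exfalso
       simp only [Nat.even_iff, Nat.odd_iff] at hi hj hk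
       simp [parOK, hi, hj, hk] at h
       done)
    | (simp only [S3, sum24, hi.neg_pow, hj.neg_pow, hk.neg_pow]; ring)

noncomputable def mu24 (u1 u2 u3 a b c : ℝ) (k : ℕ) : ℝ :=
  u1 ^ (k % 16) * u2 ^ (k / 16 % 16) * u3 ^ (k / 256 % 16) *
    S3 a b c (k / 4096 % 16) (k / 65536 % 16) (k / 1048576)

theorem sum24_evG (u1 u2 u3 a b c : ℝ) (p : Poly) :
    sum24 (fun x y z => evG (ev1 (pt u1 u2 u3 x y z)) p) a b c = evG (mu24 u1 u2 u3 a b c) p := by
  induction p with
  | nil => simp [sum24]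
  | cons t p ih =>
    rw [evG_cons, ← ih]
    simp only [sum24, evG_cons, mu24, S3, ev1, pt, List.getD_cons_zero, List.getD_cons_succ]
    ring

theorem mu24_mk (u1 u2 u3 a b c : ℝ) {lo i j k : ℕ} (hlo : lo < 4096) (hi : i < 16)
    (hj : j < 16) : mu24 u1 u2 u3 a b c (lo + 4096 * i + 65536 * j + 1048576 * k) =
      u1 ^ (lo % 16) * u2 ^ (lo / 16 % 16) * u3 ^ (lo / 256 % 16) * S3 a b c i j k := by
  have h0 : (lo + 4096 * i + 65536 * j + 1048576 * k) % 16 = lo % 16 := by omega
  have h1 : (lo + 4096 * i + 65536 * j + 1048576 * k) / 16 % 16 = lo / 16 % 16 := by omega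
  have h2 : (lo + 4096 * i + 65536 * j + 1048576 * k) / 256 % 16 = lo / 256 % 16 := by omega
  have h3 : (lo + 4096 * i + 65536 * j + 1048576 * k) / 4096 % 16 = i := by omega
  have h4 : (lo + 4096 * i + 65536 * j + 1048576 * k) / 65536 % 16 = j := by omega
  have h5 : (lo + 4096 * i + 65536 * j + 1048576 * k) / 1048576 = k := by omega
  simp only [mu24, h0, h1, h2, h3, h4, h5]

theorem mu24_canon (u1 u2 u3 a b c : ℝ) {k : ℕ} (hk : k / 1048576 < 16) :
    mu24 u1 u2 u3 a b c (canon3 (k % 4096) (k / 4096 % 16) (k / 65536 % 16) (k / 1048576)) =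
      mu24 u1 u2 u3 a b c k := by
  have hlo : k % 4096 < 4096 := Nat.mod_lt _ (by norm_num)
  have hi : k / 4096 % 16 < 16 := Nat.mod_lt _ (by norm_num)
  have hj : k / 65536 % 16 < 16 := Nat.mod_lt _ (by norm_num)
  have e0 : k % 4096 % 16 = k % 16 := by omega
  have e1 : k % 4096 / 16 % 16 = k / 16 % 16 := by omega
  have e2 : k % 4096 / 256 % 16 = k / 256 % 16 := by omega
  have hr : mu24 u1 u2 u3 a b c k = u1 ^ (k % 16) * u2 ^ (k / 16 % 16) * u3 ^ (k / 256 % 16) *
    S3 a b c (k / 4096 % 16) (k / 65536 % 16) (k / 1048576) := rfl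
  rw [hr]
  generalize k / 4096 % 16 = i at *
  generalize k / 65536 % 16 = j at *
  generalize k / 1048576 = l at *
  unfold canon3
  cases Nat.ble i j <;> cases Nat.ble j l <;> cases Nat.ble i l <;>
    simp only [cond_true, cond_false] <;>
    (first
      | rw [mu24_mk _ _ _ _ _ _ hlo hi hj]
      | rw [mu24_mk _ _ _ _ _ _ hlo hi hk]
      | rw [mu24_mk _ _ _ _ _ _ hlo hj hi]
      | rw [mu24_mk _ _ _ _ _ _ hlo hj hk]
      | rw [mu24_mk _ _ _ _ _ _ hlo hk hi]
      | rw [mu24_mk _ _ _ _ _ _ hlo hk hj]) <;>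
    rw [e0, e1, e2] <;> congr 1 <;> simp only [S3, sum24] <;> ring

theorem evL_canonL (u1 u2 u3 a b c : ℝ) {p : Poly} (hp : ∀ t ∈ p, dB t.1 ≤ 15) :
    evL (mu24 u1 u2 u3 a b c) (canonL p) = evG (mu24 u1 u2 u3 a b c) p := by
  induction p with
  | nil => rfl
  | cons t p ih =>
    have ht : t.1 / 1048576 < 16 := by
      have := hp t (by simp); unfold dB at this; omega
    have ih' := ih (fun s hs => hp s (by simp [hs]))
    have e : canonL (t :: p) = cond (parOK (t.1 / 4096 % 16) (t.1 / 65536 % 16) (t.1 / 1048576))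
      ([(canon3 (t.1 % 4096) (t.1 / 4096 % 16) (t.1 / 65536 % 16) (t.1 / 1048576), t.2)] ::
        canonL p) (canonL p) := rfl
    rw [e, evG_cons, ← ih']
    cases h : parOK (t.1 / 4096 % 16) (t.1 / 65536 % 16) (t.1 / 1048576)
    · simp only [cond_false, mu24, S3_par _ _ _ h]; ring
    · simp only [cond_true, evL, List.map_cons, List.sum_cons, evG_cons, evG_nil,
        mu24_canon _ _ _ _ _ _ ht]; ring

noncomputable def symZero (p : Poly) : Bool := allZero (msortAux 16 (canonL p))

theorem sum24_eq_zero {p : Poly} (hp : ∀ t ∈ p, dB t.1 ≤ 15) (h : symZero p = true)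
    (u1 u2 u3 a b c : ℝ) :
    sum24 (fun x y z => evG (ev1 (pt u1 u2 u3 x y z)) p) a b c = 0 := by
  rw [sum24_evG, ← evL_canonL _ _ _ _ _ _ hp, ← evG_msortAux _ 16]
  exact evG_of_allZero _ h

end Crest.Agent.R163.PE
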