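import Crest.Agent.R163.PolyId
import Crest.Agent.R163.PolySym
import Crest.Agent.R163.Cone

/-! Row 163: from kernel checks to the pointwise inequalities (general part and four spins). -/

set_option autoImplicit false

namespace Crest.Agent.R163.PE

open Finset

theorem cm_perm {q : ℕ} (k : ℕ) (x : Vec q) (σ : Equiv.Perm (Fin q)) : cm k (x ∘ σ) = cm k x := by
  unfold cm
  rw [sm_perm]
  congr 1
  exact Equiv.sum_comp σ (fun i => (x i - sm x) ^ k)

theorem nrm_perm {q : ℕ} {x : Vec q} (hx : Nrm x) (σ : Equiv.Perm (Fin q)) : Nrm (x ∘ σ) :=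
  ⟨hx.1.perm σ, by rw [sm_perm]; exact hx.2⟩

theorem sm_mul_le {q : ℕ} {x y : Vec q} (hx : Nrm x) (hy : Nrm y) : sm (x * y) ≤ q := by
  have h1 : ∑ i, (x * y) i ≤ ∑ i, x i * q := by
    refine sum_le_sum fun i _ => mul_le_mul_of_nonneg_left ?_ (hx.1 i)
    have := le_mul_sm hy.1 i
    rwa [hy.2, mul_one] at this
  have h2 : sm (x * y) ≤ sm x * q := by
    unfold sm
    rw [div_mul_eq_mul_div, sum_mul]
    exact div_le_div_of_nonneg_right h1 (Nat.cast_nonneg _)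
  rwa [hx.2, one_mul] at h2

theorem abs_cm_nrm {q : ℕ} (k : ℕ) {x : Vec q} (hx : Nrm x) : |cm k x| ≤ (q : ℝ) ^ k := by
  have := abs_cm_le k hx.1
  rwa [sum_eq_mul_sm, hx.2, mul_one] at this

noncomputable def polZ {q : ℕ} (P : List (List ℤ)) (z : Vec q) : ℝ :=
  polR P (sm z - 1) (sm z) (cm 2 z) (cm 3 z)

noncomputable def tgtZ {q : ℕ} (r : List ℤ) (z : Vec q) : ℝ :=
  toF r 0 * sm z + toF r 1 * Xh z + toF r 2 * Yh z + toF r 3 * XXh z + toF r 4 * XYh z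

theorem valid_gen {q : ℕ} (hq : 0 < q) {kX kQ : ℤ} (hk : kX ≠ 0) {k d : ℕ}
    {P H I : List (List ℤ)} {vm : List (ℕ × ℕ × ℕ × ℕ)} (h : idV kX kQ k d P H I vm = true)
    {z : Vec q} (hz : NN z)
    (hs : ∀ x : Vec q, Nrm x → ∃ Z : ℝ, 0 ≤ bilN k k I
      (FE (vm.map monoE) [1, kQ * (cm 2 x / kX), cm 3 x, Z]) (FE (HE d H) [1, sm z - 1])) :
    polZ P z ≤ tgtZ (P.headD []) z := by
  have hk' : (kX : ℝ) ≠ 0 := by exact_mod_cast hk
  by_cases h0 : sm z = 0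
  · have hz0 := cone_eq_zero hq hz h0
    have e := idV_sound h (-1) 0 0 0
    have c2 : cm 2 z = 0 := by rw [hz0]; simp [cm, sm]
    have c3 : cm 3 z = 0 := by rw [hz0]; simp [cm, sm]
    simp only [polZ, tgtZ, Xh, Yh, XXh, XYh, h0, c2, c3]
    norm_num at e ⊢
    exact e.le
  · have hpos : 0 < sm z := lt_of_le_of_ne (sm_nonneg' hz) (Ne.symm h0)
    obtain ⟨Z, hZ⟩ := hs _ (cone_nrm hz h0)
    set s := sm z with hsdef
    set X := cm 2 (s⁻¹ • z) with hX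
    set Y := cm 3 (s⁻¹ • z) with hY
    have c2 : cm 2 z = s ^ 2 * X := by rw [hX, cm_smul]; field_simp
    have c3 : cm 3 z = s ^ 3 * Y := by rw [hY, cm_smul]; field_simp
    have e := idV_sound h (s - 1) (X / kX) Y Z
    have e1 : (kX : ℝ) * (X / kX) = X := by field_simp
    have e2 : 1 + (s - 1) = s := by ring
    rw [e1, e2] at e
    have e3 : 0 ≤ s * (s - 1) ^ 2 * bilN k k I (FE (vm.map monoE) [1, kQ * (X / kX), Y, Z])
        (FE (HE d H) [1, s - 1]) := by positivity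
    have t1 : Xh z = s * X := by rw [Xh, c2, ← hsdef]; field_simp
    have t2 : Yh z = s * Y := by rw [Yh, c3, ← hsdef]; field_simp
    have t3 : XXh z = s * X ^ 2 := by rw [XXh, c2, ← hsdef]; field_simp
    have t4 : XYh z = s * (X * Y) := by rw [XYh, c2, c3, ← hsdef]; field_simp
    rw [polZ, tgtZ, t1, t2, t3, t4, c2, c3, ← hsdef]
    nlinarith

/-- all pairs of tables pass the packed check -/
theorem cone_pairs {a b c n : ℕ} (hn : n ≤ 31) {M : List (List ℤ)} {G G' : List (List ℤ)}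
    (h : pairOK a b c n n M G' G = true) {f g : ℕ → ℝ} (hf : InCone n G f) (hg : InCone n G' g) :
    0 ≤ bilN n n M f g := bilN_nonneg hf hg (pairOK_sound hn hn h)

theorem Rep.to15 {w : ℕ → ℝ} {d : ℕ × ℕ} {p : Poly} {f : ℝ} (h : Rep w d p f)
    (hd : okD d = true) : Rep w (15, 15) p f := by
  simp only [okD, Bool.and_eq_true, Nat.ble_eq] at hd
  exact ⟨fun t ht => ⟨(h.1 t ht).1.trans hd.1, (h.1 t ht).2.trans hd.2⟩, h.2⟩

def fin2 (k1 k2 : ℤ) : E := .add (.smul k1 (.var 0)) (.smul k2 (.var 1))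

/-! ### four spins -/

noncomputable def u1 (x : Vec 4) : ℝ := (x 0 + x 1 - x 2 - x 3) / 4
noncomputable def u2 (x : Vec 4) : ℝ := (x 0 - x 1 + x 2 - x 3) / 4
noncomputable def u3 (x : Vec 4) : ℝ := (x 0 - x 1 - x 2 + x 3) / 4

def sqE (e : E) : E := .mul e e

def inv4 : List E := [.var 0, .add (sqE (.var 1)) (.add (sqE (.var 2)) (sqE (.var 3))),
  .smul 6 (.mul (.var 1) (.mul (.var 2) (.var 3))),
  .add (sqE (.add (sqE (.var 1)) (.add (sqE (.var 2)) (sqE (.var 3)))))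
    (.smul 4 (.add (.mul (sqE (.var 1)) (sqE (.var 2)))
      (.add (.mul (sqE (.var 1)) (sqE (.var 3))) (.mul (sqE (.var 2)) (sqE (.var 3))))))]

def base4 : Cell := ![![3, 0, 0, 0], ![3, 3, 3, 3], ![3, 3, 0, 0], ![3, 1, 1, -1]]

def tr4 : Tr := .node 0 1 .leaf (.node 1 3 (.node 1 2 .leaf .leaf) .leaf)

noncomputable def rho4 (x : Vec 4) : List ℝ := [1, cm 2 x, cm 3 x, cm 4 x]

theorem sm4 (x : Vec 4) : sm x = (x 0 + x 1 + x 2 + x 3) / 4 := by
  simp [sm, Fin.sum_univ_four]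

theorem cm4_two (x : Vec 4) : cm 2 x = u1 x ^ 2 + u2 x ^ 2 + u3 x ^ 2 := by
  simp only [cm, sm4, Fin.sum_univ_four, u1, u2, u3]; push_cast; ring

theorem cm4_three (x : Vec 4) : cm 3 x = 6 * (u1 x * u2 x * u3 x) := by
  simp only [cm, sm4, Fin.sum_univ_four, u1, u2, u3]; push_cast; ring

theorem cm4_four (x : Vec 4) : cm 4 x = (u1 x ^ 2 + u2 x ^ 2 + u3 x ^ 2) ^ 2 +
    4 * (u1 x ^ 2 * u2 x ^ 2 + u1 x ^ 2 * u3 x ^ 2 + u2 x ^ 2 * u3 x ^ 2) := by
  simp only [cm, sm4, Fin.sum_univ_four, u1, u2, u3]; push_cast; ring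

theorem inv4_ev (x : Vec 4) : inv4.map (E.ev [1, u1 x, u2 x, u3 x]) = rho4 x := by
  simp only [inv4, sqE, rho4, E.ev, List.map_cons, List.map_nil, List.getD_cons_zero,
    List.getD_cons_succ, cm4_two, cm4_three, cm4_four, List.cons.injEq, true_and, and_true]
  refine ⟨?_, ?_, ?_⟩ <;> push_cast <;> ring

theorem rho4_perm (x : Vec 4) (σ : Equiv.Perm (Fin 4)) : rho4 (x ∘ σ) = rho4 x := by
  simp only [rho4, cm_perm]

theorem exists_anti {q : ℕ} (x : Vec q) : ∃ σ : Equiv.Perm (Fin q), Antitone (x ∘ σ) := by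
  refine ⟨Tuple.sort (fun i => -x i), fun i j hij => ?_⟩
  have := Tuple.monotone_sort (fun i => -x i) hij
  simpa using this

theorem inCell_base4 {x : Vec 4} (hx : Nrm x) (ha : Antitone x) :
    InCell base4 ![1, u1 x, u2 x, u3 x] := by
  have h1 : x 1 ≤ x 0 := ha (by decide)
  have h2 : x 2 ≤ x 1 := ha (by decide)
  have h3 : x 3 ≤ x 2 := ha (by decide)
  have h4 := hx.1 3
  have h5 := hx.2
  rw [sm4] at h5
  refine ⟨![x 3 / 3, (x 0 - x 1) / 12, (x 1 - x 2) / 6, (x 2 - x 3) / 4], ?_, ?_⟩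
  · intro i; fin_cases i <;> simp <;> linarith
  · intro l; fin_cases l <;> simp [Fin.sum_univ_four, base4, u1, u2, u3] <;> linarith

theorem inCone4 (t : Tr) (ht : t.ok = true) {x : Vec 4} (hx : Nrm x) {fe : List E}
    (hd : degsOK inv4 fe = true) : ∃ c ∈ t.cells base4,
      ctrlGood (cellPolys inv4 fe c) = true →
        ∀ n, InCone n (ctrl (cellPolys inv4 fe c)) (FE fe (rho4 x)) := by
  obtain ⟨σ, hσ⟩ := exists_anti x
  obtain ⟨c, hc, hin⟩ := (inCell_base4 (nrm_perm hx σ) hσ).cover t ht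
  refine ⟨c, hc, fun hg n => ?_⟩
  have := hin.inCone hd hg n
  rw [← rho4_perm x σ, ← inv4_ev]
  exact this

theorem valid4 {k d a b : ℕ} (hk : k ≤ 31) {P H I : List (List ℤ)} {vm : List (ℕ × ℕ × ℕ × ℕ)}
    (h : idV 1 1 k d P H I vm = true) (hd : degsOK inv4 (vm.map monoE) = true)
    (hg : ctrlGood (cellPolys inv4 (vm.map monoE) base4) = true)
    (hs : signV a b k d H I (ctrl (cellPolys inv4 (vm.map monoE) base4)) [-1, 0, 1, 2] = true)
    {x y : Vec 4} (hx : Nrm x) (hy : Nrm y) : polZ P (x * y) ≤ tgtZ (P.headD []) (x * y) := by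
  have hz := hx.1.mul hy.1
  refine valid_gen (by norm_num) (by norm_num) h hz fun v hv => ⟨cm 4 v, ?_⟩
  obtain ⟨c, hc, hin⟩ := inCone4 .leaf rfl hv hd
  have hc' : c = base4 := by simpa [Tr.cells] using hc
  subst hc'
  have hm := hin hg k
  have e : [1, ((1 : ℤ) : ℝ) * (cm 2 v / (1 : ℤ)), cm 3 v, cm 4 v] = rho4 v := by simp [rho4]
  rw [e]
  have h0 := sm_nonneg' hz
  have h1 := sm_mul_le hx hy
  push_cast at h1
  rcases le_total (sm (x * y)) 1 with c1 | c1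
  · exact signV_sound hk hs (t := -1) (by simp) (by push_cast; linarith) (by push_cast; linarith) hm
  rcases le_total (sm (x * y)) 2 with c2 | c2
  · exact signV_sound hk hs (t := 0) (by simp) (by push_cast; linarith) (by push_cast; linarith) hm
  rcases le_total (sm (x * y)) 3 with c3 | c3
  · exact signV_sound hk hs (t := 1) (by simp) (by push_cast; linarith) (by push_cast; linarith) hm
  · exact signV_sound hk hs (t := 2) (by simp) (by push_cast; linarith) (by push_cast; linarith) hm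

def st4a : List E :=
  [.add (.mul (.var 0) (.var 3)) (.add (.mul (.var 1) (.var 4)) (.mul (.var 2) (.var 5))),
   .add (.var 0) (.add (.var 3) (.add (.mul (.var 1) (.var 5)) (.mul (.var 2) (.var 4)))),
   .add (.var 1) (.add (.var 4) (.add (.mul (.var 0) (.var 5)) (.mul (.var 2) (.var 3)))),
   .add (.var 2) (.add (.var 5) (.add (.mul (.var 0) (.var 4)) (.mul (.var 1) (.var 3))))]

def st4b : List E :=
  [.var 0, .add (.cst 1) (.var 0), .add (sqE (.var 1)) (.add (sqE (.var 2)) (sqE (.var 3))),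
    .smul 6 (.mul (.var 1) (.mul (.var 2) (.var 3)))]

def stU : List E := [.cst 1, .var 0, .var 1, .var 2]
def stV : List E := [.cst 1, .var 3, .var 4, .var 5]

noncomputable def p4 (n : ℕ) (k1 : ℤ) (P M : List (List ℤ)) (prs : List (List ℤ × List ℤ))
    (fe : List E) : Poly :=
  (fin2 k1 (-1)).norm [polP P (st4b.map (E.norm (st4a.map (E.norm env0)))),
    (rhsE n M prs).norm (fe.map (E.norm (inv4.map (E.norm (stU.map (E.norm env0))))) ++
      fe.map (E.norm (inv4.map (E.norm (stV.map (E.norm env0))))))]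

noncomputable def id4 (n : ℕ) (k1 : ℤ) (P M : List (List ℤ)) (prs : List (List ℤ × List ℤ))
    (fe : List E) : Bool :=
  let db := st4b.map (E.deg (st4a.map (E.deg ds0)))
  let dU := inv4.map (E.deg (stU.map (E.deg ds0)))
  let dV := inv4.map (E.deg (stV.map (E.deg ds0)))
  let dr := (rhsE n M prs).deg (fe.map (E.deg dU) ++ fe.map (E.deg dV))
  lenOK n M prs && Nat.beq fe.length n && degOK db st6 && okD (polD P db) && degOK dU fe &&
    degOK dV fe && okD dr && okD ((fin2 k1 (-1)).deg [polD P db, dr]) &&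
    symZero (p4 n k1 P M prs fe)

def L4 : List (Equiv.Perm (Fin 4)) := [
  ⟨![0, 1, 2, 3], ![0, 1, 2, 3], by decide, by decide⟩,
  ⟨![1, 0, 3, 2], ![1, 0, 3, 2], by decide, by decide⟩,
  ⟨![2, 3, 0, 1], ![2, 3, 0, 1], by decide, by decide⟩,
  ⟨![3, 2, 1, 0], ![3, 2, 1, 0], by decide, by decide⟩,
  ⟨![0, 1, 3, 2], ![0, 1, 3, 2], by decide, by decide⟩,
  ⟨![1, 0, 2, 3], ![1, 0, 2, 3], by decide, by decide⟩,
  ⟨![3, 2, 0, 1], ![2, 3, 1, 0], by decide, by decide⟩,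
  ⟨![2, 3, 1, 0], ![3, 2, 0, 1], by decide, by decide⟩,
  ⟨![0, 2, 1, 3], ![0, 2, 1, 3], by decide, by decide⟩,
  ⟨![2, 0, 3, 1], ![1, 3, 0, 2], by decide, by decide⟩,
  ⟨![1, 3, 0, 2], ![2, 0, 3, 1], by decide, by decide⟩,
  ⟨![3, 1, 2, 0], ![3, 1, 2, 0], by decide, by decide⟩,
  ⟨![0, 2, 3, 1], ![0, 3, 1, 2], by decide, by decide⟩,
  ⟨![2, 0, 1, 3], ![1, 2, 0, 3], by decide, by decide⟩,
  ⟨![3, 1, 0, 2], ![2, 1, 3, 0], by decide, by decide⟩,
  ⟨![1, 3, 2, 0], ![3, 0, 2, 1], by decide, by decide⟩,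
  ⟨![0, 3, 1, 2], ![0, 2, 3, 1], by decide, by decide⟩,
  ⟨![3, 0, 2, 1], ![1, 3, 2, 0], by decide, by decide⟩,
  ⟨![1, 2, 0, 3], ![2, 0, 1, 3], by decide, by decide⟩,
  ⟨![2, 1, 3, 0], ![3, 1, 0, 2], by decide, by decide⟩,
  ⟨![0, 3, 2, 1], ![0, 3, 2, 1], by decide, by decide⟩,
  ⟨![3, 0, 1, 2], ![1, 2, 3, 0], by decide, by decide⟩,
  ⟨![2, 1, 0, 3], ![2, 1, 0, 3], by decide, by decide⟩,
  ⟨![1, 2, 3, 0], ![3, 0, 1, 2], by decide, by decide⟩]


theorem sumL4 (g : ℝ → ℝ → ℝ → ℝ) (y : Vec 4) :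
    (L4.map (fun σ : Equiv.Perm (Fin 4) => g (u1 (y ∘ σ)) (u2 (y ∘ σ)) (u3 (y ∘ σ)))).sum =
      sum24 g (u1 y) (u2 y) (u3 y) := by
  have key : ∀ a b c a' b' c' : ℝ, a = a' → b = b' → c = c' → g a b c = g a' b' c' := by
    intros; subst_vars; rfl
  have : L4.map (fun σ : Equiv.Perm (Fin 4) => g (u1 (y ∘ σ)) (u2 (y ∘ σ)) (u3 (y ∘ σ))) =
      [g (u1 y) (u2 y) (u3 y),
      g (u1 y) (-u2 y) (-u3 y),
      g (-u1 y) (u2 y) (-u3 y),
      g (-u1 y) (-u2 y) (u3 y),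
      g (u1 y) (u3 y) (u2 y),
      g (u1 y) (-u3 y) (-u2 y),
      g (-u1 y) (u3 y) (-u2 y),
      g (-u1 y) (-u3 y) (u2 y),
      g (u2 y) (u1 y) (u3 y),
      g (u2 y) (-u1 y) (-u3 y),
      g (-u2 y) (u1 y) (-u3 y),
      g (-u2 y) (-u1 y) (u3 y),
      g (u2 y) (u3 y) (u1 y),
      g (u2 y) (-u3 y) (-u1 y),
      g (-u2 y) (u3 y) (-u1 y),
      g (-u2 y) (-u3 y) (u1 y),
      g (u3 y) (u1 y) (u2 y),
      g (u3 y) (-u1 y) (-u2 y),
      g (-u3 y) (u1 y) (-u2 y),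
      g (-u3 y) (-u1 y) (u2 y),
      g (u3 y) (u2 y) (u1 y),
      g (u3 y) (-u2 y) (-u1 y),
      g (-u3 y) (u2 y) (-u1 y),
      g (-u3 y) (-u2 y) (u1 y)] := by
    simp only [L4, List.map_cons, List.map_nil, List.cons.injEq, and_true]
    refine ⟨?_, ?_, ?_, ?_, ?_, ?_, ?_, ?_, ?_, ?_, ?_, ?_, ?_, ?_, ?_, ?_, ?_, ?_, ?_, ?_, ?_, ?_, ?_, ?_⟩ <;>
      apply key <;> simp [u1, u2, u3] <;> ring
  rw [this]
  simp only [List.sum_cons, List.sum_nil, sum24]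
  ring

theorem merge4 {x y : Vec 4} (hx : Nrm x) (hy : Nrm y) :
    st4b.map (E.ev (st4a.map (E.ev [u1 x, u2 x, u3 x, u1 y, u2 y, u3 y]))) =
      [sm (x * y) - 1, sm (x * y), cm 2 (x * y), cm 3 (x * y)] := by
  have h1 := hx.2
  have h2 := hy.2
  rw [sm4] at h1 h2
  have e1 : x 3 = 4 - x 0 - x 1 - x 2 := by linarith
  have e2 : y 3 = 4 - y 0 - y 1 - y 2 := by linarith
  have c0 : sm (x * y) = 1 + (u1 x * u1 y + (u2 x * u2 y + u3 x * u3 y)) := by
    simp only [sm4, u1, u2, u3, Pi.mul_apply, e1, e2]; ring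
  have c1 : u1 (x * y) = u1 x + (u1 y + (u2 x * u3 y + u3 x * u2 y)) := by
    simp only [u1, u2, u3, Pi.mul_apply, e1, e2]; ring
  have c2 : u2 (x * y) = u2 x + (u2 y + (u1 x * u3 y + u3 x * u1 y)) := by
    simp only [u1, u2, u3, Pi.mul_apply, e1, e2]; ring
  have c3 : u3 (x * y) = u3 x + (u3 y + (u1 x * u2 y + u2 x * u1 y)) := by
    simp only [u1, u2, u3, Pi.mul_apply, e1, e2]; ring
  simp only [st4a, st4b, sqE, E.ev, List.map_cons, List.map_nil, List.getD_cons_zero,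
    List.getD_cons_succ, cm4_two, cm4_three, c0, c1, c2, c3, List.cons.injEq, and_true]
  refine ⟨?_, ?_, ?_, ?_⟩ <;> push_cast <;> ring

theorem id4_sound {n : ℕ} {k1 : ℤ} {P M : List (List ℤ)} {prs : List (List ℤ × List ℤ)}
    {fe : List E} (h : id4 n k1 P M prs fe = true) {x y : Vec 4} (hx : Nrm x) (hy : Nrm y) :
    k1 * (L4.map (fun σ : Equiv.Perm (Fin 4) => polZ P (x * (y ∘ σ)))).sum =
      24 * (bilN n n M (FE fe (rho4 x)) (FE fe (rho4 y)) +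
        pairsR n prs (FE fe (rho4 x)) (FE fe (rho4 y))) := by
  simp only [id4, Bool.and_eq_true, Nat.beq_eq] at h
  obtain ⟨⟨⟨⟨⟨⟨⟨⟨h1, h2⟩, h3⟩, h4⟩, h5⟩, h6⟩, h7⟩, h8⟩, h9⟩ := h
  have rep : ∀ v : Vec 4, Nrm v → Rep (pt (u1 x) (u2 x) (u3 x) (u1 v) (u2 v) (u3 v)) (15, 15)
      (p4 n k1 P M prs fe) (k1 * polZ P (x * v) +
        ((-1 : ℤ) : ℝ) * (bilN n n M (FE fe (rho4 x)) (FE fe (rho4 v)) +
          pairsR n prs (FE fe (rho4 x)) (FE fe (rho4 v)))) := by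
    intro v hv
    have r0 : RepL (pt (u1 x) (u2 x) (u3 x) (u1 v) (u2 v) (u3 v)) ds0 env0
      [u1 x, u2 x, u3 x, u1 v, u2 v, u3 v] := repL0 _
    have rb := (r0.map st4a (by rfl)).map st4b (by rfl)
    rw [merge4 hx hv] at rb
    have rU := r0.map stU (by rfl)
    have eU : stU.map (E.ev [u1 x, u2 x, u3 x, u1 v, u2 v, u3 v]) = [1, u1 x, u2 x, u3 x] := by
      simp [stU, E.ev]
    rw [eU] at rU
    have rU' := rU.map inv4 (by rfl)
    rw [inv4_ev] at rU'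
    have rV := r0.map stV (by rfl)
    have eV : stV.map (E.ev [u1 x, u2 x, u3 x, u1 v, u2 v, u3 v]) = [1, u1 v, u2 v, u3 v] := by
      simp [stV, E.ev]
    rw [eV] at rV
    have rV' := rV.map inv4 (by rfl)
    rw [inv4_ev] at rV'
    exact ((fin2 k1 (-1)).rep' (ds := [_, _]) (env := [_, _]) (ρ := [_, _])
      ⟨rb.pol P h3 h4, rep_rhs h1 rU' rV' h2 h2 h5 h6 h7, trivial⟩ h8).to15 h8
  have hb : ∀ t ∈ p4 n k1 P M prs fe, dB t.1 ≤ 15 := fun t ht => ((rep y hy).1 t ht).2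
  have z := sum24_eq_zero hb h9 (u1 x) (u2 x) (u3 x) (u1 y) (u2 y) (u3 y)
  rw [← sumL4, List.map_congr_left (fun σ _ => (rep _ (nrm_perm hy σ)).2)] at z
  simp only [rho4_perm, List.sum_map_add, List.sum_map_mul_left, List.map_const', List.sum_replicate,
    show L4.length = 24 from rfl] at z
  push_cast at z
  simp only [nsmul_eq_mul] at z
  push_cast at z
  linarith

end Crest.Agent.R163.PE
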