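import Crest.Agent.R163.Ex

/-! Row 163: the less-noisy order, and elementary moment inequalities. -/

set_option autoImplicit false

namespace Crest.Agent.R163

open Crest.ProbabilityR.Broadcast

universe u v w

variable {q : ℕ}

/-! ### pointwise facts -/

theorem Ft_nonneg {h ν : Vec q} (ht : Test h ν) {x : Vec q} (hx : NN x) : 0 ≤ Ft h ν x := by
  exact div_nonneg (sq_nonneg _)
    (Finset.sum_nonneg fun i _ => mul_nonneg ((abs_nonneg _).trans (ht i)) (hx i))

/-- variational lower bound (no positivity of the denominator needed) -/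
theorem Ft_ge {h ν : Vec q} (ht : Test h ν) {x : Vec q} (hx : NN x) (t : ℝ) :
    2 * t * (∑ i, h i * x i) - t ^ 2 * (∑ i, ν i * x i) ≤ Ft h ν x := by
  have hab : |∑ i, h i * x i| ≤ ∑ i, ν i * x i := by
    refine (Finset.abs_sum_le_sum_abs _ _).trans (Finset.sum_le_sum fun i _ => ?_)
    rw [abs_mul, abs_of_nonneg (hx i)]
    exact mul_le_mul_of_nonneg_right (ht i) (hx i)
  unfold Ft
  generalize (∑ i, h i * x i) = H at *
  generalize (∑ i, ν i * x i) = N at *
  rcases ((abs_nonneg H).trans hab).eq_or_lt with hN | hN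
  · subst hN
    have : H = 0 := abs_eq_zero.1 (le_antisymm hab (abs_nonneg _))
    simp [this]
  · rw [le_div_iff₀ hN]
    nlinarith [sq_nonneg (H - t * N)]

theorem sq_div_eq (H N : ℝ) : H ^ 2 / N = 2 * (H / N) * H - (H / N) ^ 2 * N := by
  rcases eq_or_ne N 0 with rfl | hN
  · simp
  · field_simp
    ring

theorem Ft_add_le {h ν : Vec q} (ht : Test h ν) {x y : Vec q} (hx : NN x) (hy : NN y) :
    Ft h ν (x + y) ≤ Ft h ν x + Ft h ν y := by
  have h1 := Ft_ge ht hx ((∑ i, h i * (x + y) i) / ∑ i, ν i * (x + y) i)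
  have h2 := Ft_ge ht hy ((∑ i, h i * (x + y) i) / ∑ i, ν i * (x + y) i)
  have e1 : ∑ i, h i * (x + y) i = ∑ i, h i * x i + ∑ i, h i * y i := by
    simp only [Pi.add_apply, mul_add, Finset.sum_add_distrib]
  have e2 : ∑ i, ν i * (x + y) i = ∑ i, ν i * x i + ∑ i, ν i * y i := by
    simp only [Pi.add_apply, mul_add, Finset.sum_add_distrib]
  have h3 := sq_div_eq (∑ i, h i * (x + y) i) (∑ i, ν i * (x + y) i)
  unfold Ft at *
  rw [h3]
  generalize ((∑ i, h i * (x + y) i) / ∑ i, ν i * (x + y) i) = t at *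
  rw [e1, e2]
  linarith

theorem Test.tilt {h ν a : Vec q} (ht : Test h ν) (ha : NN a) : Test (h * a) (ν * a) := by
  intro i
  rw [Pi.mul_apply, Pi.mul_apply, abs_mul, abs_of_nonneg (ha i)]
  exact mul_le_mul_of_nonneg_right (ht i) (ha i)

theorem Ft_tilt (h ν a x : Vec q) : Ft h ν (x * a) = Ft (h * a) (ν * a) x := by
  unfold Ft
  simp only [Pi.mul_apply]
  congr 1
  · congr 1
    exact Finset.sum_congr rfl fun i _ => by ring
  · exact Finset.sum_congr rfl fun i _ => by ring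

theorem Ft_tilt' (h ν a x : Vec q) : Ft h ν (a * x) = Ft (h * a) (ν * a) x := by
  rw [mul_comm a x, Ft_tilt]

theorem channel_nonneg' {lam : ℝ} (hl : ChanOK q lam) (i j : Fin q) : 0 ≤ channel q lam i j := by
  unfold channel
  split_ifs
  · exact hl.2.2
  · rw [zero_add]
    exact div_nonneg (sub_nonneg.2 hl.2.1) (Nat.cast_nonneg _)

theorem Test.chan {h ν : Vec q} (ht : Test h ν) {lam : ℝ} (hl : ChanOK q lam) :
    Test (Kv lam h) (Kv lam ν) := by
  intro i
  refine (Finset.abs_sum_le_sum_abs _ _).trans (Finset.sum_le_sum fun j _ => ?_)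
  rw [abs_mul, abs_of_nonneg (channel_nonneg' hl i j)]
  exact mul_le_mul_of_nonneg_left (ht j) (channel_nonneg' hl i j)

theorem sum_mul_Kv (lam : ℝ) (h x : Vec q) :
    ∑ i, h i * Kv lam x i = ∑ i, Kv lam h i * x i := by
  simp only [Kv, Finset.mul_sum, Finset.sum_mul]
  rw [Finset.sum_comm]
  refine Finset.sum_congr rfl fun i _ => Finset.sum_congr rfl fun j _ => ?_
  have : channel q lam j i = channel q lam i j := by
    unfold channel
    simp only [eq_comm]
  rw [this]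
  ring

theorem Ft_chan (h ν x : Vec q) (lam : ℝ) :
    Ft h ν (Kv lam x) = Ft (Kv lam h) (Kv lam ν) x := by
  unfold Ft
  rw [sum_mul_Kv, sum_mul_Kv]

theorem Kv_Kv (hq : 0 < q) (a b : ℝ) (x : Vec q) : Kv a (Kv b x) = Kv (a * b) x := by
  funext i
  rw [Kv_apply, Kv_apply, Kv_apply, sm_Kv hq]
  ring

theorem cm_Kv (hq : 0 < q) (k : ℕ) (lam : ℝ) (x : Vec q) :
    cm k (Kv lam x) = lam ^ k * cm k x := by
  unfold cm
  rw [sm_Kv hq, ← mul_div_assoc, Finset.mul_sum]
  congr 1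
  refine Finset.sum_congr rfl fun i _ => ?_
  rw [Kv_apply, ← mul_pow]
  congr 1
  ring

theorem sm_nonneg' {x : Vec q} (hx : NN x) : 0 ≤ sm x :=
  div_nonneg (Finset.sum_nonneg fun i _ => hx i) (Nat.cast_nonneg _)

theorem cm_two_nonneg (x : Vec q) : 0 ≤ cm 2 x :=
  div_nonneg (Finset.sum_nonneg fun _ _ => sq_nonneg _) (Nat.cast_nonneg _)

theorem sum_eq_mul_sm (x : Vec q) : ∑ i, x i = q * sm x := by
  rcases Nat.eq_zero_or_pos q with rfl | hq
  · simp
  · have : (q : ℝ) ≠ 0 := by positivity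
    unfold sm
    field_simp

theorem le_mul_sm {x : Vec q} (hx : NN x) (i : Fin q) : x i ≤ q * sm x := by
  rw [← sum_eq_mul_sm]
  exact Finset.single_le_sum (fun j _ => hx j) (Finset.mem_univ i)

theorem cm_two_eq (x : Vec q) : cm 2 x = (∑ i, x i ^ 2) / q - sm x ^ 2 := by
  rcases Nat.eq_zero_or_pos q with rfl | hq
  · simp [cm, sm]
  · have hq' : (q : ℝ) ≠ 0 := by positivity
    have e : ∑ i, (x i - sm x) ^ 2 = ∑ i, x i ^ 2 - 2 * sm x * ∑ i, x i + q * sm x ^ 2 := by
      rw [Finset.mul_sum, ← Finset.sum_sub_distrib]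
      have : (q : ℝ) * sm x ^ 2 = ∑ _i : Fin q, sm x ^ 2 := by simp
      rw [this, ← Finset.sum_add_distrib]
      exact Finset.sum_congr rfl fun i _ => by ring
    unfold cm
    rw [e, sum_eq_mul_sm x]
    field_simp
    ring

theorem TVh_eq (x : Vec q) : TVh x = (∑ i, |x i - sm x|) / q / 2 := by
  unfold TVh sm
  simp only [one_div_mul_eq_div]
  rw [div_div, mul_comm (q : ℝ) 2]

theorem Xh_nonneg {x : Vec q} (hx : NN x) : 0 ≤ Xh x := by
  exact div_nonneg (cm_two_nonneg x) (sm_nonneg' hx)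

theorem Xh_le {x : Vec q} (hx : NN x) : Xh x ≤ ((q : ℝ) - 1) * sm x := by
  rcases (sm_nonneg' hx).eq_or_lt with h | h
  · simp [Xh, ← h]
  · unfold Xh
    rw [div_le_iff₀ h, cm_two_eq]
    have h1 : ∑ i, x i ^ 2 ≤ (∑ i, x i) * (q * sm x) := by
      rw [Finset.sum_mul]
      exact Finset.sum_le_sum fun i _ => by
        rw [sq]; exact mul_le_mul_of_nonneg_left (le_mul_sm hx i) (hx i)
    rw [sum_eq_mul_sm x] at h1
    have h2 : (∑ i, x i ^ 2) / q ≤ q * sm x ^ 2 :=
      div_le_of_le_mul₀ (Nat.cast_nonneg _) (by positivity) (by nlinarith)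
    nlinarith

theorem Yh_le {x : Vec q} (hx : NN x) : Yh x ≤ ((q : ℝ) - 1) * Xh x := by
  rcases (sm_nonneg' hx).eq_or_lt with h | h
  · simp [Xh, Yh, ← h]
  · have h1 : cm 3 x ≤ ((q : ℝ) - 1) * sm x * cm 2 x := by
      unfold cm
      rw [← mul_div_assoc, Finset.mul_sum]
      refine div_le_div_of_nonneg_right (Finset.sum_le_sum fun i _ => ?_) (Nat.cast_nonneg _)
      have := le_mul_sm hx i
      nlinarith [sq_nonneg (x i - sm x)]
    unfold Xh Yh
    rw [div_le_iff₀ (by positivity)]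
    refine h1.trans (le_of_eq ?_)
    field_simp

theorem neg_Xh_le_Yh {x : Vec q} (hx : NN x) : -Xh x ≤ Yh x := by
  rcases (sm_nonneg' hx).eq_or_lt with h | h
  · simp [Xh, Yh, ← h]
  · have h1 : -sm x * cm 2 x ≤ cm 3 x := by
      unfold cm
      rw [← mul_div_assoc, Finset.mul_sum]
      refine div_le_div_of_nonneg_right (Finset.sum_le_sum fun i _ => ?_) (Nat.cast_nonneg _)
      have := hx i
      nlinarith [sq_nonneg (x i - sm x)]
    unfold Xh Yh
    rw [le_div_iff₀ (by positivity)]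
    refine le_trans (le_of_eq ?_) h1
    field_simp

theorem XXh_ge {x : Vec q} (hx : NN x) (t : ℝ) : 2 * t * Xh x - t ^ 2 * sm x ≤ XXh x := by
  rcases (sm_nonneg' hx).eq_or_lt with h | h
  · simp [Xh, XXh, ← h]
  · have e : XXh x = Xh x ^ 2 / sm x := by
      unfold XXh Xh
      field_simp
    rw [e, le_div_iff₀ h]
    nlinarith [sq_nonneg (Xh x - t * sm x)]

theorem TVh_nonneg (x : Vec q) : 0 ≤ TVh x := by
  rw [TVh_eq]
  positivity

theorem TVh_le {x : Vec q} (hx : NN x) {t : ℝ} (ht : 0 < t) :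
    TVh x ≤ (t * Xh x + sm x / t) / 4 := by
  rcases (sm_nonneg' hx).eq_or_lt with h | h
  · have h0 : ∀ i, x i = 0 := fun i =>
      le_antisymm (by simpa [← h] using le_mul_sm hx i) (hx i)
    simp [TVh_eq, Xh, ← h, h0]
  · have hq : (0 : ℝ) < q := by
      rcases Nat.eq_zero_or_pos q with rfl | hq
      · simp [sm] at h
      · positivity
    have h1 : ∑ i, |x i - sm x| ≤ ∑ i, (t / sm x * (x i - sm x) ^ 2 + sm x / t) / 2 := by
      refine Finset.sum_le_sum fun i _ => ?_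
      rw [← sq_abs (x i - sm x)]
      generalize |x i - sm x| = y
      have e : (t / sm x * y ^ 2 + sm x / t) / 2 - y = (t * y - sm x) ^ 2 / (2 * t * sm x) := by
        field_simp
        ring
      have : 0 ≤ (t * y - sm x) ^ 2 / (2 * t * sm x) := by positivity
      linarith
    rw [← Finset.sum_div, Finset.sum_add_distrib, ← Finset.mul_sum] at h1
    simp only [Finset.sum_const, Finset.card_univ, Fintype.card_fin, nsmul_eq_mul] at h1
    rw [TVh_eq]
    unfold Xh cm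
    have h2 := div_le_div_of_nonneg_right h1 hq.le
    refine le_trans (div_le_div_of_nonneg_right h2 zero_le_two) (le_of_eq ?_)
    field_simp
    ring

theorem Xh_le_TVh {x : Vec q} (hq : 2 ≤ q) (hx : NN x) :
    Xh x ≤ 2 * ((q : ℝ) - 1) * TVh x := by
  have hq' : (2 : ℝ) ≤ q := by exact_mod_cast hq
  rcases (sm_nonneg' hx).eq_or_lt with h | h
  · have := TVh_nonneg x
    simp only [Xh, ← h, div_zero]
    exact mul_nonneg (by linarith) this
  · have h1 : cm 2 x ≤ ((q : ℝ) - 1) * sm x * ((∑ i, |x i - sm x|) / q) := by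
      unfold cm
      rw [← mul_div_assoc, Finset.mul_sum]
      refine div_le_div_of_nonneg_right (Finset.sum_le_sum fun i _ => ?_) (Nat.cast_nonneg _)
      have h2 : |x i - sm x| ≤ ((q : ℝ) - 1) * sm x := by
        rw [abs_le]
        constructor
        · nlinarith [hx i]
        · linarith [le_mul_sm hx i]
      rw [← sq_abs, sq]
      exact mul_le_mul_of_nonneg_right h2 (abs_nonneg _)
    unfold Xh
    rw [div_le_iff₀ h, TVh_eq]
    refine h1.trans (le_of_eq ?_)
    ring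

/-! ### moments of experiments -/

theorem Ex.x_nonneg (P : Ex.{u} q) : 0 ≤ P.x := by
  exact P.E_nonneg fun _ hx => Xh_nonneg hx

theorem Ex.x_le (P : Ex.{u} q) (hq : 0 < q) : P.x ≤ (q : ℝ) - 1 := by
  have := P.E_mono good_Xh.1 (good_sm.const_mul ((q : ℝ) - 1)).1 fun _ hx => Xh_le hx
  rwa [P.E_const_mul, P.E_sm hq, mul_one] at this

theorem Ex.y_le (P : Ex.{u} q) : P.y ≤ ((q : ℝ) - 1) * P.x := by
  have := P.E_mono good_Yh.1 (good_Xh.const_mul ((q : ℝ) - 1)).1 fun _ hx => Yh_le hx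
  rwa [P.E_const_mul] at this

theorem Ex.sq_x_le (P : Ex.{u} q) (hq : 0 < q) : P.x ^ 2 ≤ P.E XXh := by
  have := P.E_mono ((good_Xh.const_mul (2 * P.x)).sub (good_sm.const_mul (P.x ^ 2))).1
    good_XXh.1 fun _ hx => XXh_ge hx P.x
  rw [P.E_sub (good_Xh.const_mul _).1 (good_sm.const_mul _).1, P.E_const_mul, P.E_const_mul,
    P.E_sm hq] at this
  change 2 * P.x * P.x - _ ≤ _ at this
  linarith

theorem x_chan (P : Ex.{u} q) {lam : ℝ} (h : ChanOK q lam) :
    (P.chan lam h).x = lam ^ 2 * P.x := by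
  unfold Ex.x
  rw [E_chan, ← P.E_const_mul]
  refine P.E_congr fun x _ => ?_
  unfold Xh
  rw [cm_Kv h.1, sm_Kv h.1, mul_div_assoc]

theorem y_chan (P : Ex.{u} q) {lam : ℝ} (h : ChanOK q lam) :
    (P.chan lam h).y = lam ^ 3 * P.y := by
  unfold Ex.y
  rw [E_chan, ← P.E_const_mul]
  refine P.E_congr fun x _ => ?_
  unfold Yh
  rw [cm_Kv h.1, sm_Kv h.1, mul_div_assoc]

theorem cm_one {k : ℕ} (hk : k ≠ 0) : cm k (1 : Vec q) = 0 := by
  rcases Nat.eq_zero_or_pos q with rfl | hq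
  · simp [cm]
  · have : (q : ℝ) ≠ 0 := by positivity
    simp [cm, sm, this, hk]

theorem sm_vtx (hq : 0 < q) (j : Fin q) : sm (vtx j) = 1 := by
  have : (q : ℝ) ≠ 0 := by positivity
  simp [sm, vtx, this]

theorem cm_vtx (hq : 0 < q) (k : ℕ) (j : Fin q) :
    cm k (vtx j) = (((q : ℝ) - 1) ^ k + ((q : ℝ) - 1) * (-1) ^ k) / q := by
  unfold cm
  rw [sm_vtx hq]
  congr 1
  have e : ∀ i, (vtx j i - 1) ^ k =
      (if j = i then ((q : ℝ) - 1) ^ k - (-1) ^ k else 0) + (-1) ^ k := by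
    intro i
    unfold vtx
    split_ifs <;> simp
  simp only [e, Finset.sum_add_distrib, Finset.sum_ite_eq, Finset.mem_univ, if_true,
    Finset.sum_const, Finset.card_univ, Fintype.card_fin, nsmul_eq_mul]
  ring

theorem x_null : (null.{u} q).x = 0 := by
  unfold Ex.x
  rw [E_null, Xh, cm_one two_ne_zero, zero_div]

theorem y_null : (null.{u} q).y = 0 := by
  unfold Ex.y
  rw [E_null, Yh, cm_one three_ne_zero, zero_div]

theorem x_full (hq : 0 < q) : (full q).x = (q : ℝ) - 1 := by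
  have : (q : ℝ) ≠ 0 := by positivity
  unfold Ex.x
  rw [E_full good_Xh]
  simp only [Xh, sm_vtx hq, cm_vtx hq, Finset.sum_const, Finset.card_univ, Fintype.card_fin,
    nsmul_eq_mul]
  field_simp
  ring

theorem y_full (hq : 0 < q) : (full q).y = ((q : ℝ) - 1) * ((q : ℝ) - 2) := by
  have : (q : ℝ) ≠ 0 := by positivity
  unfold Ex.y
  rw [E_full good_Yh]
  simp only [Yh, sm_vtx hq, cm_vtx hq, Finset.sum_const, Finset.card_univ, Fintype.card_fin,
    nsmul_eq_mul]
  field_simp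
  ring

theorem Eqv.x {P : Ex.{u} q} {Q : Ex.{v} q} (h : Eqv P Q) : P.x = Q.x := h _ good_Xh

theorem Eqv.y {P : Ex.{u} q} {Q : Ex.{v} q} (h : Eqv P Q) : P.y = Q.y := h _ good_Yh

theorem Ex.x_le_TV (P : Ex.{u} q) (hq : 2 ≤ q) : P.x ≤ 2 * ((q : ℝ) - 1) * P.E TVh := by
  have := P.E_mono good_Xh.1 (good_TVh.const_mul (2 * ((q : ℝ) - 1))).1
    fun _ hx => Xh_le_TVh hq hx
  rwa [P.E_const_mul] at this

theorem Ex.TV_sq_le (P : Ex.{u} q) (hq : 0 < q) : 4 * P.E TVh ^ 2 ≤ P.x := by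
  have hT : 0 ≤ P.E TVh := P.E_nonneg fun x _ => TVh_nonneg x
  rcases hT.eq_or_lt with h | h
  · rw [← h]
    simpa using P.x_nonneg
  · set T := P.E TVh with hTdef
    have ht : 0 < 1 / (2 * T) := by positivity
    have := P.E_mono good_TVh.1
      ((good_Xh.const_mul (1 / (2 * T) / 4)).add (good_sm.const_mul (2 * T / 4))).1
      fun x hx => (TVh_le hx ht).trans (le_of_eq (by field_simp))
    rw [P.E_add (good_Xh.const_mul _).1 (good_sm.const_mul _).1, P.E_const_mul, P.E_const_mul,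
      P.E_sm hq, ← hTdef] at this
    change T ≤ 1 / (2 * T) / 4 * P.x + _ at this
    have h2 : T / 2 ≤ P.x / (8 * T) := by
      have e : 1 / (2 * T) / 4 * P.x = P.x / (8 * T) := by field_simp; ring
      linarith
    rw [le_div_iff₀ (by positivity)] at h2
    nlinarith

theorem tendsto_TV (hq : 0 < q) (P : ℕ → Ex.{u} q)
    (h : Filter.Tendsto (fun n => (P n).x) Filter.atTop (nhds 0)) :
    Filter.Tendsto (fun n => (P n).E TVh) Filter.atTop (nhds 0) := by
  have h1 := (Real.continuous_sqrt.tendsto 0).comp h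
  rw [Real.sqrt_zero] at h1
  refine squeeze_zero (fun n => (P n).E_nonneg fun x _ => TVh_nonneg x) (fun n => ?_) h1
  refine Real.le_sqrt_of_sq_le ?_
  nlinarith [(P n).TV_sq_le hq, sq_nonneg ((P n).E TVh)]

/-! ### the order -/

theorem Ln.refl (P : Ex.{u} q) : Ln P P := fun _ _ _ => le_rfl

theorem Ln.trans {P : Ex.{u} q} {Q : Ex.{v} q} {R : Ex.{w} q} (h : Ln P Q) (h' : Ln Q R) :
    Ln P R := fun a b c => (h a b c).trans (h' a b c)

theorem Eqv.ln {P : Ex.{u} q} {Q : Ex.{v} q} (h : Eqv P Q) : Ln P Q :=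
  fun _ _ ht => (h _ (good_Ft ht)).le

/-- universe lift of an experiment -/
def Ex.lift (P : Ex.{u} q) : Ex.{max u v} q where
  Ω := ULift.{v} P.Ω
  p := fun ω => P.p ω.down
  nonneg := fun ω => P.nonneg ω.down
  sum_one := fun i => (Equiv.ulift.hasSum_iff (f := fun ω => P.p ω i)).2 (P.sum_one i)

theorem E_lift (P : Ex.{u} q) (F : Vec q → ℝ) : (Ex.lift.{u, v} P).E F = P.E F :=
  Equiv.ulift.tsum_eq (fun ω => F (P.p ω))

theorem E_swap (P : Ex.{u} q) (Q : Ex.{v} q) {F : Vec q → ℝ} (hF : Lin F) :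
    P.E (fun x => Q.E fun y => F (x * y)) = Q.E (fun y => P.E fun x => F (x * y)) := by
  have h1 := E_merge (Ex.lift.{u, v} P) (Ex.lift.{v, u} Q) hF
  have h2 := E_merge' (Ex.lift.{u, v} P) (Ex.lift.{v, u} Q) hF
  simp only [E_lift] at h1 h2
  rw [← h1, h2]

theorem Ln.merge {P Q : Ex.{u} q} {P' Q' : Ex.{v} q} (hP : Ln P P') (hQ : Ln Q Q') :
    Ln (P.merge Q) (P'.merge Q') := by
  intro h ν ht
  have hF := good_Ft ht
  rw [E_merge' P Q hF.1, E_merge P' Q' hF.1]
  calc Q.E (fun y => P.E fun x => Ft h ν (x * y))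
      ≤ Q.E (fun y => P'.E fun x => Ft h ν (x * y)) := by
        refine Q.E_mono (hF.inner' P).1 (hF.inner' P').1 fun y hy => ?_
        simp only [Ft_tilt]
        exact hP _ _ (ht.tilt hy)
    _ = P'.E (fun x => Q.E fun y => Ft h ν (x * y)) := (E_swap P' Q hF.1).symm
    _ ≤ P'.E (fun x => Q'.E fun y => Ft h ν (x * y)) := by
        refine P'.E_mono (hF.inner Q).1 (hF.inner Q').1 fun x hx => ?_
        simp only [Ft_tilt']
        exact hQ _ _ (ht.tilt hx)

theorem Ln.chan {P : Ex.{u} q} {Q : Ex.{v} q} (h : Ln P Q) {lam : ℝ} (hl : ChanOK q lam) :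
    Ln (P.chan lam hl) (Q.chan lam hl) := by
  intro a ν ht
  rw [E_chan, E_chan]
  simp only [Ft_chan]
  exact h _ _ (ht.chan hl)

theorem ln_null (P : Ex.{u} q) : Ln (null.{v} q) P := by
  intro h ν ht
  rw [E_null]
  have g : ∀ a : Vec q, Good fun x : Vec q => ∑ i, a i * x i := fun a =>
    Good.sum _ fun i _ => (good_coord i).const_mul (a i)
  have e : ∀ a : Vec q, P.E (fun x : Vec q => ∑ i, a i * x i) = ∑ i, a i * (1 : Vec q) i := by
    intro a
    rw [P.E_sum _ fun i _ => ((good_coord i).const_mul (a i)).1]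
    refine Finset.sum_congr rfl fun i _ => ?_
    rw [P.E_const_mul, P.E_coord, Pi.one_apply]
  set t := (∑ i, h i * (1 : Vec q) i) / ∑ i, ν i * (1 : Vec q) i with htdef
  have := P.E_mono (((g h).const_mul (2 * t)).sub ((g ν).const_mul (t ^ 2))).1 (good_Ft ht).1
    fun x hx => Ft_ge ht hx t
  rw [P.E_sub ((g h).const_mul _).1 ((g ν).const_mul _).1, P.E_const_mul, P.E_const_mul,
    e, e] at this
  rw [Ft, sq_div_eq]
  exact this

theorem ln_merge_self (P Q : Ex.{u} q) : Ln P (P.merge Q) := by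
  intro h ν ht
  have hF := good_Ft ht
  rw [E_merge P Q hF.1]
  refine P.E_mono hF.1 (hF.inner Q).1 fun x hx => ?_
  have := ln_null.{u, u} Q _ _ (ht.tilt hx)
  rw [E_null, ← Ft_tilt', mul_one] at this
  simpa only [Ft_tilt'] using this

theorem E_Kv_le (P : Ex.{u} q) (hq : 0 < q) {h ν : Vec q} (ht : Test h ν) {mu : ℝ}
    (h0 : 0 ≤ mu) (h1 : mu ≤ 1) : P.E (fun x => Ft h ν (Kv mu x)) ≤ P.E (Ft h ν) := by
  have hF := good_Ft ht
  have hl : ChanOK q mu := ⟨hq, h1, add_nonneg h0 (div_nonneg (sub_nonneg.2 h1) (Nat.cast_nonneg _))⟩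
  have h2 := P.E_mono (hF.chan hl).1
    ((hF.const_mul mu).add (good_sm.const_mul ((1 - mu) * Ft h ν 1))).1 fun x hx => by
      have e : Kv mu x = mu • x + ((1 - mu) * sm x) • (1 : Vec q) := by
        funext i
        simp [Kv_apply]
      have hs : 0 ≤ (1 - mu) * sm x := mul_nonneg (sub_nonneg.2 h1) (sm_nonneg' hx)
      have h1' : NN (1 : Vec q) := fun _ => zero_le_one
      have h3 := Ft_add_le ht (x := mu • x) (y := ((1 - mu) * sm x) • (1 : Vec q))
        (fun i => mul_nonneg h0 (hx i)) (fun i => mul_nonneg hs (h1' i))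
      rw [hF.2 _ _ h0 hx, hF.2 _ _ hs h1', ← e] at h3
      linarith
  rw [P.E_add (hF.const_mul _).1 (good_sm.const_mul _).1, P.E_const_mul, P.E_const_mul,
    P.E_sm hq] at h2
  have h3 := ln_null.{u, u} P h ν ht
  rw [E_null] at h3
  nlinarith

/-- a noisier channel gives a smaller experiment -/
theorem ln_chan_mul (P : Ex.{u} q) {lam mu : ℝ} (hl : ChanOK q lam) (h0 : 0 ≤ mu) (h1 : mu ≤ 1)
    (hl' : ChanOK q (lam * mu)) : Ln (P.chan (lam * mu) hl') (P.chan lam hl) := by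
  intro h ν ht
  rw [E_chan, E_chan]
  simp only [← Kv_Kv hl.1 lam mu, Ft_chan h ν]
  exact E_Kv_le P hl.1 (ht.chan hl) h0 h1

theorem ln_chan_self (P : Ex.{u} q) {mu : ℝ} (h0 : 0 ≤ mu) (hl : ChanOK q mu) :
    Ln (P.chan mu hl) P := by
  intro h ν ht
  rw [E_chan]
  exact E_Kv_le P hl.1 ht h0 hl.2.1

theorem Ln.pow {P : Ex.{u} q} {Q : Ex.{v} q} (h : Ln P Q) {m n : ℕ} (hmn : m ≤ n) :
    Ln (P.pow m) (Q.pow n) := by
  have h1 : ∀ k, Ln (P.pow k) (Q.pow k) := by
    intro k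
    induction k with
    | zero => exact (pow_zero_eqv P).ln.trans (ln_null _)
    | succ k ih =>
      exact (pow_succ_eqv P k).ln.trans ((ih.merge h).trans (pow_succ_eqv Q k).symm.ln)
  refine (h1 m).trans ?_
  induction n, hmn using Nat.le_induction with
  | base => exact Ln.refl _
  | succ n _ ih => exact ih.trans ((ln_merge_self _ Q).trans (pow_succ_eqv Q n).symm.ln)

theorem Ln.pois {P : Ex.{u} q} {Q : Ex.{v} q} (h : Ln P Q) {d d' : ℝ} (hd : 0 ≤ d)
    (hdd : d ≤ d') : Ln (P.pois d hd) (Q.pois d' (hd.trans hdd)) := by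
  intro a ν ht
  have hF := good_Ft ht
  have hA := hasSum_pois P hd hF
  have hB₀ := hasSum_pois Q hd hF
  have hB := hasSum_pois Q (hd.trans hdd) hF
  refine le_trans (hasSum_le (fun n => ?_) hA hB₀) ?_
  · exact mul_le_mul_of_nonneg_left (h.pow le_rfl a ν ht) (pw_nonneg hd n)
  have hs : ∀ e : ℝ, HasSum (fun n => pw e n) 1 := fun e => by simpa using hasSum_pw e 1
  have hex : ∃ n, pw d n ≤ pw d' n := by
    by_contra hcon
    push Not at hcon
    exact lt_irrefl _ (hasSum_lt (fun n => (hcon n).le) (hcon 0) (hs d') (hs d))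
  classical
  set n₀ := Nat.find hex with hn₀
  have hge : ∀ n, n₀ ≤ n → pw d n ≤ pw d' n := by
    intro n hn
    induction n, hn using Nat.le_induction with
    | base => exact Nat.find_spec hex
    | succ n _ ih =>
      have e : ∀ c : ℝ, pw c (n + 1) = pw c n * (c / (n + 1)) := fun c => by
        unfold pw
        rw [Nat.factorial_succ]
        push_cast
        field_simp
        ring
      rw [e, e]
      exact mul_le_mul ih (div_le_div_of_nonneg_right hdd (by positivity)) (by positivity)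
        (pw_nonneg (hd.trans hdd) n)
  have hmono : ∀ m n, m ≤ n → (Q.pow m).E (Ft a ν) ≤ (Q.pow n).E (Ft a ν) :=
    fun m n hmn => (Ln.refl Q).pow hmn a ν ht
  have h1 := (hB.sub hB₀).sub (((hs d').sub (hs d)).mul_right ((Q.pow n₀).E (Ft a ν)))
  have h2 := h1.nonneg fun n => by
    rcases le_or_gt n₀ n with hn | hn
    · nlinarith [mul_nonneg (sub_nonneg.2 (hge n hn)) (sub_nonneg.2 (hmono _ _ hn))]
    · have := (not_le.1 (Nat.find_min hex hn)).le
      nlinarith [mul_nonneg (sub_nonneg.2 this) (sub_nonneg.2 (hmono _ _ hn.le))]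
  linarith

theorem Ln.x {P : Ex.{u} q} {Q : Ex.{v} q} (h : Ln P Q) : P.x ≤ Q.x := by
  rcases Nat.eq_zero_or_pos q with rfl | hq
  · have : (Xh : Vec 0 → ℝ) = fun _ => 0 := by
      funext x
      simp [Xh, sm]
    simp [Ex.x, Ex.E, this]
  have ht : ∀ i : Fin q, Test (Pi.single i (1 : ℝ) : Vec q) 1 := by
    intro i j
    by_cases hij : j = i <;> simp [hij]
  have hq' : (q : ℝ) ≠ 0 := by positivity
  have e : (Xh : Vec q → ℝ) = fun x => (∑ i, Ft (Pi.single i (1 : ℝ) : Vec q) 1 x) - sm x := by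
    funext x
    have e1 : ∀ i, Ft (Pi.single i (1 : ℝ) : Vec q) 1 x = x i ^ 2 / (q * sm x) := by
      intro i
      rw [← sum_eq_mul_sm]
      simp [Ft, Pi.single_apply]
    simp only [e1]
    rw [← Finset.sum_div, Xh, cm_two_eq]
    rcases eq_or_ne (sm x) 0 with h0 | h0
    · simp [h0]
    · field_simp
  have g : Good fun x : Vec q => ∑ i, Ft (Pi.single i (1 : ℝ) : Vec q) 1 x :=
    Good.sum _ fun i _ => good_Ft (ht i)
  unfold Ex.x
  rw [e, P.E_sub g.1 good_sm.1, Q.E_sub g.1 good_sm.1, P.E_sm hq, Q.E_sm hq,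
    P.E_sum _ fun i _ => (good_Ft (ht i)).1, Q.E_sum _ fun i _ => (good_Ft (ht i)).1]
  exact sub_le_sub_right (Finset.sum_le_sum fun i _ => h _ _ (ht i)) 1

end Crest.Agent.R163
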