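import Crest.Agent.R163.AFDefs

/-! Row 163: local analysis of the two-dimensional system near the origin. -/

set_option autoImplicit false

namespace Crest.Agent.R163

/-- Bonferroni-type bounds -/
structure Bonf (ε : ℝ) (f : ℝ → ℝ) : Prop where
  lower : ∀ s, 0 ≤ s → s ≤ 1 → 1 - s + (1 - ε) * s ^ 2 / 2 - s ^ 3 / 6 ≤ f s
  upper : ∀ s, 0 ≤ s → s ≤ 1 → f s ≤ 1 - s + (1 - ε) * s ^ 2 / 2
  neg : ∀ s, 0 ≤ s → s ≤ 1 → f (-s) ≤ 1 + s + s ^ 2

theorem pow_bonf_upper {x : ℝ} (h0 : 0 ≤ x) (h1 : x ≤ 1) (n : ℕ) :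
    (1 - x) ^ n ≤ 1 - n * x + n * (n - 1) / 2 * x ^ 2 := by
  induction n with
  | zero => simp
  | succ n ih =>
    have hn : (0 : ℝ) ≤ n * (n - 1) := by
      rcases Nat.eq_zero_or_pos n with h | h
      · simp [h]
      · have : (1 : ℝ) ≤ n := by exact_mod_cast h
        exact mul_nonneg (by linarith) (by linarith)
    have h2 := mul_le_mul_of_nonneg_right ih (sub_nonneg.2 h1)
    have h3 : 0 ≤ (n : ℝ) * (n - 1) * x ^ 3 := mul_nonneg hn (pow_nonneg h0 3)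
    rw [pow_succ (1 - x)]
    push_cast
    nlinarith

theorem pow_bonf_lower {x : ℝ} (h0 : 0 ≤ x) (h1 : x ≤ 1) (n : ℕ) :
    1 - n * x + n * (n - 1) / 2 * x ^ 2 - n * (n - 1) * (n - 2) / 6 * x ^ 3 ≤ (1 - x) ^ n := by
  induction n with
  | zero => simp
  | succ n ih =>
    have hn : (0 : ℝ) ≤ n * (n - 1) * (n - 2) := by
      rcases n with _ | _ | n
      · simp
      · simp
      · push_cast
        have : (0 : ℝ) ≤ n := Nat.cast_nonneg n
        exact mul_nonneg (mul_nonneg (by linarith) (by linarith)) (by linarith)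
    have h2 := mul_le_mul_of_nonneg_right ih (sub_nonneg.2 h1)
    have h3 : 0 ≤ (n : ℝ) * (n - 1) * (n - 2) * x ^ 4 := mul_nonneg hn (pow_nonneg h0 4)
    rw [pow_succ (1 - x)]
    push_cast
    nlinarith

theorem exp_le_quad {s : ℝ} (h0 : 0 ≤ s) (h1 : s ≤ 1) : Real.exp s ≤ 1 + s + s ^ 2 := by
  have h := Real.exp_bound' h0 h1 (n := 2) (by norm_num)
  simp [Finset.sum_range_succ, Nat.factorial] at h
  nlinarith [sq_nonneg s]

theorem fReg_le_exp {d : ℕ} (hd : 1 ≤ d) (s : ℝ) : fReg d s ≤ Real.exp (-s) := by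
  have hd' : (0 : ℝ) < d := by exact_mod_cast hd
  have h1 : max 0 (1 - s / d) ≤ Real.exp (-(s / d)) := by
    refine max_le (Real.exp_pos _).le ?_
    have := Real.add_one_le_exp (-(s / d))
    linarith
  have h2 : Real.exp (-s) = Real.exp (-(s / d)) ^ d := by
    rw [← Real.exp_nat_mul]
    congr 1
    field_simp
  rw [h2]
  exact pow_le_pow_left₀ (le_max_left _ _) h1 d

theorem bonf_reg {d : ℕ} (hd : 1 ≤ d) : Bonf (1 / d) (fReg d) := by
  have hd' : (1 : ℝ) ≤ d := by exact_mod_cast hd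
  have hd0 : (0 : ℝ) < d := by linarith
  have key : ∀ s : ℝ, 0 ≤ s → s ≤ 1 → 0 ≤ s / d ∧ s / d ≤ 1 ∧ fReg d s = (1 - s / d) ^ d := by
    intro s h0 h1
    have h2 : s / d ≤ 1 := by rw [div_le_one hd0]; linarith
    refine ⟨by positivity, h2, ?_⟩
    unfold fReg
    rw [max_eq_right (by linarith)]
  refine ⟨fun s h0 h1 => ?_, fun s h0 h1 => ?_, fun s h0 h1 => ?_⟩
  · obtain ⟨a, b, c⟩ := key s h0 h1
    rw [c]
    refine le_trans ?_ (pow_bonf_lower a b d)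
    have e1 : (d : ℝ) * (s / d) = s := by field_simp
    have e2 : (d : ℝ) * (d - 1) / 2 * (s / d) ^ 2 = (1 - 1 / d) * s ^ 2 / 2 := by field_simp
    have e3 : (d : ℝ) * (d - 1) * (d - 2) / 6 * (s / d) ^ 3 ≤ s ^ 3 / 6 := by
      have : s ^ 3 / 6 = (d : ℝ) ^ 3 / 6 * (s / d) ^ 3 := by field_simp
      rw [this]
      refine mul_le_mul_of_nonneg_right ?_ (pow_nonneg a 3)
      nlinarith
    rw [e1, e2]
    linarith
  · obtain ⟨a, b, c⟩ := key s h0 h1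
    rw [c]
    refine le_trans (pow_bonf_upper a b d) ?_
    have e1 : (d : ℝ) * (s / d) = s := by field_simp
    have e2 : (d : ℝ) * (d - 1) / 2 * (s / d) ^ 2 = (1 - 1 / d) * s ^ 2 / 2 := by field_simp
    rw [e1, e2]
  · refine le_trans (fReg_le_exp hd _) ?_
    rw [neg_neg]
    exact exp_le_quad h0 h1

theorem exp_neg_le_quad {s : ℝ} (h0 : 0 ≤ s) : Real.exp (-s) ≤ 1 - s + s ^ 2 / 2 := by
  have h := Real.quadratic_le_exp_of_nonneg h0
  have hp : 0 < 1 + s + s ^ 2 / 2 := by positivity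
  rw [Real.exp_neg, inv_le_iff_one_le_mul₀ (Real.exp_pos s)]
  have h2 : 0 ≤ 1 - s + s ^ 2 / 2 := by nlinarith [sq_nonneg (s - 1)]
  have h3 := mul_le_mul_of_nonneg_left h h2
  nlinarith [pow_nonneg h0 4]

theorem bonf_poi : Bonf 0 fPoi := by
  refine ⟨fun s h0 h1 => ?_, fun s h0 h1 => ?_, fun s h0 h1 => ?_⟩
  · unfold fPoi
    have h := Real.exp_bound' h0 h1 (n := 4) (by norm_num)
    simp [Finset.sum_range_succ, Nat.factorial] at h
    rw [Real.exp_neg, ← one_div, le_div_iff₀ (Real.exp_pos s)]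
    have h2 : 0 ≤ 1 - s + (1 - 0) * s ^ 2 / 2 - s ^ 3 / 6 := by
      nlinarith [mul_nonneg (sq_nonneg s) (sub_nonneg.2 h1), sq_nonneg s]
    have h3 := mul_le_mul_of_nonneg_left h h2
    have h4 : 0 ≤ s ^ 4 := pow_nonneg h0 4
    have h5 : 0 ≤ s ^ 5 * (1 - s) := mul_nonneg (pow_nonneg h0 5) (sub_nonneg.2 h1)
    have h6 : 0 ≤ s ^ 5 := pow_nonneg h0 5
    have h7 : 0 ≤ s ^ 6 := pow_nonneg h0 6
    have h8 : 0 ≤ s ^ 7 := pow_nonneg h0 7
    nlinarith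
  · unfold fPoi
    have := exp_neg_le_quad h0
    linarith
  · unfold fPoi
    rw [neg_neg]
    exact exp_le_quad h0 h1

/-- curvature of the invariant curve -/
noncomputable def cc (l ε : ℝ) : ℝ := 5 / 4 * (1 - ε) / (1 + l)
noncomputable def curT (c r : ℝ) : ℝ := 3 / 2 * r - c * r ^ 2
noncomputable def curV (c r : ℝ) : ℝ := (r + 2 * c * r ^ 2) / 6

theorem Bonf.lo' {ε : ℝ} {f : ℝ → ℝ} (hf : Bonf ε f) {r x s : ℝ} (hr0 : 0 ≤ r) (hr : r ≤ 1 / 20)
    (hx0 : 0 ≤ x) (hx : x ≤ 20) (hs : s = r * x) :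
    1 - r * x + (1 - ε) * r ^ 2 * x ^ 2 / 2 - r ^ 3 * x ^ 3 / 6 ≤ f s := by
  have := hf.lower (r * x) (mul_nonneg hr0 hx0) (by nlinarith)
  rw [hs]
  linarith [this]

theorem Bonf.up' {ε : ℝ} {f : ℝ → ℝ} (hf : Bonf ε f) {r x s : ℝ} (hr0 : 0 ≤ r) (hr : r ≤ 1 / 20)
    (hx0 : 0 ≤ x) (hx : x ≤ 20) (hs : s = r * x) :
    f s ≤ 1 - r * x + (1 - ε) * r ^ 2 * x ^ 2 / 2 := by
  have := hf.upper (r * x) (mul_nonneg hr0 hx0) (by nlinarith)
  rw [hs]
  linarith [this]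

theorem Bonf.ng' {ε : ℝ} {f : ℝ → ℝ} (hf : Bonf ε f) {r x s : ℝ} (hr0 : 0 ≤ r) (hr : r ≤ 1 / 20)
    (hx0 : 0 ≤ x) (hx : x ≤ 20) (hs : s = -(r * x)) :
    f s ≤ 1 + r * x + r ^ 2 * x ^ 2 := by
  have := hf.neg (r * x) (mul_nonneg hr0 hx0) (by nlinarith)
  rw [hs]
  linarith [this]

theorem lowT_eq (f : ℝ → ℝ) (a b : ℝ) : low termsT f a b =
    170916763 / 1572864000 * f (a + b / 2) + 59244619 / 78643200 * f (a + b / 8) +
      31 / 250 * f (a + b / 16) + 7 / 500 * f a - 1 / 4194304 * f (a - b) := by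
  simp only [low, termsT, List.map_cons, List.map_nil, List.sum_cons, List.sum_nil]
  push_cast
  have e1 : 1 * a + 1 / 2 * b = a + b / 2 := by ring
  have e2 : 1 * a + 1 / 8 * b = a + b / 8 := by ring
  have e3 : 1 * a + 1 / 16 * b = a + b / 16 := by ring
  have e4 : 1 * a + 0 * b = a := by ring
  have e5 : 1 * a + -1 * b = a - b := by ring
  rw [e1, e2, e3, e4, e5]
  ring

theorem lowV_eq (f : ℝ → ℝ) (a b : ℝ) : low termsV f a b =
    112321954 / 2359296000 * f (a / 2 + b / 2) + 305170634 / 589824000 * f (a / 2 + b / 8) +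
      1251 / 1000 * f (a / 2 + b / 16) + 23 / 125 * f (a / 2) - 1 / 1048576 * f (a / 2 - b) -
      43273519 / 589824000 * f (a + b / 2) - 103754651 / 147456000 * f (a + b / 8) -
      69 / 400 * f (a + b / 16) - 101 / 2000 * f a - 1 / 524288 * f (a - b) := by
  simp only [low, termsV, List.map_cons, List.map_nil, List.sum_cons, List.sum_nil]
  push_cast
  have e1 : 1 * a + 1 / 2 * b = a + b / 2 := by ring
  have e2 : 1 * a + 1 / 8 * b = a + b / 8 := by ring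
  have e3 : 1 * a + 1 / 16 * b = a + b / 16 := by ring
  have e4 : 1 * a + 0 * b = a := by ring
  have e5 : 1 * a + -1 * b = a - b := by ring
  have e6 : 1 / 2 * a + 1 / 2 * b = a / 2 + b / 2 := by ring
  have e7 : 1 / 2 * a + 1 / 8 * b = a / 2 + b / 8 := by ring
  have e8 : 1 / 2 * a + 1 / 16 * b = a / 2 + b / 16 := by ring
  have e9 : 1 / 2 * a + 0 * b = a / 2 := by ring
  have e10 : 1 / 2 * a + -1 * b = a / 2 - b := by ring
  rw [e1, e2, e3, e4, e5, e6, e7, e8, e9, e10]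
  ring

theorem local_lowT {ε : ℝ} {f : ℝ → ℝ} (hf : Bonf ε f) {r w a b : ℝ} (hr0 : 0 ≤ r)
    (hr : r ≤ 1 / 20) (hw0 : 0 ≤ w) (hw : w ≤ 1 / 48) (hε : ε ≤ 1 / 4)
    (ha : a = 2 / 3 * r * (1 + 4 * w)) (hb : b = 16 / 3 * r * (1 - 2 * w)) :
    1 - low termsT f a b ≤
      3 / 2 * r + r * w - (1 - ε) * r ^ 2 * (26768 / 20000) + r ^ 2 * (496 / 10000) := by
  rw [lowT_eq]
  have h1 := hf.lo' (x := 10 / 3 - 8 / 3 * w) (s := a + b / 2) hr0 hr (by linarith) (by linarith)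
    (by rw [ha, hb]; ring)
  have h2 := hf.lo' (x := 4 / 3 + 4 / 3 * w) (s := a + b / 8) hr0 hr (by linarith) (by linarith)
    (by rw [ha, hb]; ring)
  have h3 := hf.lo' (x := 1 + 2 * w) (s := a + b / 16) hr0 hr (by linarith) (by linarith)
    (by rw [ha, hb]; ring)
  have h4 := hf.lo' (x := 2 / 3 + 8 / 3 * w) (s := a) hr0 hr (by linarith) (by linarith)
    (by rw [ha]; ring)
  have h5 := hf.ng' (x := 14 / 3 - 40 / 3 * w) (s := a - b) hr0 hr (by linarith) (by linarith)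
    (by rw [ha, hb]; ring)
  have hA : 26768 / 10000 ≤ 170916763 / 1572864000 * (10 / 3 - 8 / 3 * w) ^ 2 +
      59244619 / 78643200 * (4 / 3 + 4 / 3 * w) ^ 2 + 31 / 250 * (1 + 2 * w) ^ 2 +
      7 / 500 * (2 / 3 + 8 / 3 * w) ^ 2 := by
    nlinarith [sq_nonneg w]
  have hB : 170916763 / 1572864000 * (10 / 3 - 8 / 3 * w) ^ 3 +
      59244619 / 78643200 * (4 / 3 + 4 / 3 * w) ^ 3 + 31 / 250 * (1 + 2 * w) ^ 3 +
      7 / 500 * (2 / 3 + 8 / 3 * w) ^ 3 ≤ 594 / 100 := by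
    have e1 : 0 ≤ w * (1 / 48 - w) := mul_nonneg hw0 (by linarith)
    have e2 : 0 ≤ w * (w * (1 / 48 - w)) := mul_nonneg hw0 e1
    nlinarith
  have hN : 1 / 4194304 * (14 / 3 - 40 / 3 * w) ^ 2 ≤ 1 / 10000 := by
    have e1 : 0 ≤ w * (1 / 48 - w) := mul_nonneg hw0 (by linarith)
    nlinarith
  have hk : 0 ≤ (1 - ε) * r ^ 2 := mul_nonneg (by linarith) (sq_nonneg r)
  have hA' := mul_le_mul_of_nonneg_left hA hk
  have hB' := mul_le_mul_of_nonneg_left hB (pow_nonneg hr0 3)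
  have hN' := mul_le_mul_of_nonneg_left hN (sq_nonneg r)
  have hr3 : r ^ 2 * r ≤ r ^ 2 * (1 / 20) := mul_le_mul_of_nonneg_left hr (sq_nonneg r)
  linarith

theorem local_lowV {ε : ℝ} {f : ℝ → ℝ} (hf : Bonf ε f) {r w a b : ℝ} (hr0 : 0 ≤ r)
    (hr : r ≤ 1 / 20) (hw0 : 0 ≤ w) (hw : w ≤ 1 / 48) (hε : ε ≤ 1 / 4)
    (ha : a = 2 / 3 * r * (1 + 4 * w)) (hb : b = 16 / 3 * r * (1 - 2 * w)) :
    1 - low termsV f a b ≤
      1 / 6 * r - r * w / 3 + (1 - ε) * r ^ 2 * (7796 / 20000) + r ^ 2 * (1827 / 100000) := by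
  rw [lowV_eq]
  have h1 := hf.up' (x := 10 / 3 - 8 / 3 * w) (s := a + b / 2) hr0 hr (by linarith) (by linarith)
    (by rw [ha, hb]; ring)
  have h2 := hf.up' (x := 4 / 3 + 4 / 3 * w) (s := a + b / 8) hr0 hr (by linarith) (by linarith)
    (by rw [ha, hb]; ring)
  have h3 := hf.up' (x := 1 + 2 * w) (s := a + b / 16) hr0 hr (by linarith) (by linarith)
    (by rw [ha, hb]; ring)
  have h4 := hf.up' (x := 2 / 3 + 8 / 3 * w) (s := a) hr0 hr (by linarith) (by linarith)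
    (by rw [ha]; ring)
  have h5 := hf.ng' (x := 14 / 3 - 40 / 3 * w) (s := a - b) hr0 hr (by linarith) (by linarith)
    (by rw [ha, hb]; ring)
  have h6 := hf.lo' (x := 3 - 4 * w) (s := a / 2 + b / 2) hr0 hr (by linarith) (by linarith)
    (by rw [ha, hb]; ring)
  have h7 := hf.lo' (x := 1) (s := a / 2 + b / 8) hr0 hr (by linarith) (by linarith)
    (by rw [ha, hb]; ring)
  have h8 := hf.lo' (x := 2 / 3 + 2 / 3 * w) (s := a / 2 + b / 16) hr0 hr (by linarith)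
    (by linarith) (by rw [ha, hb]; ring)
  have h9 := hf.lo' (x := 1 / 3 + 4 / 3 * w) (s := a / 2) hr0 hr (by linarith) (by linarith)
    (by rw [ha]; ring)
  have h10 := hf.ng' (x := 5 - 12 * w) (s := a / 2 - b) hr0 hr (by linarith) (by linarith)
    (by rw [ha, hb]; ring)
  have e1 : 0 ≤ w * (1 / 48 - w) := mul_nonneg hw0 (by linarith)
  have e2 : 0 ≤ w * (w * (1 / 48 - w)) := mul_nonneg hw0 e1
  have hA : -(7796 / 10000) ≤ 112321954 / 2359296000 * (3 - 4 * w) ^ 2 +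
      305170634 / 589824000 * (1 : ℝ) ^ 2 + 1251 / 1000 * (2 / 3 + 2 / 3 * w) ^ 2 +
      23 / 125 * (1 / 3 + 4 / 3 * w) ^ 2 - 43273519 / 589824000 * (10 / 3 - 8 / 3 * w) ^ 2 -
      103754651 / 147456000 * (4 / 3 + 4 / 3 * w) ^ 2 - 69 / 400 * (1 + 2 * w) ^ 2 -
      101 / 2000 * (2 / 3 + 8 / 3 * w) ^ 2 := by
    linarith only [e1, hw, hw0]
  have hB : 112321954 / 2359296000 * (3 - 4 * w) ^ 3 +
      305170634 / 589824000 * (1 : ℝ) ^ 3 + 1251 / 1000 * (2 / 3 + 2 / 3 * w) ^ 3 +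
      23 / 125 * (1 / 3 + 4 / 3 * w) ^ 3 ≤ 21804 / 10000 := by
    have e3 : 0 ≤ w ^ 3 := pow_nonneg hw0 3
    linarith only [e1, e3, hw, hw0]
  have hN : 1 / 1048576 * (5 - 12 * w) ^ 2 + 1 / 524288 * (14 / 3 - 40 / 3 * w) ^ 2 ≤
      1 / 10000 := by
    linarith only [e1, hw, hw0]
  have hk : 0 ≤ (1 - ε) * r ^ 2 := mul_nonneg (by linarith) (sq_nonneg r)
  have hA' := mul_le_mul_of_nonneg_left hA hk
  have hB' := mul_le_mul_of_nonneg_left hB (pow_nonneg hr0 3)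
  have hN' := mul_le_mul_of_nonneg_left hN (sq_nonneg r)
  have hr3 : r ^ 2 * r ≤ r ^ 2 * (1 / 20) := mul_le_mul_of_nonneg_left hr (sq_nonneg r)
  linarith

theorem local_step {l ε : ℝ} {f : ℝ → ℝ} {D : ℕ → ℝ → ℝ → Prop} (hS : Sys l f D)
    (hf : Bonf ε f) (hl0 : 0 ≤ l) (hl : l ≤ 1 / 2) (hε0 : 0 ≤ ε) (hε : ε ≤ 1 / 4) {n : ℕ} {r : ℝ}
    (hr0 : 0 ≤ r) (hr : r ≤ 1 / 20) (h : D n (curT (cc l ε) r) (curV (cc l ε) r)) :
    D (n + 1) (curT (cc l ε) (r - r ^ 2 / 1000)) (curV (cc l ε) (r - r ^ 2 / 1000)) := by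
  obtain ⟨c, hc⟩ : ∃ c, c = cc l ε := ⟨_, rfl⟩
  rw [← hc] at h ⊢
  have hl1 : (0 : ℝ) < 1 + l := by linarith
  have hcl : c * (1 + l) = 5 / 4 * (1 - ε) := by
    rw [hc, cc]; field_simp
  have hc0 : 0 ≤ c := by
    rw [hc, cc]
    exact div_nonneg (by linarith) hl1.le
  have hlc : 0 ≤ l * c := mul_nonneg hl0 hc0
  have hc1 : c ≤ 5 / 4 := by nlinarith
  have hm : l * c ≤ 5 / 12 := by
    have : l * c ≤ 1 / 2 * c := mul_le_mul_of_nonneg_right hl hc0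
    nlinarith
  have hw0 : 0 ≤ l * c * r := mul_nonneg hlc hr0
  have hw : l * c * r ≤ 1 / 48 := by
    have := mul_le_mul hm hr hr0 (by norm_num)
    linarith
  have hcr : c * r ≤ 1 / 16 := by
    have := mul_le_mul hc1 hr hr0 (by norm_num)
    linarith
  have hcr2 : c * r * r ≤ 1 / 16 * r := mul_le_mul_of_nonneg_right hcr hr0
  have hcr0 : 0 ≤ c * r ^ 2 := mul_nonneg hc0 (sq_nonneg r)
  have ha : muE l (curT c r) (curV c r) = 2 / 3 * r * (1 + 4 * (l * c * r)) := by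
    unfold muE curT curV; ring
  have hb : muG l (curT c r) (curV c r) = 16 / 3 * r * (1 - 2 * (l * c * r)) := by
    unfold muG curT curV; ring
  have hT := local_lowT hf hr0 hr hw0 hw hε ha hb
  have hV := local_lowV hf hr0 hr hw0 hw hε ha hb
  have hk : (1 - ε) * r ^ 2 = 4 / 5 * (c * r ^ 2 + l * c * r ^ 2) := by
    have : 1 - ε = 4 / 5 * (c * (1 + l)) := by linarith
    rw [this]; ring
  have hk2 : 15 / 16 * r ^ 2 ≤ c * r ^ 2 + l * c * r ^ 2 := by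
    have : 15 / 16 ≤ c + l * c := by linarith
    nlinarith [mul_le_mul_of_nonneg_right this (sq_nonneg r)]
  have hr2 : 0 ≤ r ^ 2 := sq_nonneg r
  have hq1 : c * (r - r ^ 2 / 1000) ^ 2 ≤ c * r ^ 2 := by
    refine mul_le_mul_of_nonneg_left ?_ hc0
    have : 0 ≤ r - r ^ 2 / 1000 := by nlinarith
    exact pow_le_pow_left₀ this (by linarith) 2
  have hq2 : c * r ^ 2 - 1 / 8000 * r ^ 2 ≤ c * (r - r ^ 2 / 1000) ^ 2 := by
    have e1 : c * r * r ^ 2 ≤ 1 / 16 * r ^ 2 := mul_le_mul_of_nonneg_right hcr hr2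
    have e2 : 0 ≤ c * r ^ 4 := mul_nonneg hc0 (pow_nonneg hr0 4)
    linarith
  refine hS.step n _ _ _ _ ?_ ?_ ?_ h (Or.inl ?_) (Or.inl ?_)
  · unfold curV; positivity
  · unfold curT curV; linarith
  · unfold curT; linarith
  · refine le_trans hT ?_
    rw [hk]
    unfold curT
    linarith
  · refine le_trans hV ?_
    rw [hk]
    unfold curV
    linarith

/-- the radius sequence -/
noncomputable def rseq : ℕ → ℝ
  | 0 => 1 / 20
  | n + 1 => rseq n - rseq n ^ 2 / 1000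

theorem rseq_mem (n : ℕ) : 0 ≤ rseq n ∧ rseq n ≤ 1 / 20 ∧ rseq n * (n + 20000) ≤ 1000 := by
  induction n with
  | zero => simp only [rseq]; norm_num
  | succ n ih =>
    obtain ⟨h0, h1, h2⟩ := ih
    simp only [rseq]
    have hn : (0 : ℝ) ≤ n := Nat.cast_nonneg n
    refine ⟨by nlinarith, by nlinarith, ?_⟩
    push_cast
    obtain ⟨x, hx⟩ : ∃ x, x = rseq n := ⟨_, rfl⟩
    rw [← hx] at h0 h1 h2 ⊢
    obtain ⟨N, hN⟩ : ∃ N : ℝ, N = n + 20000 := ⟨_, rfl⟩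
    have hN' : (n : ℝ) + 1 + 20000 = N + 1 := by rw [hN]; ring
    rw [hN']
    rw [← hN] at h2
    have hN2 : 20000 ≤ N := by linarith
    -- g(x) = x - x²/1000 is increasing, so compare with x = 1000 / N
    have hNp : 0 < N := by linarith
    have key : (x - x ^ 2 / 1000) * (N + 1) * N ^ 2 ≤ 1000 * N ^ 2 := by
      obtain ⟨y, hy⟩ : ∃ y, y = x * N := ⟨_, rfl⟩
      have hy0 : 0 ≤ y := by rw [hy]; positivity
      have hy1 : y ≤ 1000 := by rw [hy]; exact h2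
      have e : (x - x ^ 2 / 1000) * (N + 1) * N ^ 2 = (y * N - y ^ 2 / 1000) * (N + 1) := by
        rw [hy]; ring
      rw [e]
      have e2 : y * N - y ^ 2 / 1000 ≤ 1000 * N - 1000 := by
        nlinarith [mul_nonneg (sub_nonneg.2 hy1) (show 0 ≤ N - (1000 + y) / 1000 by linarith)]
      have e3 := mul_le_mul_of_nonneg_right e2 (show 0 ≤ N + 1 by linarith)
      linarith
    exact le_of_mul_le_mul_right key (by positivity)

theorem local_dies {l ε : ℝ} {f : ℝ → ℝ} {D : ℕ → ℝ → ℝ → Prop} (hS : Sys l f D)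
    (hf : Bonf ε f) (hl0 : 0 ≤ l) (hl : l ≤ 1 / 2) (hε0 : 0 ≤ ε) (hε : ε ≤ 1 / 4) {n : ℕ}
    (h : D n (curT (cc l ε) (1 / 20)) (curV (cc l ε) (1 / 20))) : Dies D := by
  have hall : ∀ k, D (n + k) (curT (cc l ε) (rseq k)) (curV (cc l ε) (rseq k)) := by
    intro k
    induction k with
    | zero => exact h
    | succ k ih =>
      exact local_step hS hf hl0 hl hε0 hε (rseq_mem k).1 (rseq_mem k).2.1 ih
  have hl1 : (0 : ℝ) < 1 + l := by linarith
  have hc0 : 0 ≤ cc l ε := div_nonneg (by linarith) hl1.le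
  have hc1 : cc l ε ≤ 5 / 4 := by
    unfold cc
    rw [div_le_iff₀ hl1]
    nlinarith
  intro η hη
  obtain ⟨K, hK⟩ := exists_nat_ge (2000 / η)
  refine ⟨n + K, fun m hm => ?_⟩
  obtain ⟨k, rfl⟩ : ∃ k, m = n + k := ⟨m - n, by omega⟩
  have hk : (K : ℝ) ≤ k := by exact_mod_cast (by omega : K ≤ k)
  obtain ⟨h0, h1, h2⟩ := rseq_mem k
  have hr : 2 * rseq k ≤ η := by
    rw [div_le_iff₀ hη] at hK
    by_contra hcon
    push Not at hcon
    have e1 : η * (k + 20000) < 2 * rseq k * (k + 20000) :=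
      mul_lt_mul_of_pos_right hcon (by positivity)
    have e2 : (K : ℝ) * η ≤ k * η := mul_le_mul_of_nonneg_right hk hη.le
    nlinarith
  have e0 : 0 ≤ cc l ε * rseq k ^ 2 := mul_nonneg hc0 (sq_nonneg _)
  have e1 : cc l ε * rseq k ≤ 1 / 16 := by
    have := mul_le_mul hc1 h1 h0 (by norm_num)
    linarith
  have e2 : cc l ε * rseq k * rseq k ≤ 1 / 16 * rseq k := mul_le_mul_of_nonneg_right e1 h0
  refine hS.mono _ _ _ _ _ (hall k) ?_ ?_
  · unfold curT; linarith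
  · unfold curV; linarith

end Crest.Agent.R163
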