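import Crest.Agent.R163.CapLower

/-! Row 163: the lower certificate for `q = 4`. -/

set_option autoImplicit false

namespace Crest.Agent.R163

/-- all permutations of four letters -/
def lc4L : List (Equiv.Perm (Fin 4)) :=
  [⟨![0, 1, 2, 3], ![0, 1, 2, 3], by decide, by decide⟩,
   ⟨![0, 1, 3, 2], ![0, 1, 3, 2], by decide, by decide⟩,
   ⟨![0, 2, 1, 3], ![0, 2, 1, 3], by decide, by decide⟩,
   ⟨![0, 2, 3, 1], ![0, 3, 1, 2], by decide, by decide⟩,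
   ⟨![0, 3, 1, 2], ![0, 2, 3, 1], by decide, by decide⟩,
   ⟨![0, 3, 2, 1], ![0, 3, 2, 1], by decide, by decide⟩,
   ⟨![1, 0, 2, 3], ![1, 0, 2, 3], by decide, by decide⟩,
   ⟨![1, 0, 3, 2], ![1, 0, 3, 2], by decide, by decide⟩,
   ⟨![1, 2, 0, 3], ![2, 0, 1, 3], by decide, by decide⟩,
   ⟨![1, 2, 3, 0], ![3, 0, 1, 2], by decide, by decide⟩,
   ⟨![1, 3, 0, 2], ![2, 0, 3, 1], by decide, by decide⟩,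
   ⟨![1, 3, 2, 0], ![3, 0, 2, 1], by decide, by decide⟩,
   ⟨![2, 0, 1, 3], ![1, 2, 0, 3], by decide, by decide⟩,
   ⟨![2, 0, 3, 1], ![1, 3, 0, 2], by decide, by decide⟩,
   ⟨![2, 1, 0, 3], ![2, 1, 0, 3], by decide, by decide⟩,
   ⟨![2, 1, 3, 0], ![3, 1, 0, 2], by decide, by decide⟩,
   ⟨![2, 3, 0, 1], ![2, 3, 0, 1], by decide, by decide⟩,
   ⟨![2, 3, 1, 0], ![3, 2, 0, 1], by decide, by decide⟩,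
   ⟨![3, 0, 1, 2], ![1, 2, 3, 0], by decide, by decide⟩,
   ⟨![3, 0, 2, 1], ![1, 3, 2, 0], by decide, by decide⟩,
   ⟨![3, 1, 0, 2], ![2, 1, 3, 0], by decide, by decide⟩,
   ⟨![3, 1, 2, 0], ![3, 1, 2, 0], by decide, by decide⟩,
   ⟨![3, 2, 0, 1], ![2, 3, 1, 0], by decide, by decide⟩,
   ⟨![3, 2, 1, 0], ![3, 2, 1, 0], by decide, by decide⟩]

/-- average over all permutations of the arguments -/
noncomputable def lc4A (F : ℝ → ℝ → ℝ → ℝ → ℝ) (y0 y1 y2 y3 : ℝ) : ℝ :=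
  (F y0 y1 y2 y3 +
      (F y0 y1 y3 y2 +
      (F y0 y2 y1 y3 +
      (F y0 y2 y3 y1 +
      (F y0 y3 y1 y2 +
      (F y0 y3 y2 y1 +
      (F y1 y0 y2 y3 +
      (F y1 y0 y3 y2 +
      (F y1 y2 y0 y3 +
      (F y1 y2 y3 y0 +
      (F y1 y3 y0 y2 +
      (F y1 y3 y2 y0 +
      (F y2 y0 y1 y3 +
      (F y2 y0 y3 y1 +
      (F y2 y1 y0 y3 +
      (F y2 y1 y3 y0 +
      (F y2 y3 y0 y1 +
      (F y2 y3 y1 y0 +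
      (F y3 y0 y1 y2 +
      (F y3 y0 y2 y1 +
      (F y3 y1 y0 y2 +
      (F y3 y1 y2 y0 +
      (F y3 y2 y0 y1 +
      (F y3 y2 y1 y0 + 0)))))))))))))))))))))))) / 24

theorem lc4_pavg (F : ℝ → ℝ → ℝ → ℝ → ℝ) (y : Vec 4) :
    pavg lc4L (fun σ => F (y (σ 0)) (y (σ 1)) (y (σ 2)) (y (σ 3))) =
      lc4A F (y 0) (y 1) (y 2) (y 3) := by
  have h : ((lc4L.length : ℕ) : ℝ) = 24 := by
    rw [show lc4L.length = 24 from rfl]; norm_num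
  rw [pavg, h]
  rfl

theorem lc4_mono {f g : Equiv.Perm (Fin 4) → ℝ} (h : ∀ σ, f σ ≤ g σ) :
    pavg lc4L f ≤ pavg lc4L g :=
  div_le_div_of_nonneg_right (List.sum_le_sum fun σ _ => h σ) (Nat.cast_nonneg _)

noncomputable def lc4s (z0 z1 z2 z3 : ℝ) : ℝ := (z0 + z1 + z2 + z3) / 4

noncomputable def lc4c (k : ℕ) (z0 z1 z2 z3 : ℝ) : ℝ :=
  ((z0 - lc4s z0 z1 z2 z3) ^ k + (z1 - lc4s z0 z1 z2 z3) ^ k + (z2 - lc4s z0 z1 z2 z3) ^ k +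
    (z3 - lc4s z0 z1 z2 z3) ^ k) / 4

noncomputable def lc4m (k : ℕ) (a0 a1 a2 : ℝ) : ℝ :=
  (a0 ^ k + a1 ^ k + a2 ^ k + (-a0 - a1 - a2) ^ k) / 4

theorem lc4_sm (z : Vec 4) : sm z = lc4s (z 0) (z 1) (z 2) (z 3) := by
  simp only [sm, lc4s, Fin.sum_univ_four, Nat.cast_ofNat]

theorem lc4_cm (k : ℕ) (z : Vec 4) : cm k z = lc4c k (z 0) (z 1) (z 2) (z 3) := by
  simp only [cm, lc4c, lc4_sm, Fin.sum_univ_four, Nat.cast_ofNat]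

noncomputable def lc4M1 (x0 x1 x2 x3 : ℝ) : ℝ :=
  x0 + x1 + x2 + x3

noncomputable def lc4M2 (x0 x1 x2 x3 : ℝ) : ℝ :=
  x0 ^ 2 + x1 ^ 2 + x2 ^ 2 + x3 ^ 2

noncomputable def lc4M11 (x0 x1 x2 x3 : ℝ) : ℝ :=
  x0 * x1 + x0 * x2 + x0 * x3 + x1 * x2 + x1 * x3 + x2 * x3

noncomputable def lc4M3 (x0 x1 x2 x3 : ℝ) : ℝ :=
  x0 ^ 3 + x1 ^ 3 + x2 ^ 3 + x3 ^ 3

noncomputable def lc4M21 (x0 x1 x2 x3 : ℝ) : ℝ :=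
  x0 ^ 2 * x1 + x0 ^ 2 * x2 + x0 ^ 2 * x3 + x0 * x1 ^ 2 + x0 * x2 ^ 2 + x0 * x3 ^ 2 + x1 ^ 2 * x2 + x1 ^ 2 * x3 + x1 * x2 ^ 2 + x1 * x3 ^ 2 + x2 ^ 2 * x3 + x2 * x3 ^ 2

noncomputable def lc4M111 (x0 x1 x2 x3 : ℝ) : ℝ :=
  x0 * x1 * x2 + x0 * x1 * x3 + x0 * x2 * x3 + x1 * x2 * x3

noncomputable def lc4M4 (x0 x1 x2 x3 : ℝ) : ℝ :=
  x0 ^ 4 + x1 ^ 4 + x2 ^ 4 + x3 ^ 4

noncomputable def lc4M31 (x0 x1 x2 x3 : ℝ) : ℝ :=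
  x0 ^ 3 * x1 + x0 ^ 3 * x2 + x0 ^ 3 * x3 + x0 * x1 ^ 3 + x0 * x2 ^ 3 + x0 * x3 ^ 3 + x1 ^ 3 * x2 + x1 ^ 3 * x3 + x1 * x2 ^ 3 + x1 * x3 ^ 3 + x2 ^ 3 * x3 + x2 * x3 ^ 3

noncomputable def lc4M22 (x0 x1 x2 x3 : ℝ) : ℝ :=
  x0 ^ 2 * x1 ^ 2 + x0 ^ 2 * x2 ^ 2 + x0 ^ 2 * x3 ^ 2 + x1 ^ 2 * x2 ^ 2 + x1 ^ 2 * x3 ^ 2 + x2 ^ 2 * x3 ^ 2

noncomputable def lc4M211 (x0 x1 x2 x3 : ℝ) : ℝ :=
  x0 ^ 2 * x1 * x2 + x0 ^ 2 * x1 * x3 + x0 ^ 2 * x2 * x3 + x0 * x1 ^ 2 * x2 + x0 * x1 ^ 2 * x3 + x0 * x1 * x2 ^ 2 + x0 * x1 * x3 ^ 2 + x0 * x2 ^ 2 * x3 + x0 * x2 * x3 ^ 2 + x1 ^ 2 * x2 * x3 + x1 * x2 ^ 2 * x3 + x1 * x2 * x3 ^ 2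

noncomputable def lc4M1111 (x0 x1 x2 x3 : ℝ) : ℝ :=
  x0 * x1 * x2 * x3

theorem lc4M1_eq (a0 a1 a2 : ℝ) : lc4M1 (1 + a0) (1 + a1) (1 + a2) (1 - a0 - a1 - a2) =
    (4) := by
  simp only [lc4M1, lc4m]
  ring

theorem lc4M2_eq (a0 a1 a2 : ℝ) : lc4M2 (1 + a0) (1 + a1) (1 + a2) (1 - a0 - a1 - a2) =
    (4) + (4) * lc4m 2 a0 a1 a2 := by
  simp only [lc4M2, lc4m]
  ring

theorem lc4M11_eq (a0 a1 a2 : ℝ) : lc4M11 (1 + a0) (1 + a1) (1 + a2) (1 - a0 - a1 - a2) =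
    (6) + (-2) * lc4m 2 a0 a1 a2 := by
  simp only [lc4M11, lc4m]
  ring

theorem lc4M3_eq (a0 a1 a2 : ℝ) : lc4M3 (1 + a0) (1 + a1) (1 + a2) (1 - a0 - a1 - a2) =
    (4) + (12) * lc4m 2 a0 a1 a2 + (4) * lc4m 3 a0 a1 a2 := by
  simp only [lc4M3, lc4m]
  ring

theorem lc4M21_eq (a0 a1 a2 : ℝ) : lc4M21 (1 + a0) (1 + a1) (1 + a2) (1 - a0 - a1 - a2) =
    (12) + (4) * lc4m 2 a0 a1 a2 + (-4) * lc4m 3 a0 a1 a2 := by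
  simp only [lc4M21, lc4m]
  ring

theorem lc4M111_eq (a0 a1 a2 : ℝ) : lc4M111 (1 + a0) (1 + a1) (1 + a2) (1 - a0 - a1 - a2) =
    (4) + (-4) * lc4m 2 a0 a1 a2 + (4 / 3) * lc4m 3 a0 a1 a2 := by
  simp only [lc4M111, lc4m]
  ring

theorem lc4M4_eq (a0 a1 a2 : ℝ) : lc4M4 (1 + a0) (1 + a1) (1 + a2) (1 - a0 - a1 - a2) =
    (4) + (24) * lc4m 2 a0 a1 a2 + (16) * lc4m 3 a0 a1 a2 + (4) * lc4m 4 a0 a1 a2 := by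
  simp only [lc4M4, lc4m]
  ring

theorem lc4M31_eq (a0 a1 a2 : ℝ) : lc4M31 (1 + a0) (1 + a1) (1 + a2) (1 - a0 - a1 - a2) =
    (12) + (24) * lc4m 2 a0 a1 a2 + (-4) * lc4m 4 a0 a1 a2 := by
  simp only [lc4M31, lc4m]
  ring

theorem lc4M22_eq (a0 a1 a2 : ℝ) : lc4M22 (1 + a0) (1 + a1) (1 + a2) (1 - a0 - a1 - a2) =
    (6) + (4) * lc4m 2 a0 a1 a2 + (-8) * lc4m 3 a0 a1 a2 + (8) * lc4m 2 a0 a1 a2 ^ 2 + (-2) * lc4m 4 a0 a1 a2 := by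
  simp only [lc4M22, lc4m]
  ring

theorem lc4M211_eq (a0 a1 a2 : ℝ) : lc4M211 (1 + a0) (1 + a1) (1 + a2) (1 - a0 - a1 - a2) =
    (12) + (-8) * lc4m 2 a0 a1 a2 + (-8) * lc4m 2 a0 a1 a2 ^ 2 + (4) * lc4m 4 a0 a1 a2 := by
  simp only [lc4M211, lc4m]
  ring

theorem lc4M1111_eq (a0 a1 a2 : ℝ) : lc4M1111 (1 + a0) (1 + a1) (1 + a2) (1 - a0 - a1 - a2) =
    (1) + (-2) * lc4m 2 a0 a1 a2 + (4 / 3) * lc4m 3 a0 a1 a2 + (2) * lc4m 2 a0 a1 a2 ^ 2 + (-1) * lc4m 4 a0 a1 a2 := by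
  simp only [lc4M1111, lc4m]
  ring

theorem lc4_av1 (x0 x1 x2 x3 y0 y1 y2 y3 : ℝ) :
    lc4A (fun y0 y1 y2 y3 => lc4c 2 (x0 * y0) (x1 * y1) (x2 * y2) (x3 * y3) *
        (2 - lc4s (x0 * y0) (x1 * y1) (x2 * y2) (x3 * y3))) y0 y1 y2 y3 =
      (3 / 32) * (lc4M2 x0 x1 x2 x3 * lc4M2 y0 y1 y2 y3) +
      (-1 / 24) * (lc4M11 x0 x1 x2 x3 * lc4M11 y0 y1 y2 y3) +
      (-3 / 256) * (lc4M3 x0 x1 x2 x3 * lc4M3 y0 y1 y2 y3) +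
      (-1 / 768) * (lc4M21 x0 x1 x2 x3 * lc4M21 y0 y1 y2 y3) +
      (3 / 128) * (lc4M111 x0 x1 x2 x3 * lc4M111 y0 y1 y2 y3) := by
  simp only [lc4A, lc4c, lc4s, lc4M1, lc4M2, lc4M11, lc4M3, lc4M21, lc4M111, lc4M4, lc4M31, lc4M22, lc4M211, lc4M1111]
  ring

theorem lc4_av2 (x0 x1 x2 x3 y0 y1 y2 y3 : ℝ) :
    lc4A (fun y0 y1 y2 y3 => lc4c 3 (x0 * y0) (x1 * y1) (x2 * y2) (x3 * y3) *
        (3 - 2 * lc4s (x0 * y0) (x1 * y1) (x2 * y2) (x3 * y3)) +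
        324 * (lc4s (x0 * y0) (x1 * y1) (x2 * y2) (x3 * y3) - 1) ^ 2) y0 y1 y2 y3 =
      (324) +
      (-81 / 2) * (lc4M1 x0 x1 x2 x3 * lc4M1 y0 y1 y2 y3) +
      (81 / 16) * (lc4M2 x0 x1 x2 x3 * lc4M2 y0 y1 y2 y3) +
      (27 / 4) * (lc4M11 x0 x1 x2 x3 * lc4M11 y0 y1 y2 y3) +
      (9 / 128) * (lc4M3 x0 x1 x2 x3 * lc4M3 y0 y1 y2 y3) +
      (-3 / 128) * (lc4M21 x0 x1 x2 x3 * lc4M21 y0 y1 y2 y3) +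
      (9 / 64) * (lc4M111 x0 x1 x2 x3 * lc4M111 y0 y1 y2 y3) +
      (-3 / 256) * (lc4M4 x0 x1 x2 x3 * lc4M4 y0 y1 y2 y3) +
      (1 / 64) * (lc4M22 x0 x1 x2 x3 * lc4M22 y0 y1 y2 y3) +
      (-3 / 8) * (lc4M1111 x0 x1 x2 x3 * lc4M1111 y0 y1 y2 y3) := by
  simp only [lc4A, lc4c, lc4s, lc4M1, lc4M2, lc4M11, lc4M3, lc4M21, lc4M111, lc4M4, lc4M31, lc4M22, lc4M211, lc4M1111]
  ring

theorem lc4_id1 (a0 a1 a2 b0 b1 b2 : ℝ) :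
    lc4A (fun y0 y1 y2 y3 =>
      lc4c 2 ((1 + a0) * y0) ((1 + a1) * y1) ((1 + a2) * y2) ((1 - a0 - a1 - a2) * y3) *
        (2 - lc4s ((1 + a0) * y0) ((1 + a1) * y1) ((1 + a2) * y2) ((1 - a0 - a1 - a2) * y3)))
      (1 + b0) (1 + b1) (1 + b2) (1 - b0 - b1 - b2) =
    lc4m 2 a0 a1 a2 + lc4m 2 b0 b1 b2 -
      2 / 3 * (lc4m 2 a0 a1 a2 * lc4m 3 b0 b1 b2 + lc4m 3 a0 a1 a2 * lc4m 2 b0 b1 b2) -
      1 / 6 * (lc4m 3 a0 a1 a2 * lc4m 3 b0 b1 b2) := by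
  rw [lc4_av1]
  simp only [lc4M1_eq, lc4M2_eq, lc4M11_eq, lc4M3_eq, lc4M21_eq, lc4M111_eq, lc4M4_eq, lc4M31_eq, lc4M22_eq, lc4M211_eq, lc4M1111_eq]
  ring

theorem lc4_id2 (a0 a1 a2 b0 b1 b2 : ℝ) :
    lc4A (fun y0 y1 y2 y3 =>
      lc4c 3 ((1 + a0) * y0) ((1 + a1) * y1) ((1 + a2) * y2) ((1 - a0 - a1 - a2) * y3) *
        (3 - 2 * lc4s ((1 + a0) * y0) ((1 + a1) * y1) ((1 + a2) * y2) ((1 - a0 - a1 - a2) * y3)) +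
        324 * (lc4s ((1 + a0) * y0) ((1 + a1) * y1) ((1 + a2) * y2) ((1 - a0 - a1 - a2) * y3) - 1) ^ 2)
      (1 + b0) (1 + b1) (1 + b2) (1 - b0 - b1 - b2) =
    (fun X Y m X' Y' m' : ℝ => Y + Y' + 112 * (X * X') - X * Y' + 2 * X * X' ^ 2 - 2 * X * m' - Y * X' -
      5 / 3 * (Y * Y') - 2 * Y * X' ^ 2 + 2 * X ^ 2 * X' - 2 * X ^ 2 * Y' - 1 / 2 * X ^ 2 * X' ^ 2 +
      1 / 2 * X ^ 2 * m' - 2 * m * X' + 1 / 2 * m * X' ^ 2 - 1 / 2 * m * m')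
      (lc4m 2 a0 a1 a2) (lc4m 3 a0 a1 a2) (lc4m 4 a0 a1 a2)
      (lc4m 2 b0 b1 b2) (lc4m 3 b0 b1 b2) (lc4m 4 b0 b1 b2) := by
  rw [lc4_av2]
  simp only [lc4M1_eq, lc4M2_eq, lc4M11_eq, lc4M3_eq, lc4M21_eq, lc4M111_eq, lc4M4_eq, lc4M31_eq, lc4M22_eq, lc4M211_eq, lc4M1111_eq]
  ring

theorem lc4_param {x : Vec 4} (hx : Nrm x) : ∃ a0 a1 a2 : ℝ, x 0 = 1 + a0 ∧ x 1 = 1 + a1 ∧
    x 2 = 1 + a2 ∧ x 3 = 1 - a0 - a1 - a2 ∧ ∀ k, cm k x = lc4m k a0 a1 a2 := by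
  have h := hx.2
  rw [lc4_sm, lc4s] at h
  refine ⟨x 0 - 1, x 1 - 1, x 2 - 1, by ring, by ring, by ring, by linarith, fun k => ?_⟩
  simp only [cm, lc4m, hx.2, Fin.sum_univ_four, Nat.cast_ofNat]
  rw [show x 3 - 1 = -(x 0 - 1) - (x 1 - 1) - (x 2 - 1) by linarith]

theorem lc4_eqs {z : Vec 4} (hz : NN z) : cm 2 z = Xh z * sm z ∧ cm 3 z = Yh z * sm z ^ 2 := by
  by_cases h : sm z = 0
  · have := cone_eq_zero (by norm_num) hz h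
    subst this
    simp [cm, h]
  · constructor
    · rw [Xh, div_mul_cancel₀ _ h]
    · rw [Yh, div_mul_cancel₀ _ (pow_ne_zero 2 h)]

theorem lc4_X {z : Vec 4} (hz : NN z) : cm 2 z * (2 - sm z) ≤ Xh z := by
  rw [(lc4_eqs hz).1]
  nlinarith [mul_nonneg (Xh_nonneg hz) (sq_nonneg (sm z - 1))]

theorem lc4_Y {z : Vec 4} (hz : NN z) (h4 : sm z ≤ 4) :
    Yh z ≤ cm 3 z * (3 - 2 * sm z) + 324 * (sm z - 1) ^ 2 := by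
  rw [(lc4_eqs hz).2]
  have h1 := Yh_le hz
  have h2 := Xh_le hz
  have h3 := sm_nonneg' hz
  norm_num at h1 h2
  have h5 : Yh z * (1 + 2 * sm z) ≤ 324 := by nlinarith
  nlinarith [mul_le_mul_of_nonneg_right h5 (sq_nonneg (sm z - 1))]

theorem lc4_NN {x y : Vec 4} (hx : Nrm x) (hy : Nrm y) (σ : Equiv.Perm (Fin 4)) :
    NN (x * (y ∘ σ)) ∧ sm (x * (y ∘ σ)) ≤ 4 := by
  refine ⟨fun i => mul_nonneg (hx.1 i) (hy.1 _), ?_⟩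
  have h1 : ∀ i, x i * y (σ i) ≤ x i * 4 := fun i => by
    have := le_mul_sm hy.1 (σ i)
    rw [hy.2] at this
    exact mul_le_mul_of_nonneg_left (by simpa using this) (hx.1 i)
  have h := hx.2
  rw [lc4_sm, lc4s] at h ⊢
  simp only [Pi.mul_apply, Function.comp_apply]
  linarith [h1 0, h1 1, h1 2, h1 3]

theorem lc4_bounds {x : Vec 4} (hx : Nrm x) : Xh x = cm 2 x ∧ Yh x = cm 3 x ∧ 0 ≤ cm 2 x ∧
    cm 2 x ≤ 3 ∧ -cm 2 x ≤ cm 3 x ∧ cm 3 x ≤ 3 * cm 2 x ∧ 0 ≤ cm 4 x ∧ cm 4 x ≤ 9 * cm 2 x := by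
  have e1 : Xh x = cm 2 x := by rw [Xh, hx.2, div_one]
  have e2 : Yh x = cm 3 x := by rw [Yh, hx.2, one_pow, div_one]
  have h1 := Yh_le hx.1
  have h2 := Xh_le hx.1
  have h3 := neg_Xh_le_Yh hx.1
  rw [hx.2] at h2
  rw [e1, e2] at h1 h3
  rw [e1] at h2
  norm_num at h1 h2
  refine ⟨e1, e2, cm_two_nonneg x, h2, h3, h1, ?_, ?_⟩
  · exact div_nonneg (Finset.sum_nonneg fun i _ => by positivity) (Nat.cast_nonneg _)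
  · have h4 : ∀ i, (x i - 1) ^ 4 ≤ 9 * (x i - 1) ^ 2 := fun i => by
      have h5 := le_mul_sm hx.1 i
      rw [hx.2] at h5
      norm_num at h5
      have h6 := hx.1 i
      have h7 : (x i - 1) ^ 2 ≤ 9 := by nlinarith
      nlinarith [mul_le_mul_of_nonneg_right h7 (sq_nonneg (x i - 1))]
    simp only [cm, hx.2, Fin.sum_univ_four, Nat.cast_ofNat]
    linarith [h4 0, h4 1, h4 2, h4 3]

theorem lc4_final {X Y m X' Y' m' : ℝ} (h1 : 0 ≤ X) (h2 : X ≤ 3) (h3 : -X ≤ Y) (h4 : Y ≤ 3 * X)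
    (h5 : 0 ≤ m) (h6 : m ≤ 9 * X) (h1' : 0 ≤ X') (h2' : X' ≤ 3) (h3' : -X' ≤ Y') (h4' : Y' ≤ 3 * X')
    (h5' : 0 ≤ m') (h6' : m' ≤ 9 * X') :
    Y + Y' + 112 * (X * X') - X * Y' + 2 * X * X' ^ 2 - 2 * X * m' - Y * X' -
      5 / 3 * (Y * Y') - 2 * Y * X' ^ 2 + 2 * X ^ 2 * X' - 2 * X ^ 2 * Y' - 1 / 2 * X ^ 2 * X' ^ 2 +
      1 / 2 * X ^ 2 * m' - 2 * m * X' + 1 / 2 * m * X' ^ 2 - 1 / 2 * m * m' ≤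
      Y + Y' + 200 * (X * X') := by
  have p0 : 0 ≤ X * X' := mul_nonneg h1 h1'
  have q1 : X ^ 2 ≤ 3 * X := by nlinarith
  have q1' : X' ^ 2 ≤ 3 * X' := by nlinarith
  have p1 : -(X * Y') ≤ X * X' := by nlinarith
  have p2 : X * X' ^ 2 ≤ 3 * (X * X') := by nlinarith
  have p3 : 0 ≤ X * m' := mul_nonneg h1 h5'
  have p4 : -(Y * X') ≤ X * X' := by nlinarith
  have p5 : -(Y * Y') ≤ 6 * (X * X') := by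
    nlinarith [mul_nonneg (sub_nonneg.2 h3) (sub_nonneg.2 h3'), mul_le_mul_of_nonneg_left h4' h1,
      mul_le_mul_of_nonneg_left h4 h1']
  have p6 : -(Y * X' ^ 2) ≤ X * X' ^ 2 := by nlinarith [sq_nonneg X']
  have p7 : X ^ 2 * X' ≤ 3 * (X * X') := by nlinarith
  have p8 : -(X ^ 2 * Y') ≤ X ^ 2 * X' := by nlinarith [sq_nonneg X]
  have p9 : 0 ≤ X ^ 2 * X' ^ 2 := by positivity
  have p10 : X ^ 2 * m' ≤ 3 * X * (9 * X') := mul_le_mul q1 h6' h5' (by linarith)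
  have p11 : 0 ≤ m * X' := mul_nonneg h5 h1'
  have p12 : m * X' ^ 2 ≤ 9 * X * (3 * X') := mul_le_mul h6 q1' (sq_nonneg _) (by linarith)
  have p13 : 0 ≤ m * m' := mul_nonneg h5 h5'
  linarith

theorem lowCert4 : ∃ C : ℝ, LowCert 4 (2 / 3) (1 / 6) C := by
  refine ⟨200, by norm_num, by norm_num, by norm_num, ⟨lc4L, List.cons_ne_nil _ _, ?_⟩,
    ⟨lc4L, List.cons_ne_nil _ _, ?_⟩⟩
  · intro x y hx hy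
    refine le_trans (le_of_eq ?_) (lc4_mono fun σ => lc4_X (lc4_NN hx hy σ).1)
    obtain ⟨a0, a1, a2, e0, e1, e2, e3, e⟩ := lc4_param hx
    obtain ⟨b0, b1, b2, f0, f1, f2, f3, f⟩ := lc4_param hy
    rw [(lc4_bounds hx).1, (lc4_bounds hx).2.1, (lc4_bounds hy).1, (lc4_bounds hy).2.1, e, e, f, f,
      ← lc4_id1, ← f3, ← f0, ← f1, ← f2, ← e3, ← e0, ← e1, ← e2, ← lc4_pavg]
    simp only [lc4_cm, lc4_sm, Pi.mul_apply, Function.comp_apply]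
  · intro x y hx hy
    refine le_trans (lc4_mono fun σ => lc4_Y (lc4_NN hx hy σ).1 (lc4_NN hx hy σ).2) ?_
    obtain ⟨a0, a1, a2, e0, e1, e2, e3, e⟩ := lc4_param hx
    obtain ⟨b0, b1, b2, f0, f1, f2, f3, f⟩ := lc4_param hy
    obtain ⟨g1, g2, g3, g4, g5, g6, g7, g8⟩ := lc4_bounds hx
    obtain ⟨k1, k2, k3, k4, k5, k6, k7, k8⟩ := lc4_bounds hy
    rw [g1, g2, k1, k2]
    refine le_trans (le_of_eq ?_) (lc4_final g3 g4 g5 g6 g7 g8 k3 k4 k5 k6 k7 k8)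
    have h := lc4_id2 a0 a1 a2 b0 b1 b2
    rw [← f3, ← f0, ← f1, ← f2, ← e3, ← e0, ← e1, ← e2, ← lc4_pavg, ← e, ← e, ← e, ← f, ← f, ← f] at h
    refine Eq.trans ?_ h
    simp only [lc4_cm, lc4_sm, Pi.mul_apply, Function.comp_apply]

end Crest.Agent.R163
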