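import Crest.Agent.R163.Upgrade

/-! Row 163: fixed-point upper bounds for the tail functionals, packed into one number. -/

set_option autoImplicit false

namespace Crest.Agent.R163.NE

open Finset

/-- `N` packs, in base `B`, upper bounds for `v 0, …, v m`; the leading digit is the largest. -/
def Rep (B m N : ℕ) (v : ℕ → ℝ) : Prop :=
  ∃ n : ℕ → ℕ, N = ∑ j ∈ range (m + 1), n j * B ^ (m - j) ∧ ∀ j, j ≤ m → v j ≤ n j ∧ n j ≤ n 0

variable {B m : ℕ}

theorem Rep.zero : Rep B m 0 fun _ => 0 := ⟨fun _ => 0, by simp, by simp⟩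

theorem Rep.mono {N : ℕ} {v v' : ℕ → ℝ} (h : Rep B m N v) (hv : ∀ j, j ≤ m → v' j ≤ v j) :
    Rep B m N v' := by
  obtain ⟨n, e, h⟩ := h
  exact ⟨n, e, fun j hj => ⟨(hv j hj).trans (h j hj).1, (h j hj).2⟩⟩

theorem Rep.add {N N' : ℕ} {v v' : ℕ → ℝ} (h : Rep B m N v) (h' : Rep B m N' v') :
    Rep B m (N + N') fun j => v j + v' j := by
  obtain ⟨n, e, h⟩ := h
  obtain ⟨n', e', h'⟩ := h'
  refine ⟨fun j => n j + n' j, ?_, fun j hj => ⟨?_, add_le_add (h j hj).2 (h' j hj).2⟩⟩
  · rw [e, e', ← sum_add_distrib]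
    exact sum_congr rfl fun j _ => by ring
  · push_cast
    exact add_le_add (h j hj).1 (h' j hj).1

theorem Rep.mul {N : ℕ} {v : ℕ → ℝ} (h : Rep B m N v) (c : ℕ) :
    Rep B m (c * N) fun j => c * v j := by
  obtain ⟨n, e, h⟩ := h
  refine ⟨fun j => c * n j, ?_, fun j hj => ⟨?_, Nat.mul_le_mul_left c (h j hj).2⟩⟩
  · rw [e, mul_sum]
    exact sum_congr rfl fun j _ => by ring
  · push_cast
    exact mul_le_mul_of_nonneg_left (h j hj).1 (Nat.cast_nonneg c)

theorem digit_eq (B : ℕ) : ∀ (M : ℕ) (d : ℕ → ℕ), (∀ k, k < M → d k < B) → ∀ k, k < M →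
    (∑ i ∈ range M, d i * B ^ i) / B ^ k % B = d k := by
  intro M
  induction M with
  | zero => intro d _ k hk; omega
  | succ M ih =>
    intro d hd k hk
    have h0 := hd 0 (Nat.succ_pos M)
    have hB : 0 < B := by omega
    have e : ∑ i ∈ range (M + 1), d i * B ^ i = d 0 + B * ∑ i ∈ range M, d (i + 1) * B ^ i := by
      rw [sum_range_succ', mul_sum, pow_zero, mul_one, add_comm]
      congr 1
      exact sum_congr rfl fun i _ => by ring
    rw [e]
    cases k with
    | zero => rw [pow_zero, Nat.div_one, Nat.add_mul_mod_self_left, Nat.mod_eq_of_lt h0]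
    | succ k =>
      rw [pow_succ', ← Nat.div_div_eq_div_mul, Nat.add_mul_div_left _ _ hB, Nat.div_eq_of_lt h0,
        zero_add]
      exact ih (fun i => d (i + 1)) (fun i hi => hd (i + 1) (by omega)) k (by omega)

theorem Rep.le_digit {N : ℕ} {v : ℕ → ℝ} (h : Rep B m N v) (hB0 : 0 < B) (hB : N / B ^ m < B)
    {j : ℕ} (hj : j ≤ m) : v j ≤ (N / B ^ (m - j) % B : ℕ) := by
  obtain ⟨n, e, h⟩ := h
  have h0 : n 0 ≤ N / B ^ m := by
    rw [Nat.le_div_iff_mul_le (pow_pos hB0 m), e]
    have := single_le_sum (f := fun j => n j * B ^ (m - j)) (s := range (m + 1))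
      (fun _ _ => Nat.zero_le _) (mem_range.2 (Nat.succ_pos m))
    simpa using this
  have e' : N = ∑ i ∈ range (m + 1), n (m - i) * B ^ i := by
    rw [e, ← sum_range_reflect]
    refine sum_congr rfl fun i hi => ?_
    have := mem_range.1 hi
    have e1 : m + 1 - 1 - i = m - i := by omega
    have e2 : m - (m - i) = i := by omega
    rw [e1, e2]
  have := digit_eq B (m + 1) (fun i => n (m - i))
    (fun k _ => lt_of_le_of_lt ((h (m - k) (by omega)).2.trans h0) hB) (m - j) (by omega)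
  rw [← e'] at this
  have e3 : m - (m - j) = j := by omega
  simp only [e3] at this
  rw [this]
  exact (h j hj).1

/-- the intervals between consecutive nodes, in fixed point -/
inductive SL : Type
  | nil : SL
  | cons (r l g ones bj : ℕ) (tl : SL) : SL

/-- packed bound for a mass `mm` placed at the position `h` -/
noncomputable def scan (dflt mm h : ℕ) (L : SL) : ℕ :=
  SL.rec (motive := fun _ => ℕ) (Nat.mul mm dflt)
    (fun r l g ones bj _ ih => Bool.rec (motive := fun _ => ℕ)
      (Nat.add (Nat.mul mm ones) (Nat.mul (Nat.succ (Nat.div (Nat.mul mm (Nat.sub h l)) g)) bj))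
      ih (Nat.ble r h)) L

/-- correctness of the interval data -/
def SLOK (δ : ℕ → ℝ) (B m S2 : ℕ) : SL → Prop
  | .nil => True
  | .cons r l g ones bj tl => (∃ j, j < m ∧ (r : ℝ) ≤ S2 * δ (j + 1) ^ 2 ∧ (l : ℝ) ≤ S2 * δ j ^ 2 ∧
      0 < g ∧ l < r ∧ (g : ℝ) ≤ S2 * (δ (j + 1) ^ 2 - δ j ^ 2) ∧ r ≤ l + g ∧
      ones = ∑ i ∈ range (j + 1), B ^ (m - i) ∧ bj = B ^ (m - (j + 1))) ∧ SLOK δ B m S2 tl

/-- tails of a mass `μ` at the position `η` -/
noncomputable def tv (δ : ℕ → ℝ) (μ η : ℝ) : ℕ → ℝ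
  | 0 => μ
  | j + 1 => μ * psi δ j η

theorem tv_le {δ : ℕ → ℝ} {μ η : ℝ} (h0 : 0 ≤ μ) (j : ℕ) : tv δ μ η j ≤ μ := by
  cases j with
  | zero => exact le_rfl
  | succ j => exact mul_le_of_le_one_right h0 (up_psi_le_one δ j η)

theorem div_le_succ (a b : ℕ) : (a : ℝ) / b ≤ (a / b + 1 : ℕ) := by
  rcases Nat.eq_zero_or_pos b with rfl | hb
  · simp
  · rw [div_le_iff₀ (Nat.cast_pos.2 hb)]
    have := Nat.lt_mul_div_succ a hb
    have h2 : a ≤ (a / b + 1) * b := by rw [mul_comm]; exact this.le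
    exact_mod_cast h2

theorem scan_sound {δ : ℕ → ℝ} (hδ : Nodes m δ) {S2 dflt mm h : ℕ} (hS2 : 0 < S2)
    (hd : dflt = ∑ i ∈ range (m + 1), B ^ (m - i)) {μ η : ℝ} (h0 : 0 ≤ μ) (hμ : μ ≤ mm)
    (hmm : 0 < mm) (hη : S2 * η ≤ h) :
    ∀ L : SL, SLOK δ B m S2 L → Rep B m (scan dflt mm h L) (tv δ μ η) := by
  intro L
  induction L with
  | nil =>
    intro _
    refine ⟨fun _ => mm, ?_, fun j _ => ⟨(tv_le h0 j).trans hμ, le_rfl⟩⟩
    change mm * dflt = _
    rw [hd, mul_sum]
  | cons r l g ones bj tl ih =>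
    rintro ⟨⟨j, hj, h1, h2, h3, h3', h4, h5, h6, h7⟩, htl⟩
    cases hc : Nat.ble r h with
    | true =>
      have e : scan dflt mm h (.cons r l g ones bj tl) = scan dflt mm h tl := by
        unfold scan
        simp only [hc]
      rw [e]
      exact ih htl
    | false =>
      have e : scan dflt mm h (.cons r l g ones bj tl) =
          mm * ones + (mm * (h - l) / g + 1) * bj := by
        unfold scan
        simp only [hc]
        rfl
      have hlt : h < r := by
        by_contra hn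
        rw [Nat.ble_eq_true_of_le (not_lt.1 hn)] at hc
        exact Bool.noConfusion hc
      have hS : (0 : ℝ) < S2 := Nat.cast_pos.2 hS2
      have hq : mm * (h - l) / g + 1 ≤ mm := by
        apply Nat.succ_le_of_lt
        rw [Nat.div_lt_iff_lt_mul h3]
        exact Nat.mul_lt_mul_of_pos_left (by omega) hmm
      refine ⟨fun i => if i ≤ j then mm else if i = j + 1 then mm * (h - l) / g + 1 else 0, ?_, ?_⟩
      · rw [e, h6, h7, mul_sum]
        obtain ⟨k, rfl⟩ : ∃ k, m = j + 1 + k := ⟨m - (j + 1), by omega⟩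
        rw [show j + 1 + k + 1 = (j + 1) + (k + 1) by ring, sum_range_add _ (j + 1) (k + 1),
          sum_range_succ' _ k]
        have a1 : ∑ i ∈ range (j + 1), (if i ≤ j then mm else if i = j + 1 then
            mm * (h - l) / g + 1 else 0) * B ^ (j + 1 + k - i) =
            ∑ i ∈ range (j + 1), mm * B ^ (j + 1 + k - i) :=
          sum_congr rfl fun i hi => by rw [if_pos (by have := mem_range.1 hi; omega)]
        have a2 : ∑ i ∈ range k, (if j + 1 + (i + 1) ≤ j then mm else if j + 1 + (i + 1) = j + 1 then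
            mm * (h - l) / g + 1 else 0) * B ^ (j + 1 + k - (j + 1 + (i + 1))) = 0 :=
          sum_eq_zero fun i _ => by rw [if_neg (by omega), if_neg (by omega), zero_mul]
        rw [a1, a2]
        simp
      · intro i hi
        simp only [Nat.zero_le, if_true]
        by_cases c1 : i ≤ j
        · rw [if_pos c1]
          exact ⟨(tv_le h0 i).trans hμ, le_rfl⟩
        · rw [if_neg c1]
          by_cases c2 : i = j + 1
          · rw [if_pos c2, c2]
            refine ⟨?_, hq⟩
            have hg : (0 : ℝ) < g := Nat.cast_pos.2 h3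
            have hΔ : 0 < δ (j + 1) ^ 2 - δ j ^ 2 := sub_pos.2 (hδ.up_sq_lt hj)
            have b1 : psi δ j η ≤ ((h - l : ℕ) : ℝ) / g := by
              unfold psi
              refine max_le (by positivity) ((min_le_right _ _).trans ?_)
              have b2 : (h : ℝ) - l ≤ ((h - l : ℕ) : ℝ) := by
                have : h ≤ (h - l) + l := by omega
                have : (h : ℝ) ≤ ((h - l : ℕ) : ℝ) + l := by exact_mod_cast this
                linarith
              have b3 : (0 : ℝ) ≤ ((h - l : ℕ) : ℝ) := Nat.cast_nonneg _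
              rw [div_le_div_iff₀ hΔ hg]
              have b4 : S2 * (η - δ j ^ 2) ≤ ((h - l : ℕ) : ℝ) := by linarith
              have b5 := mul_le_mul_of_nonneg_left h4 b3
              have b6 := mul_le_mul_of_nonneg_right b4 hg.le
              have b7 : S2 * ((η - δ j ^ 2) * g) ≤
                  S2 * (((h - l : ℕ) : ℝ) * (δ (j + 1) ^ 2 - δ j ^ 2)) := by nlinarith
              exact le_of_mul_le_mul_left b7 hS
            refine le_trans ?_ (div_le_succ (mm * (h - l)) g)
            change μ * psi δ j η ≤ _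
            rw [Nat.cast_mul, mul_div_assoc]
            exact mul_le_mul hμ b1 (up_psi_nonneg δ j η) (Nat.cast_nonneg _)
          · rw [if_neg c2]
            refine ⟨?_, Nat.zero_le _⟩
            obtain ⟨i, rfl⟩ : ∃ k, i = k + 1 := ⟨i - 1, by omega⟩
            have b1 : η ≤ δ (j + 1) ^ 2 := by
              have : (h : ℝ) ≤ r := by exact_mod_cast hlt.le
              exact le_of_mul_le_mul_left (hη.trans (this.trans h1)) hS
            have b2 : δ (j + 1) ^ 2 ≤ δ i ^ 2 :=
              pow_le_pow_left₀ (hδ.up_nonneg (by omega)) (hδ.up_mono (by omega) (by omega)) 2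
            change μ * psi δ i η ≤ _
            rw [hδ.up_psi_zero (by omega) (b1.trans b2)]
            simp

noncomputable def ptS3 (S S2 dflt : ℕ) (L : SL) (x z a b U W den : ℕ) : ℕ :=
  Nat.add
    (scan dflt (Nat.succ (Nat.div (Nat.mul (Nat.mul S (Nat.mul U (Nat.mul U U))) x) den))
      (Nat.succ (Nat.div (Nat.mul S2 (Nat.mul a a)) (Nat.mul U U))) L)
    (scan dflt (Nat.succ (Nat.div (Nat.mul (Nat.mul S (Nat.mul W (Nat.mul W W))) z) den))
      (Nat.succ (Nat.div (Nat.mul S2 (Nat.mul b b)) (Nat.mul W W))) L)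

noncomputable def ptS2 (S S2 dflt : ℕ) (L : SL) (x z a b σ : ℕ) : ℕ :=
  ptS3 S S2 dflt L x z a b (Nat.add a (Nat.add b b)) (Nat.add a (Nat.add a b))
    (Nat.mul (Nat.mul (nat_lit 3) (Nat.mul σ σ)) (Nat.add a b))

/-- packed bound at a sorted integer point -/
noncomputable def ptS (S S2 dflt : ℕ) (L : SL) (x y z : ℕ) : ℕ :=
  ptS2 S S2 dflt L x z (Nat.sub x y) (Nat.sub y z) (Nat.add x (Nat.add y z))

/-- an integer point -/
def vec (x y z : ℕ) : Vec 3 := ![x, y, z]

theorem vec_NN (x y z : ℕ) : NN (vec x y z) := by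
  intro i
  fin_cases i <;> simp [vec]

theorem ptS_sound {δ : ℕ → ℝ} (hδ : Nodes m δ) {S S2 dflt : ℕ} (hS2 : 0 < S2)
    (hd : dflt = ∑ i ∈ range (m + 1), B ^ (m - i)) {L : SL} (hL : SLOK δ B m S2 L) {x y z : ℕ}
    (h1 : y ≤ x) (h2 : z ≤ y) :
    Rep B m (ptS S S2 dflt L x y z) fun j => S * Tail δ j (vec x y z) := by
  obtain ⟨b, rfl⟩ := Nat.exists_eq_add_of_le h2
  obtain ⟨a, rfl⟩ := Nat.exists_eq_add_of_le h1
  have e : ptS S S2 dflt L (z + b + a) (z + b) z =
      scan dflt (S * ((a + (b + b)) * ((a + (b + b)) * (a + (b + b)))) * (z + b + a) /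
          (3 * ((z + b + a + (z + b + z)) * (z + b + a + (z + b + z))) * (a + b)) + 1)
        (S2 * (a * a) / ((a + (b + b)) * (a + (b + b))) + 1) L +
      scan dflt (S * ((a + (a + b)) * ((a + (a + b)) * (a + (a + b)))) * z /
          (3 * ((z + b + a + (z + b + z)) * (z + b + a + (z + b + z))) * (a + b)) + 1)
        (S2 * (b * b) / ((a + (a + b)) * (a + (a + b))) + 1) L := by
    have e1 : Nat.sub (z + b + a) (z + b) = a := Nat.add_sub_cancel_left _ _
    have e2 : Nat.sub (z + b) z = b := Nat.add_sub_cancel_left _ _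
    unfold ptS
    rw [e1, e2]
    rfl
  set v := vec (z + b + a) (z + b) z with hv
  have v0 : v 0 = (z : ℝ) + b + a := by simp [hv, vec]
  have v1 : v 1 = (z : ℝ) + b := by simp [hv, vec]
  have v2 : v 2 = (z : ℝ) := by simp [hv, vec]
  have ha : (0 : ℝ) ≤ a := Nat.cast_nonneg a
  have hb : (0 : ℝ) ≤ b := Nat.cast_nonneg b
  obtain ⟨s1, s2, s3⟩ := up_sorted (x := v) (by rw [v0, v1]; linarith) (by rw [v1, v2]; linarith)
  have s4 := up_sm3 v
  rw [v0] at s1
  rw [v2] at s2
  rw [v1] at s3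
  rw [v0, v1, v2] at s4
  have hNN : NN v := vec_NN _ _ _
  have hS : (0 : ℝ) ≤ S := Nat.cast_nonneg S
  have key : ∀ p q : ℝ, p / 27 / (q / 9) = p / (3 * q) := fun p q => by
    rcases eq_or_ne q 0 with rfl | hq
    · simp
    · field_simp
      ring
  have r1 := scan_sound (B := B) hδ hS2 hd (μ := S * massP v) (η := etaP v)
    (mul_nonneg hS (up_massP_nonneg hNN))
    (le_trans (le_of_eq (by
      unfold massP
      rw [s1, s2, s4, ← mul_div_assoc]
      push_cast
      rw [mul_assoc 3, ← key]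
      congr 1 <;> ring))
      (div_le_succ (S * ((a + (b + b)) * ((a + (b + b)) * (a + (b + b)))) * (z + b + a))
        (3 * ((z + b + a + (z + b + z)) * (z + b + a + (z + b + z))) * (a + b))))
    (Nat.succ_pos _)
    (le_trans (le_of_eq (by
      unfold etaP
      rw [s1, s2, s3, s4, div_pow, ← mul_div_assoc]
      push_cast
      congr 1 <;> ring))
      (div_le_succ (S2 * (a * a)) ((a + (b + b)) * (a + (b + b))))) L hL
  have r2 := scan_sound (B := B) hδ hS2 hd (μ := S * massM v) (η := etaM v)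
    (mul_nonneg hS (up_massM_nonneg hNN))
    (le_trans (le_of_eq (by
      unfold massM
      rw [s1, s2, s4, ← mul_div_assoc]
      push_cast
      rw [mul_assoc 3, ← key]
      congr 1 <;> ring))
      (div_le_succ (S * ((a + (a + b)) * ((a + (a + b)) * (a + (a + b)))) * z)
        (3 * ((z + b + a + (z + b + z)) * (z + b + a + (z + b + z))) * (a + b))))
    (Nat.succ_pos _)
    (le_trans (le_of_eq (by
      unfold etaM
      rw [s1, s2, s3, s4, div_pow, ← mul_div_assoc]
      push_cast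
      congr 1 <;> ring))
      (div_le_succ (S2 * (b * b)) ((a + (a + b)) * (a + (a + b))))) L hL
  rw [e]
  refine (r1.add r2).mono fun j _ => le_of_eq ?_
  cases j with
  | zero => simp only [Tail_zero, tv]; ring
  | succ j => simp only [Tail_succ, tv]; ring

/-- packed bound at an integer point -/
noncomputable def pt (S S2 dflt : ℕ) (L : SL) (x y z : ℕ) : ℕ :=
  Bool.rec (motive := fun _ => ℕ)
    (Bool.rec (motive := fun _ => ℕ)
      (Bool.rec (motive := fun _ => ℕ) (ptS S S2 dflt L z y x) (ptS S S2 dflt L y z x) (Nat.ble z y))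
      (ptS S S2 dflt L y x z) (Nat.ble z x))
    (Bool.rec (motive := fun _ => ℕ)
      (Bool.rec (motive := fun _ => ℕ) (ptS S S2 dflt L z x y) (ptS S S2 dflt L x z y) (Nat.ble z x))
      (ptS S S2 dflt L x y z) (Nat.ble z y))
    (Nat.ble y x)

theorem Tail_swap01 (δ : ℕ → ℝ) (j x y z : ℕ) : Tail δ j (vec x y z) = Tail δ j (vec y x z) := by
  rw [← Tail_perm δ j (vec y x z) (Equiv.swap 0 1)]
  congr 1
  funext i
  fin_cases i <;> rfl

theorem Tail_swap12 (δ : ℕ → ℝ) (j x y z : ℕ) : Tail δ j (vec x y z) = Tail δ j (vec x z y) := by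
  rw [← Tail_perm δ j (vec x z y) (Equiv.swap 1 2)]
  congr 1
  funext i
  fin_cases i <;> rfl

theorem ble_false {a b : ℕ} (h : Nat.ble a b = false) : b ≤ a := by
  by_contra hn
  rw [Nat.ble_eq_true_of_le (le_of_lt (not_le.1 hn))] at h
  exact Bool.noConfusion h

theorem pt_sound {δ : ℕ → ℝ} (hδ : Nodes m δ) {S S2 dflt : ℕ} (hS2 : 0 < S2)
    (hd : dflt = ∑ i ∈ range (m + 1), B ^ (m - i)) {L : SL} (hL : SLOK δ B m S2 L) (x y z : ℕ) :
    Rep B m (pt S S2 dflt L x y z) fun j => S * Tail δ j (vec x y z) := by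
  unfold pt
  cases c1 : Nat.ble y x <;> cases c2 : Nat.ble z x <;> cases c3 : Nat.ble z y <;>
    first
    | exact (ptS_sound hδ hS2 hd hL (Nat.le_of_ble_eq_true c1) (Nat.le_of_ble_eq_true c3))
    | exact (ptS_sound hδ hS2 hd hL (Nat.le_of_ble_eq_true c2) (ble_false c3)).mono fun j _ =>
        le_of_eq (by rw [Tail_swap12])
    | exact (ptS_sound hδ hS2 hd hL (ble_false c2) (Nat.le_of_ble_eq_true c1)).mono fun j _ =>
        le_of_eq (by rw [Tail_swap12, Tail_swap01])
    | exact (ptS_sound hδ hS2 hd hL (ble_false c1) (Nat.le_of_ble_eq_true c2)).mono fun j _ =>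
        le_of_eq (by rw [Tail_swap01])
    | exact (ptS_sound hδ hS2 hd hL (Nat.le_of_ble_eq_true c3) (ble_false c2)).mono fun j _ =>
        le_of_eq (by rw [Tail_swap01, Tail_swap12])
    | exact (ptS_sound hδ hS2 hd hL (ble_false c3) (ble_false c1)).mono fun j _ =>
        le_of_eq (by rw [Tail_swap01, Tail_swap12, Tail_swap01])

end Crest.Agent.R163.NE
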