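import Crest.Agent.R163.NodeEng

/-! Row 163: expansion of the iterated merging operator, tables and trajectories. -/

set_option autoImplicit false

namespace Crest.Agent.R163.NE

open Finset

variable {B m : ℕ}

/-- merging with one symmetrised point -/
noncomputable def Op (a : Vec 3) : Module.End ℝ (Vec 3 → ℝ) where
  toFun G x := symv (fun y => G (x * y)) a
  map_add' G G' := by
    funext x
    simp only [symv, Pi.add_apply, sum_add_distrib, add_div]
  map_smul' c G := by
    funext x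
    simp only [symv, Pi.smul_apply, smul_eq_mul, RingHom.id_apply, ← mul_sum, mul_div_assoc]

theorem Op_apply (a : Vec 3) (G : Vec 3 → ℝ) (x : Vec 3) :
    Op a G x = symv (fun y => G (x * y)) a := rfl

theorem Op_commute (a b : Vec 3) : Commute (Op a) (Op b) := by
  ext G x
  simp only [Module.End.mul_apply, Op_apply, symv, ← sum_div]
  rw [sum_comm]
  simp only [mul_right_comm]

theorem NN_mul {x y : Vec 3} (hx : NN x) (hy : NN y) : NN (x * y) :=
  fun i => mul_nonneg (hx i) (hy i)

theorem hom_Op {a : Vec 3} (ha : NN a) {G : Vec 3 → ℝ} (hG : Hom G) : Hom (Op a G) := by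
  intro t x ht hx
  simp only [Op_apply, symv]
  rw [← mul_div_assoc, mul_sum]
  congr 1
  refine sum_congr rfl fun σ _ => ?_
  rw [smul_mul_assoc, hG t _ ht (NN_mul hx (up_NN_perm ha σ))]

/-- symmetric functions -/
def SymF (G : Vec 3 → ℝ) : Prop := ∀ (x : Vec 3) (σ : Equiv.Perm (Fin 3)), G (x ∘ σ) = G x

theorem sym_Op (a : Vec 3) {G : Vec 3 → ℝ} (hG : SymF G) : SymF (Op a G) := by
  intro x σ
  simp only [Op_apply, symv]
  congr 1
  refine Fintype.sum_equiv (Equiv.mulRight σ⁻¹) _ _ fun τ => ?_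
  rw [← hG (x * a ∘ ⇑(Equiv.mulRight σ⁻¹ τ)) σ]
  congr 1
  funext i
  simp

theorem Op_one {G : Vec 3 → ℝ} (hG : SymF G) (a : Vec 3) : Op a G 1 = G a := by
  simp only [Op_apply, symv, one_mul, hG a]
  simp [Fintype.card_perm]
  field_simp

/-- lists of integer points -/
inductive OL : Type
  | nil : OL
  | cons (a b c : ℕ) (tl : OL) : OL

noncomputable def sumOL (f : Vec 3 → ℝ) : OL → ℝ
  | .nil => 0
  | .cons a b c tl => f (vec a b c) + sumOL f tl

theorem sumOL_nil (f : Vec 3 → ℝ) : sumOL f .nil = 0 := rfl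
theorem sumOL_cons (f : Vec 3 → ℝ) (a b c : ℕ) (tl : OL) :
    sumOL f (.cons a b c tl) = f (vec a b c) + sumOL f tl := rfl

theorem sumOL_scale {f g : Vec 3 → ℝ} {p q : ℝ} (h : ∀ o, NN o → p * f o = q * g o) (O : OL) :
    p * sumOL f O = q * sumOL g O := by
  induction O with
  | nil => simp [sumOL_nil]
  | cons a b c tl ih => rw [sumOL_cons, sumOL_cons, mul_add, mul_add, ih, h _ (vec_NN a b c)]

noncomputable def valR (G : Vec 3 → ℝ) : List OL → Vec 3 → ℝ
  | [], x => G x
  | O :: s, x => sumOL (fun o => valR G s (x * o)) O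

theorem valR_nil (G : Vec 3 → ℝ) (x : Vec 3) : valR G [] x = G x := rfl
theorem valR_cons (G : Vec 3 → ℝ) (O : OL) (s : List OL) (x : Vec 3) :
    valR G (O :: s) x = sumOL (fun o => valR G s (x * o)) O := rfl

/-- packed sum over all orientations -/
noncomputable def sumPts (f : ℕ → ℕ → ℕ → ℕ) (s : List OL) : ℕ → ℕ → ℕ → ℕ :=
  List.rec (motive := fun _ => ℕ → ℕ → ℕ → ℕ) f
    (fun O _ ih x y z => OL.rec (motive := fun _ => ℕ) (nat_lit 0)
      (fun a b c _ acc => Nat.add (ih (Nat.mul x a) (Nat.mul y b) (Nat.mul z c)) acc) O) s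

theorem vec_mul (x y z a b c : ℕ) : vec x y z * vec a b c = vec (x * a) (y * b) (z * c) := by
  funext i
  fin_cases i <;> simp [vec]

theorem sumPts_sound {f : ℕ → ℕ → ℕ → ℕ} {G : ℕ → Vec 3 → ℝ} {S : ℝ}
    (hf : ∀ x y z, Rep B m (f x y z) fun j => S * G j (vec x y z)) :
    ∀ (s : List OL) (x y z : ℕ),
      Rep B m (sumPts f s x y z) fun j => S * valR (G j) s (vec x y z) := by
  intro s
  induction s with
  | nil => exact hf
  | cons O s ih =>
    intro x y z
    simp only [valR_cons]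
    induction O with
    | nil => exact Rep.zero.mono fun j _ => by simp [sumOL_nil]
    | cons a b c tl ih2 =>
      refine ((ih (x * a) (y * b) (z * c)).add ih2).mono fun j _ => le_of_eq ?_
      rw [sumOL_cons, vec_mul, mul_add]

/-- integer data of an atom -/
structure Atom where
  K : ℕ
  F : ℕ
  b₁ : ℕ
  b₂ : ℕ
  b₃ : ℕ
  O : OL

structure AtomOK (Kc : ℕ) (a : Vec 3) (A : Atom) : Prop where
  nn : NN a
  first : (Kc : ℝ) • a = (A.F : ℝ) • vec A.b₁ A.b₂ A.b₃
  rest : ∀ G, Hom G → ∀ x, NN x → Kc * Op a G x = A.K * sumOL (fun o => G (x * o)) A.O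

theorem Op_scale {Kc F p q r : ℕ} {a : Vec 3} (ha : NN a) (h : (Kc : ℝ) • a = (F : ℝ) • vec p q r)
    {G : Vec 3 → ℝ} (hG : Hom G) {x : Vec 3} (hx : NN x) :
    Kc * Op a G x = F * ((G (x * vec p q r) + G (x * vec p r q) + G (x * vec q p r)
      + G (x * vec q r p) + G (x * vec r p q) + G (x * vec r q p)) / 6) := by
  have e : Kc * Op a G x = F * Op (vec p q r) G x := by
    simp only [Op_apply, symv]
    rw [← mul_div_assoc, ← mul_div_assoc, mul_sum, mul_sum]
    congr 1
    refine sum_congr rfl fun σ _ => ?_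
    rw [← hG _ _ (Nat.cast_nonneg _) (NN_mul hx (up_NN_perm ha σ)),
      ← hG _ _ (Nat.cast_nonneg _) (NN_mul hx (up_NN_perm (vec_NN p q r) σ)),
      ← mul_smul_comm, ← mul_smul_comm]
    congr 2
    exact congrArg (· ∘ σ) h
  rw [e, Op_apply, symv_three]
  rfl

/-- an atom with six orientations -/
def six (K p q r : ℕ) : Atom :=
  ⟨K, 6 * K, p, q, r, .cons p q r (.cons p r q (.cons q p r (.cons q r p (.cons r p q
    (.cons r q p .nil)))))⟩
/-- an atom of the shape `(p, p, r)` -/
def threeA (K p r : ℕ) : Atom := ⟨K, 3 * K, p, p, r, .cons p p r (.cons p r p (.cons r p p .nil))⟩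
/-- an atom of the shape `(p, r, r)` -/
def threeB (K p r : ℕ) : Atom := ⟨K, 3 * K, p, r, r, .cons p r r (.cons r p r (.cons r r p .nil))⟩
/-- the null atom -/
def null (K : ℕ) : Atom := ⟨K, K, 1, 1, 1, .cons 1 1 1 .nil⟩

theorem six_ok {Kc K p q r : ℕ} {a : Vec 3} (ha : NN a)
    (h : (Kc : ℝ) • a = ((6 * K : ℕ) : ℝ) • vec p q r) : AtomOK Kc a (six K p q r) :=
  ⟨ha, h, fun G hG x hx => by
    rw [Op_scale ha h hG hx]
    simp only [six, sumOL_cons, sumOL_nil]
    push_cast
    ring⟩

theorem threeA_ok {Kc K p r : ℕ} {a : Vec 3} (ha : NN a)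
    (h : (Kc : ℝ) • a = ((3 * K : ℕ) : ℝ) • vec p p r) : AtomOK Kc a (threeA K p r) :=
  ⟨ha, h, fun G hG x hx => by
    rw [Op_scale ha h hG hx]
    simp only [threeA, sumOL_cons, sumOL_nil]
    push_cast
    ring⟩

theorem threeB_ok {Kc K p r : ℕ} {a : Vec 3} (ha : NN a)
    (h : (Kc : ℝ) • a = ((3 * K : ℕ) : ℝ) • vec p r r) : AtomOK Kc a (threeB K p r) :=
  ⟨ha, h, fun G hG x hx => by
    rw [Op_scale ha h hG hx]
    simp only [threeB, sumOL_cons, sumOL_nil]
    push_cast
    ring⟩

theorem null_ok (K : ℕ) : AtomOK K 1 (null K) := by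
  have h : (K : ℝ) • (1 : Vec 3) = (K : ℝ) • vec 1 1 1 := by
    congr 1
    funext i
    fin_cases i <;> simp [vec]
  refine ⟨up_NN_one, h, fun G hG x hx => ?_⟩
  rw [Op_scale up_NN_one h hG hx]
  simp only [null, sumOL_cons, sumOL_nil]
  ring

section Prod
variable {a : ℕ → Vec 3} {A : ℕ → Atom} {Kc : ℕ}

/-- product of merging operators -/
noncomputable def prodA (a : ℕ → Vec 3) (s : List ℕ) : Module.End ℝ (Vec 3 → ℝ) :=
  (s.map fun i => Op (a i)).prod

theorem prodA_nil (G : Vec 3 → ℝ) : prodA a [] G = G := rfl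
theorem prodA_cons (i : ℕ) (s : List ℕ) (G : Vec 3 → ℝ) :
    prodA a (i :: s) G = Op (a i) (prodA a s G) := by
  simp [prodA]

theorem hom_prodA (h : ∀ i, AtomOK Kc (a i) (A i)) {G : Vec 3 → ℝ} (hG : Hom G) (s : List ℕ) :
    Hom (prodA a s G) := by
  induction s with
  | nil => exact hG
  | cons i s ih => rw [prodA_cons]; exact hom_Op (h i).nn ih

theorem sym_prodA {G : Vec 3 → ℝ} (hG : SymF G) (s : List ℕ) : SymF (prodA a s G) := by
  induction s with
  | nil => exact hG
  | cons i s ih => rw [prodA_cons]; exact sym_Op _ ih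

theorem val_rest (h : ∀ i, AtomOK Kc (a i) (A i)) {G : Vec 3 → ℝ} (hG : Hom G) (s : List ℕ) :
    ∀ x, NN x → (Kc : ℝ) ^ s.length * prodA a s G x =
      ((s.map fun i => (A i).K).prod : ℕ) * valR G (s.map fun i => (A i).O) x := by
  induction s with
  | nil => intro x _; simp [prodA_nil, valR_nil]
  | cons i s ih =>
    intro x hx
    rw [prodA_cons, List.length_cons, pow_succ, mul_assoc, (h i).rest _ (hom_prodA h hG s) x hx,
      List.map_cons, List.map_cons, valR_cons, List.prod_cons, mul_left_comm,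
      sumOL_scale (g := fun o => valR G (s.map fun i => (A i).O) (x * o))
        (q := ((s.map fun i => (A i).K).prod : ℕ)) fun o ho => ih _ (NN_mul hx ho)]
    push_cast
    ring

theorem val_first (h : ∀ i, AtomOK Kc (a i) (A i)) {G : Vec 3 → ℝ} (hG : Hom G) (hS : SymF G)
    (i : ℕ) (s : List ℕ) : (Kc : ℝ) ^ (i :: s).length * prodA a (i :: s) G 1 =
      ((A i).F * (s.map fun i => (A i).K).prod : ℕ) *
        valR G (s.map fun i => (A i).O) (vec (A i).b₁ (A i).b₂ (A i).b₃) := by
  rw [prodA_cons, Op_one (sym_prodA hS s), List.length_cons, pow_succ, mul_assoc,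
    ← hom_prodA h hG s _ _ (Nat.cast_nonneg _) (h i).nn, (h i).first,
    hom_prodA h hG s _ _ (Nat.cast_nonneg _) (vec_NN _ _ _), mul_left_comm,
    val_rest h hG s _ (vec_NN _ _ _)]
  push_cast
  ring

end Prod

/-- monomials of `(∑ i ∈ L, x i) ^ d` with their coefficients -/
def mons : List ℕ → ℕ → List (ℕ × List ℕ)
  | [], d => if d = 0 then [(1, [])] else []
  | i :: L, d => (List.range (d + 1)).flatMap fun k =>
      (mons L (d - k)).map fun p => (d.choose k * p.1, List.replicate k i ++ p.2)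

theorem mons_nil (d : ℕ) : mons [] d = if d = 0 then [(1, [])] else [] := rfl
theorem mons_cons (i : ℕ) (L : List ℕ) (d : ℕ) : mons (i :: L) d =
    (List.range (d + 1)).flatMap fun k =>
      (mons L (d - k)).map fun p => (d.choose k * p.1, List.replicate k i ++ p.2) := rfl

theorem sum_flatMap_range {R α : Type} [AddCommMonoid R] (f : ℕ → List α) (g : α → R) (n : ℕ) :
    (((List.range n).flatMap f).map g).sum = ∑ k ∈ range n, ((f k).map g).sum := by
  induction n with
  | zero => simp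
  | succ n ih => rw [List.range_succ, List.flatMap_append, List.map_append, List.sum_append, ih,
      sum_range_succ]; simp

theorem pow_eq_mons {R : Type} [Semiring R] (x : ℕ → R) (hx : ∀ i j, Commute (x i) (x j)) :
    ∀ (L : List ℕ) (d : ℕ), (L.map x).sum ^ d =
      ((mons L d).map fun p => (p.1 : R) * (p.2.map x).prod).sum := by
  intro L
  induction L with
  | nil =>
    intro d
    rw [mons_nil]
    split_ifs with h
    · simp [h]
    · simp [h]
  | cons i L ih =>
    intro d
    have hc : Commute (x i) (L.map x).sum :=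
      Commute.list_sum_right _ _ fun y hy => by
        obtain ⟨j, _, rfl⟩ := List.mem_map.1 hy
        exact hx i j
    rw [List.map_cons, List.sum_cons, hc.add_pow, mons_cons, sum_flatMap_range]
    refine sum_congr rfl fun k _ => ?_
    rw [ih, List.map_map, ← List.sum_map_mul_left, ← List.sum_map_mul_right]
    congr 1
    refine List.map_congr_left fun p _ => ?_
    simp only [Function.comp_apply, List.map_append, List.map_replicate, List.prod_append,
      List.prod_replicate, Nat.cast_mul]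
    rw [← (Nat.cast_commute (d.choose k) _).eq, mul_assoc, ← mul_assoc (x i ^ k),
      ← (Nat.cast_commute p.1 (x i ^ k)).eq, mul_assoc]

/-- a table entry: coefficient, multiset of atoms, packed value -/
structure Ent where
  c : ℕ
  s : List ℕ
  N : ℕ

noncomputable def chkEnt (f : ℕ → ℕ → ℕ → ℕ) (A : ℕ → Atom) (d : ℕ) (e : Ent) : Bool :=
  match e.s with
  | [] => false
  | i :: s => Nat.beq (s.length + 1) d && Nat.beq
      (e.c * ((A i).F * (s.map fun i => (A i).K).prod) *
        sumPts f (s.map fun i => (A i).O) (A i).b₁ (A i).b₂ (A i).b₃) e.N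

/-- the entry is a valid upper bound -/
def EntOK (B m : ℕ) (G : ℕ → Vec 3 → ℝ) (a : ℕ → Vec 3) (T : ℝ) (d : ℕ) (e : Ent) : Prop :=
  e.s.length = d ∧ Rep B m e.N fun j => T * (e.c * prodA a e.s (G j) 1)

theorem chkEnt_sound {f : ℕ → ℕ → ℕ → ℕ} {G : ℕ → Vec 3 → ℝ} {S : ℝ}
    (hf : ∀ x y z, Rep B m (f x y z) fun j => S * G j (vec x y z))
    {a : ℕ → Vec 3} {A : ℕ → Atom} {Kc d : ℕ} (h : ∀ i, AtomOK Kc (a i) (A i))
    (hG : ∀ j, Hom (G j)) (hS : ∀ j, SymF (G j)) {e : Ent} (he : chkEnt f A d e = true) :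
    EntOK B m G a (S * Kc ^ d) d e := by
  obtain ⟨c, s, N⟩ := e
  cases s with
  | nil => exact Bool.noConfusion he
  | cons i s =>
    simp only [chkEnt, Bool.and_eq_true, Nat.beq_eq] at he
    obtain ⟨h1, h2⟩ := he
    refine ⟨h1, ?_⟩
    have r := (sumPts_sound hf (s.map fun i => (A i).O) (A i).b₁ (A i).b₂ (A i).b₃).mul
      (c * ((A i).F * (s.map fun i => (A i).K).prod))
    rw [h2] at r
    refine r.mono fun j _ => le_of_eq ?_
    have := val_first h (hG j) (hS j) i s
    rw [List.length_cons, h1] at this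
    rw [Nat.cast_mul c]
    linear_combination (S * c) * this

noncomputable def prodW (W : ℕ → ℕ) (s : List ℕ) : ℕ :=
  List.rec (motive := fun _ => ℕ) (nat_lit 1) (fun i _ acc => Nat.mul (W i) acc) s

noncomputable def evalT (W : ℕ → ℕ) (T : List Ent) : ℕ :=
  List.rec (motive := fun _ => ℕ) (nat_lit 0)
    (fun e _ acc => Nat.add (Nat.mul (prodW W e.s) e.N) acc) T

theorem prodW_eq (W : ℕ → ℕ) (s : List ℕ) : prodW W s = (s.map W).prod := by
  induction s with
  | nil => rfl
  | cons i s ih => rw [List.map_cons, List.prod_cons, ← ih]; rfl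

theorem prod_smul_Op (w : ℕ → ℝ) (a : ℕ → Vec 3) (s : List ℕ) :
    (s.map fun i => w i • Op (a i)).prod = (s.map w).prod • prodA a s := by
  induction s with
  | nil => simp [prodA]
  | cons i s ih =>
    simp only [List.map_cons, List.prod_cons, ih, prodA, smul_mul_smul_comm]

theorem prod_scale {w : ℕ → ℝ} {W : ℕ → ℕ} {Sw : ℝ} (h : ∀ i, Sw * w i = W i) (s : List ℕ) :
    Sw ^ s.length * (s.map w).prod = ((s.map W).prod : ℕ) := by
  induction s with
  | nil => simp
  | cons i s ih =>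
    rw [List.length_cons, List.map_cons, List.map_cons, List.prod_cons, List.prod_cons,
      Nat.cast_mul, ← ih, ← h]
    ring

theorem evalT_sound {G : ℕ → Vec 3 → ℝ} {a : ℕ → Vec 3} {T : ℝ} {d : ℕ} {w : ℕ → ℝ} {W : ℕ → ℕ}
    {Sw : ℝ} (hw : ∀ i, Sw * w i = W i) (tb : List Ent) (h : ∀ e ∈ tb, EntOK B m G a T d e) :
    Rep B m (evalT W tb) fun j => Sw ^ d * T *
      ((tb.map fun e => (e.c : Module.End ℝ (Vec 3 → ℝ)) *
        (e.s.map fun i => w i • Op (a i)).prod).sum (G j) 1) := by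
  induction tb with
  | nil => exact Rep.zero.mono fun j _ => by simp
  | cons e tb ih =>
    obtain ⟨h1, h2⟩ := h e List.mem_cons_self
    refine ((h2.mul (prodW W e.s)).add (ih fun e' he' => h e' (List.mem_cons_of_mem _ he'))).mono
      fun j _ => le_of_eq ?_
    rw [List.map_cons, List.sum_cons, LinearMap.add_apply, Pi.add_apply, mul_add, prodW_eq,
      ← prod_scale hw, h1, prod_smul_Op]
    congr 1
    simp only [Module.End.mul_apply, LinearMap.smul_apply, Module.End.natCast_apply, Pi.smul_apply,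
      smul_eq_mul, nsmul_eq_mul]
    ring

/-! ### steps -/

noncomputable def nth (t : List ℕ) : ℕ → ℕ :=
  List.rec (motive := fun _ => ℕ → ℕ) (fun _ => nat_lit 0)
    (fun x _ ih i => Nat.rec (motive := fun _ => ℕ) x (fun k _ => ih k) i) t

/-- real tails -/
noncomputable def tR (Sw m : ℕ) (t : List ℕ) (j : ℕ) : ℝ := (nth t (min j m) : ℝ) / Sw

/-- integer weights -/
noncomputable def wOf (Sw m : ℕ) (t : List ℕ) (i : ℕ) : ℕ :=
  Bool.rec (motive := fun _ => ℕ) (Nat.sub Sw (nth t 0)) (Nat.sub (nth t i) (nth t (Nat.succ i)))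
    (Nat.ble i m)

noncomputable def tailsOK (Sw m : ℕ) (t : List ℕ) : Bool :=
  Nat.ble (nth t 0) Sw && Nat.beq (nth t (m + 1)) 0 &&
    (List.range m).all fun j => Nat.ble (nth t (j + 1)) (nth t j)

noncomputable def chkN (Sw B m Dn : ℕ) (t' : List ℕ) (N : ℕ) : Bool :=
  Nat.ble (N / B ^ m + 1) B && (Nat.ble (N / B ^ m % B) (nth t' 0 * Dn) || Nat.ble Sw (nth t' 0)) &&
    (List.range m).all fun j => Nat.ble (N / B ^ (m - (j + 1)) % B) (nth t' (j + 1) * Dn) ||
      Nat.ble (nth t' j) (nth t' (j + 1))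

noncomputable def chkStep (Sw B m Dn : ℕ) (tb : List Ent) (t t' : List ℕ) : Bool :=
  tailsOK Sw m t && chkN Sw B m Dn t' (evalT (wOf Sw m t) tb)

noncomputable def chkTraj (Sw B m Dn : ℕ) (tb : List Ent) (r : List (List ℕ)) : List ℕ → Bool :=
  List.rec (motive := fun _ => List ℕ → Bool) (fun _ => true)
    (fun t' _ ih t => chkStep Sw B m Dn tb t t' && ih t') r

/-- index of an atom -/
def dec (m i : ℕ) : Option (Fin (m + 1)) := if h : i < m + 1 then some ⟨i, h⟩ else none

theorem tails_of_ok {Sw : ℕ} (hS : 0 < Sw) {t : List ℕ} (h : tailsOK Sw m t = true) :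
    Tails m (tR Sw m t) := by
  simp only [tailsOK, Bool.and_eq_true, Nat.ble_eq, Nat.beq_eq, List.all_eq_true,
    List.mem_range] at h
  obtain ⟨⟨h1, -⟩, h3⟩ := h
  have hS' : (0 : ℝ) < Sw := Nat.cast_pos.2 hS
  refine ⟨?_, fun j hj => ?_, ?_⟩
  · rw [tR, div_le_one hS', Nat.zero_min]
    exact_mod_cast h1
  · rw [tR, tR, min_eq_left (by omega), min_eq_left hj.le]
    exact div_le_div_of_nonneg_right (by exact_mod_cast h3 j hj) hS'.le
  · unfold tR
    positivity

theorem weights_ok {Sw : ℕ} (hS : 0 < Sw) {t : List ℕ} (h : tailsOK Sw m t = true) (i : ℕ) :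
    (Sw : ℝ) * wN m (tR Sw m t) (dec m i) = wOf Sw m t i := by
  simp only [tailsOK, Bool.and_eq_true, Nat.ble_eq, Nat.beq_eq, List.all_eq_true,
    List.mem_range] at h
  obtain ⟨⟨h1, h2⟩, h3⟩ := h
  have hS' : (Sw : ℝ) ≠ 0 := Nat.cast_ne_zero.2 hS.ne'
  unfold dec wOf
  split_ifs with hi
  · rw [Nat.ble_eq_true_of_le (by omega : i ≤ m)]
    change _ * (tR Sw m t i - if i = m then 0 else tR Sw m t (i + 1)) =
      ((nth t i - nth t (i + 1) : ℕ) : ℝ)
    split_ifs with him
    · subst him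
      rw [h2, tR, min_self, Nat.sub_zero, sub_zero, mul_div_cancel₀ _ hS']
    · rw [Nat.cast_sub (h3 i (by omega)), tR, tR, min_eq_left (by omega), min_eq_left (by omega)]
      field_simp
  · have : Nat.ble i m = false := by
      cases hc : Nat.ble i m
      · rfl
      · have := Nat.le_of_ble_eq_true hc
        omega
    rw [this]
    change _ * (1 - tR Sw m t 0) = ((Sw - nth t 0 : ℕ) : ℝ)
    rw [Nat.cast_sub h1, tR, Nat.zero_min]
    field_simp

theorem opMix_eq (w : Option (Fin (m + 1)) → ℝ) (a : Option (Fin (m + 1)) → Vec 3) {L : List ℕ}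
    (hL : L.Perm (List.range (m + 2))) :
    opMix w a = ⇑((L.map fun i => w (dec m i) • Op (a (dec m i))).sum) := by
  have e : (L.map fun i => w (dec m i) • Op (a (dec m i))).sum = ∑ o, w o • Op (a o) := by
    have e0 : ∀ (f : ℕ → Module.End ℝ (Vec 3 → ℝ)) (n : ℕ),
        ((List.range n).map f).sum = ∑ k ∈ range n, f k := fun f n => by
      induction n with
      | zero => simp
      | succ n ih => rw [List.range_succ, List.map_append, List.sum_append, ih, sum_range_succ]; simp
    rw [(hL.map _).sum_eq, e0, sum_range_succ, Fintype.sum_option, add_comm, sum_range]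
    congr 1
    · simp [dec]
    · refine sum_congr rfl fun i _ => ?_
      simp only [dec, dif_pos i.2]
  funext G x
  rw [e]
  simp only [opMix, LinearMap.sum_apply, Finset.sum_apply, LinearMap.smul_apply, Pi.smul_apply,
    smul_eq_mul, Op_apply]

theorem step_sound {d : ℕ} {lam : ℝ} {δ : ℕ → ℝ} {DN : ℕ → (ℕ → ℝ) → Prop}
    (H : NSys (d + 1) lam m δ DN) {Sw Dn : ℕ} (hS : 0 < Sw) (hB : 0 < B) {T : ℝ} (hT : 0 < T)
    (hD : (Dn : ℝ) = Sw ^ d * T) {L : List ℕ} (hL : L.Perm (List.range (m + 2))) {tb : List Ent}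
    (hm : (tb.map fun e => (e.c, e.s)) = mons L (d + 1))
    (htb : ∀ e ∈ tb, EntOK B m (Tail δ) (fun i => aN m δ lam (dec m i)) T (d + 1) e)
    {t t' : List ℕ} (h : chkStep Sw B m Dn tb t t' = true) {n : ℕ} (hn : DN n (tR Sw m t)) :
    DN (n + 1) (tR Sw m t') := by
  simp only [chkStep, chkN, Bool.and_eq_true, Bool.or_eq_true, Nat.ble_eq, List.all_eq_true,
    List.mem_range] at h
  obtain ⟨h1, ⟨h2, h3⟩, h4⟩ := h
  have hS' : (0 : ℝ) < Sw := Nat.cast_pos.2 hS
  have r := evalT_sound (B := B) (m := m) (weights_ok hS h1) tb htb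
  have e : ∀ G : Vec 3 → ℝ, (opMix (wN m (tR Sw m t)) (aN m δ lam))^[d + 1] G =
      (tb.map fun e => (e.c : Module.End ℝ (Vec 3 → ℝ)) *
        (e.s.map fun i => wN m (tR Sw m t) (dec m i) • Op (aN m δ lam (dec m i))).prod).sum G := by
    intro G
    rw [opMix_eq _ _ hL, ← Module.End.pow_apply,
      pow_eq_mons _ (fun i j => ((Op_commute _ _).smul_left _).smul_right _), ← hm, List.map_map]
    rfl
  have key : ∀ j, j ≤ m → evalT (wOf Sw m t) tb / B ^ (m - j) % B ≤ nth t' j * Dn →
      (opMix (wN m (tR Sw m t)) (aN m δ lam))^[d + 1] (Tail δ j) 1 ≤ tR Sw m t' j := by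
    intro j hj hle
    have a1 := r.le_digit hB h2 hj
    rw [← e] at a1
    have a2 : ((evalT (wOf Sw m t) tb / B ^ (m - j) % B : ℕ) : ℝ) ≤ nth t' j * Dn := by
      exact_mod_cast hle
    rw [tR, min_eq_left hj, le_div_iff₀ hS']
    have a3 : 0 < (Sw : ℝ) ^ d * T := by positivity
    refine le_of_mul_le_mul_left ?_ a3
    rw [hD] at a2
    calc _ = (Sw : ℝ) ^ (d + 1) * T *
          (opMix (wN m (tR Sw m t)) (aN m δ lam))^[d + 1] (Tail δ j) 1 := by ring
      _ ≤ _ := a1.trans (a2.trans (le_of_eq (by ring)))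
  refine H.step n _ _ (tails_of_ok hS h1) hn ?_ fun j hj => ?_
  · rcases h3 with h3 | h3
    · exact Or.inl (key 0 (Nat.zero_le _) h3)
    · right
      rw [tR, Nat.zero_min, le_div_iff₀ hS', one_mul]
      exact_mod_cast h3
  · rcases h4 j hj with h4 | h4
    · exact Or.inl (key (j + 1) hj h4)
    · right
      rw [tR, tR, min_eq_left hj.le, min_eq_left (by omega)]
      exact div_le_div_of_nonneg_right (by exact_mod_cast h4) hS'.le

theorem traj_sound {P : List ℕ → Prop} {Sw Dn : ℕ} {tb : List Ent}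
    (hP : ∀ t t', chkStep Sw B m Dn tb t t' = true → P t → P t') :
    ∀ (r : List (List ℕ)) (t : List ℕ), chkTraj Sw B m Dn tb r t = true → P t → P (r.getLastD t) := by
  intro r
  induction r with
  | nil => intro t _ h; exact h
  | cons t' r ih =>
    intro t h ht
    have e : chkTraj Sw B m Dn tb (t' :: r) t =
        (chkStep Sw B m Dn tb t t' && chkTraj Sw B m Dn tb r t') := rfl
    rw [e, Bool.and_eq_true] at h
    rw [List.getLastD_cons]
    exact ih t' h.2 (hP t t' h.1 ht)

end Crest.Agent.R163.NE
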