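import Crest.Agent.R163.NodeT0
import Crest.Agent.R163.NodeT1
import Crest.Agent.R163.NodeT2
import Crest.Agent.R163.NodeT3
import Crest.Agent.R163.NodeT4
import Crest.Agent.R163.NodeT5

/-! Row 163: the full table. -/

set_option autoImplicit false
set_option maxRecDepth 100000

namespace Crest.Agent.R163.NE

noncomputable def tb4 : List Ent :=
  tb4_0 ++ (tb4_1 ++ (tb4_2 ++ (tb4_3 ++ (tb4_4 ++ (tb4_5 ++ (tb4_6 ++ (tb4_7 ++ (tb4_8 ++ (tb4_9 ++ (tb4_10 ++ (tb4_11 ++ (tb4_12 ++ (tb4_13 ++ (tb4_14 ++ (tb4_15 ++ (tb4_16 ++ (tb4_17 ++ (tb4_18 ++ (tb4_19 ++ (tb4_20 ++ (tb4_21 ++ (tb4_22 ++ (tb4_23 ++ (tb4_24 ++ (tb4_25 ++ (tb4_26 ++ (tb4_27 ++ (tb4_28 ++ (tb4_29 ++ (tb4_30 ++ (tb4_31)))))))))))))))))))))))))))))))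

theorem tb4_ok : tb4.all (chkEnt f4 A4 4) = true := by
  simp only [tb4, List.all_append, Bool.and_self, tb4_0_ok, tb4_1_ok, tb4_2_ok, tb4_3_ok, tb4_4_ok, tb4_5_ok, tb4_6_ok, tb4_7_ok, tb4_8_ok, tb4_9_ok, tb4_10_ok, tb4_11_ok, tb4_12_ok, tb4_13_ok, tb4_14_ok, tb4_15_ok, tb4_16_ok, tb4_17_ok, tb4_18_ok, tb4_19_ok, tb4_20_ok, tb4_21_ok, tb4_22_ok, tb4_23_ok, tb4_24_ok, tb4_25_ok, tb4_26_ok, tb4_27_ok, tb4_28_ok, tb4_29_ok, tb4_30_ok, tb4_31_ok]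

theorem tb4_mons : (tb4.map fun e => (e.c, e.s)) = mons [1, 2, 3, 4, 5, 6, 0, 7, 8] 4 := by
  decide +kernel

theorem tb5_mons : (tb5.map fun e => (e.c, e.s)) = mons [0, 1, 2] 5 := by
  decide +kernel

end Crest.Agent.R163.NE
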