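import Mathlib

/-! Row 163: a small reflective engine for integer polynomials in six variables. -/

set_option autoImplicit false

namespace Crest.Agent.R163.PE

abbrev Poly := List (ℕ × ℤ)

/-- value of a term list for an arbitrary valuation of the keys -/
noncomputable def evG (μ : ℕ → ℝ) (p : Poly) : ℝ := (p.map (fun t => (t.2 : ℝ) * μ t.1)).sum

@[simp] theorem evG_nil (μ : ℕ → ℝ) : evG μ [] = 0 := rfl

@[simp] theorem evG_cons (μ : ℕ → ℝ) (t : ℕ × ℤ) (p : Poly) :
    evG μ (t :: p) = (t.2 : ℝ) * μ t.1 + evG μ p := by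
  simp [evG]

noncomputable def merge (p : Poly) : Poly → Poly :=
  List.rec (motive := fun _ => Poly → Poly) (fun q => q)
    (fun a p ih q => List.rec (motive := fun _ => Poly) (a :: p)
      (fun b q' ih2 => cond (Nat.blt a.1 b.1) (a :: ih (b :: q'))
        (cond (Nat.beq a.1 b.1) ((a.1, Int.add a.2 b.2) :: ih q') (b :: ih2))) q) p

theorem merge_nil (q : Poly) : merge [] q = q := rfl
theorem merge_cons_nil (a : ℕ × ℤ) (p : Poly) : merge (a :: p) [] = a :: p := rfl
theorem merge_cons_cons (a b : ℕ × ℤ) (p q : Poly) : merge (a :: p) (b :: q) =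
    cond (Nat.blt a.1 b.1) (a :: merge p (b :: q))
      (cond (Nat.beq a.1 b.1) ((a.1, Int.add a.2 b.2) :: merge p q) (b :: merge (a :: p) q)) := rfl

theorem evG_merge (μ : ℕ → ℝ) (p q : Poly) : evG μ (merge p q) = evG μ p + evG μ q := by
  induction p generalizing q with
  | nil => simp [merge_nil]
  | cons a p ih =>
    induction q with
    | nil => simp [merge_cons_nil]
    | cons b q ih2 =>
      rw [merge_cons_cons]
      cases h1 : Nat.blt a.1 b.1
      · cases h2 : Nat.beq a.1 b.1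
        · simp only [cond_false, evG_cons, ih2]; ring
        · have := Nat.eq_of_beq_eq_true h2
          simp only [cond_false, cond_true, evG_cons, ih, ← this, Int.add_def]; push_cast; ring
      · simp only [cond_true, evG_cons, ih]; ring

theorem mem_merge {Q : ℕ → Prop} {p q : Poly} (hp : ∀ t ∈ p, Q t.1) (hq : ∀ t ∈ q, Q t.1) :
    ∀ t ∈ merge p q, Q t.1 := by
  induction p generalizing q with
  | nil => simpa [merge_nil] using hq
  | cons a p ih =>
    induction q with
    | nil => simpa [merge_cons_nil] using hp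
    | cons b q ih2 =>
      have ha : Q a.1 := hp a (by simp)
      have hb : Q b.1 := hq b (by simp)
      have hp' : ∀ t ∈ p, Q t.1 := fun t ht => hp t (by simp [ht])
      have hq' : ∀ t ∈ q, Q t.1 := fun t ht => hq t (by simp [ht])
      rw [merge_cons_cons]
      cases h1 : Nat.blt a.1 b.1
      · cases h2 : Nat.beq a.1 b.1
        · simp only [cond_false, List.mem_cons]
          rintro t (rfl | ht)
          · exact hb
          · exact ih2 hq' t ht
        · simp only [cond_false, cond_true, List.mem_cons]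
          rintro t (rfl | ht)
          · exact ha
          · exact ih hp' hq' t ht
      · simp only [cond_true, List.mem_cons]
        rintro t (rfl | ht)
        · exact ha
        · exact ih hp' hq t ht

noncomputable def mulTerm (k : ℕ) (c : ℤ) (q : Poly) : Poly :=
  List.rec (motive := fun _ => Poly) [] (fun b _ ih => (Nat.add k b.1, Int.mul c b.2) :: ih) q

theorem mulTerm_nil (k : ℕ) (c : ℤ) : mulTerm k c [] = [] := rfl
theorem mulTerm_cons (k : ℕ) (c : ℤ) (b : ℕ × ℤ) (q : Poly) :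
    mulTerm k c (b :: q) = (k + b.1, c * b.2) :: mulTerm k c q := rfl

noncomputable def mul (p q : Poly) : Poly :=
  List.rec (motive := fun _ => Poly) [] (fun a _ ih => merge (mulTerm a.1 a.2 q) ih) p

theorem mul_nil (q : Poly) : mul [] q = [] := rfl
theorem mul_cons (a : ℕ × ℤ) (p q : Poly) :
    mul (a :: p) q = merge (mulTerm a.1 a.2 q) (mul p q) := rfl

/-- the monomial coded by `k` in base 16 -/
noncomputable def ev1 (w : ℕ → ℝ) (k : ℕ) : ℝ :=
  w 0 ^ (k % 16) * w 1 ^ (k / 16 % 16) * w 2 ^ (k / 256 % 16) * w 3 ^ (k / 4096 % 16)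
    * w 4 ^ (k / 65536 % 16) * w 5 ^ (k / 1048576)

/-- two partial degrees of a key: in the variables `0,1,2,3` and … we only need every digit
to stay below 16, which follows from a bound on the pair of block degrees. -/
def dA (k : ℕ) : ℕ := k % 16 + k / 16 % 16 + k / 256 % 16
def dB (k : ℕ) : ℕ := k / 4096 % 16 + k / 65536 % 16 + k / 1048576

theorem dig_step {k l : ℕ} (h : k % 16 + l % 16 ≤ 15) :
    (k + l) % 16 = k % 16 + l % 16 ∧ (k + l) / 16 = k / 16 + l / 16 := by
  constructor <;> omega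

theorem key_add {w : ℕ → ℝ} {k l : ℕ} (hA : dA k + dA l ≤ 15) (hB : dB k + dB l ≤ 15) :
    ev1 w (k + l) = ev1 w k * ev1 w l ∧ dA (k + l) = dA k + dA l ∧ dB (k + l) = dB k + dB l := by
  have e2 : ∀ n : ℕ, n / 256 = n / 16 / 16 := fun n => by rw [Nat.div_div_eq_div_mul]
  have e3 : ∀ n : ℕ, n / 4096 = n / 16 / 16 / 16 := fun n => by
    simp only [Nat.div_div_eq_div_mul]
  have e4 : ∀ n : ℕ, n / 65536 = n / 16 / 16 / 16 / 16 := fun n => by
    simp only [Nat.div_div_eq_div_mul]
  have e5 : ∀ n : ℕ, n / 1048576 = n / 16 / 16 / 16 / 16 / 16 := fun n => by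
    simp only [Nat.div_div_eq_div_mul]
  unfold dA at *
  unfold dB at *
  unfold ev1
  simp only [e2, e3, e4, e5] at *
  obtain ⟨a0, b0⟩ := dig_step (k := k) (l := l)
    (le_trans (Nat.add_le_add (le_trans (Nat.le_add_right _ _) (Nat.le_add_right _ _))
      (le_trans (Nat.le_add_right _ _) (Nat.le_add_right _ _))) hA)
  obtain ⟨a1, b1⟩ := dig_step (k := k / 16) (l := l / 16)
    (le_trans (Nat.add_le_add (le_trans (Nat.le_add_left _ _) (Nat.le_add_right _ _))
      (le_trans (Nat.le_add_left _ _) (Nat.le_add_right _ _))) hA)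
  obtain ⟨a2, b2⟩ := dig_step (k := k / 16 / 16) (l := l / 16 / 16)
    (le_trans (Nat.add_le_add (Nat.le_add_left _ _) (Nat.le_add_left _ _)) hA)
  obtain ⟨a3, b3⟩ := dig_step (k := k / 16 / 16 / 16) (l := l / 16 / 16 / 16)
    (le_trans (Nat.add_le_add (le_trans (Nat.le_add_right _ _) (Nat.le_add_right _ _))
      (le_trans (Nat.le_add_right _ _) (Nat.le_add_right _ _))) hB)
  obtain ⟨a4, b4⟩ := dig_step (k := k / 16 / 16 / 16 / 16) (l := l / 16 / 16 / 16 / 16)
    (le_trans (Nat.add_le_add (le_trans (Nat.le_add_left _ _) (Nat.le_add_right _ _))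
      (le_trans (Nat.le_add_left _ _) (Nat.le_add_right _ _))) hB)
  rw [a0, b0, a1, b1, a2, b2, a3, b3, a4, b4]
  refine ⟨?_, ?_, ?_⟩
  · simp only [pow_add]; ring
  · ring
  · ring

/-- `p` has block degrees at most `d` and value `f` at `w` -/
def Rep (w : ℕ → ℝ) (d : ℕ × ℕ) (p : Poly) (f : ℝ) : Prop :=
  (∀ t ∈ p, dA t.1 ≤ d.1 ∧ dB t.1 ≤ d.2) ∧ evG (ev1 w) p = f

theorem Rep.merge {w : ℕ → ℝ} {d e : ℕ × ℕ} {p q : Poly} {f g : ℝ} (hp : Rep w d p f)
    (hq : Rep w e q g) : Rep w (max d.1 e.1, max d.2 e.2) (merge p q) (f + g) := by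
  refine ⟨mem_merge (Q := fun k => dA k ≤ max d.1 e.1 ∧ dB k ≤ max d.2 e.2) ?_ ?_, ?_⟩
  · intro t ht; have := hp.1 t ht; constructor <;> omega
  · intro t ht; have := hq.1 t ht; constructor <;> omega
  · rw [evG_merge, hp.2, hq.2]

theorem Rep.mulTerm {w : ℕ → ℝ} {d e : ℕ × ℕ} {k : ℕ} {c : ℤ} {q : Poly} {g : ℝ}
    (hk : dA k ≤ d.1 ∧ dB k ≤ d.2) (hq : Rep w e q g) (h1 : d.1 + e.1 ≤ 15)
    (h2 : d.2 + e.2 ≤ 15) :
    Rep w (d.1 + e.1, d.2 + e.2) (mulTerm k c q) (c * ev1 w k * g) := by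
  obtain ⟨hq1, rfl⟩ := hq
  induction q with
  | nil => exact ⟨by simp [mulTerm_nil], by simp [mulTerm_nil]⟩
  | cons b q ih =>
    have hb := hq1 b (by simp)
    obtain ⟨ih1, ih2⟩ := ih (fun t ht => hq1 t (by simp [ht]))
    obtain ⟨e1, e2, e3⟩ := key_add (w := w) (k := k) (l := b.1) (by omega) (by omega)
    rw [mulTerm_cons]
    refine ⟨?_, ?_⟩
    · intro t ht
      rcases List.mem_cons.1 ht with rfl | ht
      · simp only [e2, e3]; constructor <;> omega
      · exact ih1 t ht
    · simp only [evG_cons, ih2, e1]; push_cast; ring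

theorem Rep.mul {w : ℕ → ℝ} {d e : ℕ × ℕ} {p q : Poly} {f g : ℝ} (hp : Rep w d p f)
    (hq : Rep w e q g) (h1 : d.1 + e.1 ≤ 15) (h2 : d.2 + e.2 ≤ 15) :
    Rep w (d.1 + e.1, d.2 + e.2) (mul p q) (f * g) := by
  obtain ⟨hp1, rfl⟩ := hp
  induction p with
  | nil => exact ⟨by simp [mul_nil], by simp [mul_nil]⟩
  | cons a p ih =>
    have ha := hp1 a (by simp)
    have := (Rep.mulTerm (c := a.2) ha hq h1 h2).merge (ih (fun t ht => hp1 t (by simp [ht])))
    rw [mul_cons]
    simp only [max_self] at this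
    refine ⟨this.1, ?_⟩
    rw [this.2, evG_cons]; ring

/-- polynomial expressions over an environment -/
inductive E where
  | var : ℕ → E
  | cst : ℤ → E
  | add : E → E → E
  | mul : E → E → E
  | smul : ℤ → E → E

noncomputable def E.ev (ρ : List ℝ) : E → ℝ
  | .var n => ρ.getD n 0
  | .cst c => c
  | .add a b => a.ev ρ + b.ev ρ
  | .mul a b => a.ev ρ * b.ev ρ
  | .smul c a => c * a.ev ρ

def E.deg (ds : List (ℕ × ℕ)) : E → ℕ × ℕ
  | .var n => ds.getD n (0, 0)
  | .cst _ => (0, 0)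
  | .add a b => (max (a.deg ds).1 (b.deg ds).1, max (a.deg ds).2 (b.deg ds).2)
  | .mul a b => ((a.deg ds).1 + (b.deg ds).1, (a.deg ds).2 + (b.deg ds).2)
  | .smul _ a => a.deg ds

noncomputable def E.norm (env : List Poly) (e : E) : Poly :=
  E.rec (motive := fun _ => Poly) (fun n => env.getD n []) (fun c => [(0, c)])
    (fun _ _ p q => merge p q) (fun _ _ p q => PE.mul p q) (fun c _ p => mulTerm 0 c p) e

/-- an environment of represented values -/
def RepL (w : ℕ → ℝ) : List (ℕ × ℕ) → List Poly → List ℝ → Prop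
  | [], [], [] => True
  | d :: ds, p :: ps, f :: fs => Rep w d p f ∧ RepL w ds ps fs
  | _, _, _ => False

theorem RepL.getD {w : ℕ → ℝ} : ∀ {ds : List (ℕ × ℕ)} {ps : List Poly} {fs : List ℝ},
    RepL w ds ps fs → ∀ n, Rep w (ds.getD n (0, 0)) (ps.getD n []) (fs.getD n 0)
  | [], [], [], _, n => ⟨by simp, by simp⟩
  | d :: ds, p :: ps, f :: fs, h, 0 => by simpa using h.1
  | d :: ds, p :: ps, f :: fs, h, n + 1 => by simpa using RepL.getD h.2 n
  | [], [], _ :: _, h, _ => h.elim
  | [], _ :: _, _, h, _ => h.elim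
  | _ :: _, [], _, h, _ => h.elim
  | _ :: _, _ :: _, [], h, _ => h.elim

theorem ev1_zero (w : ℕ → ℝ) : ev1 w 0 = 1 := by simp [ev1]

theorem E.rep {w : ℕ → ℝ} {ds : List (ℕ × ℕ)} {env : List Poly} {ρ : List ℝ}
    (h : RepL w ds env ρ) (e : E) (h1 : (e.deg ds).1 ≤ 15) (h2 : (e.deg ds).2 ≤ 15) :
    Rep w (e.deg ds) (e.norm env) (e.ev ρ) := by
  induction e with
  | var n => exact h.getD n
  | cst c => exact ⟨by simp [E.norm, dA, dB], by simp [E.norm, E.ev, ev1_zero]⟩
  | add a b iha ihb =>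
    simp only [E.deg] at h1 h2
    exact (iha (by omega) (by omega)).merge (ihb (by omega) (by omega))
  | mul a b iha ihb =>
    simp only [E.deg] at h1 h2
    exact (iha (by omega) (by omega)).mul (ihb (by omega) (by omega)) h1 h2
  | smul c a iha =>
    simp only [E.deg] at h1 h2
    have := Rep.mulTerm (d := (0, 0)) (k := 0) (c := c) (by simp [dA, dB]) (iha h1 h2)
      (by omega) (by omega)
    simpa [ev1_zero, E.deg, E.ev, E.norm] using this

def degOK (ds : List (ℕ × ℕ)) (es : List E) : Bool :=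
  es.all (fun e => Nat.ble (e.deg ds).1 15 && Nat.ble (e.deg ds).2 15)

theorem RepL.map {w : ℕ → ℝ} {ds : List (ℕ × ℕ)} {env : List Poly} {ρ : List ℝ}
    (h : RepL w ds env ρ) (es : List E) (hd : degOK ds es = true) :
    RepL w (es.map (E.deg ds)) (es.map (E.norm env)) (es.map (E.ev ρ)) := by
  induction es with
  | nil => trivial
  | cons e es ih =>
    simp only [degOK, List.all_cons, Bool.and_eq_true, Nat.ble_eq] at hd
    exact ⟨e.rep h hd.1.1 hd.1.2, ih (by simpa [degOK] using hd.2)⟩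

/-- the six variables -/
def env0 : List Poly :=
  [[(1, 1)], [(16, 1)], [(256, 1)], [(4096, 1)], [(65536, 1)], [(1048576, 1)]]

def ds0 : List (ℕ × ℕ) := [(1, 0), (1, 0), (1, 0), (0, 1), (0, 1), (0, 1)]

theorem repL0 (w : ℕ → ℝ) : RepL w ds0 env0 [w 0, w 1, w 2, w 3, w 4, w 5] := by
  refine ⟨?_, ?_, ?_, ?_, ?_, ?_, trivial⟩ <;>
    exact ⟨by simp [dA, dB], by simp [ev1]⟩

noncomputable def allZero (p : Poly) : Bool :=
  List.rec (motive := fun _ => Bool) true (fun a _ ih => cond (decide (a.2 = 0)) ih false) p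

theorem evG_of_allZero (μ : ℕ → ℝ) {p : Poly} (h : allZero p = true) : evG μ p = 0 := by
  induction p with
  | nil => rfl
  | cons a p ih =>
    have h' : cond (decide (a.2 = 0)) (allZero p) false = true := h
    by_cases ha : a.2 = 0
    · simp only [ha, decide_true, cond_true] at h'
      simp [ha, ih h']
    · simp [ha] at h'

end Crest.Agent.R163.PE
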