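import Crest.Agent.R163.PolyCone

/-! Row 163: simplicial cells and the control points of feature vectors on them. -/

set_option autoImplicit false

namespace Crest.Agent.R163.PE

open Finset

/-- four generators in `ℤ⁴` -/
abbrev Cell := Fin 4 → Fin 4 → ℤ

def setv (c : Cell) (i j : Fin 4) : Cell :=
  fun k l => if k = j then c i l + c j l else 2 * c k l

inductive Tr where
  | leaf : Tr
  | node : Fin 4 → Fin 4 → Tr → Tr → Tr

def Tr.cells : Tr → Cell → List Cell
  | .leaf, c => [c]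
  | .node i j l r, c => l.cells (setv c i j) ++ r.cells (setv c j i)

def Tr.ok : Tr → Bool
  | .leaf => true
  | .node i j l r => decide (i ≠ j) && l.ok && r.ok

def InCell (c : Cell) (ρ : Fin 4 → ℝ) : Prop :=
  ∃ w : Fin 4 → ℝ, (∀ i, 0 ≤ w i) ∧ ∀ l, ρ l = ∑ i, w i * c i l

theorem InCell.setv {c : Cell} {ρ : Fin 4 → ℝ} {i j : Fin 4} (hij : i ≠ j) {w : Fin 4 → ℝ}
    (hw : ∀ i, 0 ≤ w i) (h : ∀ l, ρ l = ∑ i, w i * c i l) (hle : w j ≤ w i) :
    InCell (setv c i j) ρ := by
  refine ⟨fun k => if k = j then w j else if k = i then (w i - w j) / 2 else w k / 2, ?_, ?_⟩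
  · intro k
    have := hw k; have := hw j
    dsimp only
    split_ifs <;> linarith
  · intro l
    rw [h l]
    fin_cases i <;> fin_cases j <;> first
      | exact absurd rfl hij
      | (simp [Fin.sum_univ_four, PE.setv]; ring)

theorem InCell.cover (t : Tr) (ht : t.ok = true) {c : Cell} {ρ : Fin 4 → ℝ} (h : InCell c ρ) :
    ∃ c' ∈ t.cells c, InCell c' ρ := by
  induction t generalizing c with
  | leaf => exact ⟨c, by simp [Tr.cells], h⟩
  | node i j l r ihl ihr =>
    simp only [Tr.ok, Bool.and_eq_true, decide_eq_true_eq] at ht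
    obtain ⟨w, hw, hρ⟩ := h
    rcases le_total (w j) (w i) with hle | hle
    · obtain ⟨c', h1, h2⟩ := ihl ht.1.2 (InCell.setv ht.1.1 hw hρ hle)
      exact ⟨c', by simp [Tr.cells, h1], h2⟩
    · obtain ⟨c', h1, h2⟩ := ihr ht.2 (InCell.setv ht.1.1.symm hw hρ hle)
      exact ⟨c', by simp [Tr.cells, h1], h2⟩

def linE (c : Cell) (l : Fin 4) : E :=
  .add (.smul (c 0 l) (.var 0)) (.add (.smul (c 1 l) (.var 1))
    (.add (.smul (c 2 l) (.var 2)) (.smul (c 3 l) (.var 3))))

def linL (c : Cell) : List E := [linE c 0, linE c 1, linE c 2, linE c 3]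

def ds1 : List (ℕ × ℕ) := [(1, 1), (1, 1), (1, 1), (1, 1)]

/-- the polynomials of the features `fe` of the invariants `inv` on the cell `c` -/
noncomputable def cellPolys (inv fe : List E) (c : Cell) : List Poly :=
  fe.map (E.norm (inv.map (E.norm ((linL c).map (E.norm env0)))))

noncomputable def featR (inv fe : List E) (ρ : Fin 4 → ℝ) : ℕ → ℝ :=
  fun i => (fe.map (E.ev (inv.map (E.ev [ρ 0, ρ 1, ρ 2, ρ 3])))).getD i 0

def degsOK (inv fe : List E) : Bool := degOK ds1 inv && degOK (inv.map (E.deg ds1)) fe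

theorem InCell.inCone {inv fe : List E} (hd : degsOK inv fe = true) {c : Cell} {ρ : Fin 4 → ℝ}
    (h : InCell c ρ) (hg : ctrlGood (cellPolys inv fe c) = true) (n : ℕ) :
    InCone n (ctrl (cellPolys inv fe c)) (featR inv fe ρ) := by
  obtain ⟨w, hw, hρ⟩ := h
  simp only [degsOK, Bool.and_eq_true] at hd
  set W : ℕ → ℝ := fun i => [w 0, w 1, w 2, w 3].getD i 0 with hW
  have hW0 : ∀ i, 0 ≤ W i := by
    intro i
    rcases i with _ | _ | _ | _ | i <;> simp [hW, hw]
  have r0 := (repL0 W).map (linL c) (by rfl)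
  have e1 : (linL c).map (E.deg ds0) = ds1 := rfl
  have e2 : (linL c).map (E.ev [W 0, W 1, W 2, W 3, W 4, W 5]) = [ρ 0, ρ 1, ρ 2, ρ 3] := by
    simp only [linL, linE, List.map_cons, List.map_nil, E.ev, hρ, Fin.sum_univ_four, hW,
      List.getD_cons_zero, List.getD_cons_succ]
    simp only [List.cons.injEq, and_true]
    refine ⟨?_, ?_, ?_, ?_⟩ <;> ring
  rw [e1, e2] at r0
  exact ((r0.map inv hd.1).map fe hd.2).inCone hW0 hg n

/-- `v₀^a v₁^b v₂^c v₃^d` -/
def powE (x : E) : ℕ → E → E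
  | 0, e => e
  | n + 1, e => .mul x (powE x n e)

def monoE (m : ℕ × ℕ × ℕ × ℕ) : E :=
  powE (.var 1) m.2.1 (powE (.var 2) m.2.2.1 (powE (.var 3) m.2.2.2 (powE (.var 0) m.1 (.cst 1))))

theorem ev_powE (ρ : List ℝ) (x : E) (n : ℕ) (e : E) :
    (powE x n e).ev ρ = x.ev ρ ^ n * e.ev ρ := by
  induction n with
  | zero => simp [powE]
  | succ n ih => simp [powE, E.ev, ih]; ring

theorem ev_monoE (h X Y Z : ℝ) (m : ℕ × ℕ × ℕ × ℕ) :
    (monoE m).ev [h, X, Y, Z] = h ^ m.1 * X ^ m.2.1 * Y ^ m.2.2.1 * Z ^ m.2.2.2 := by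
  simp [monoE, ev_powE, E.ev]; ring

/-- `∑ cᵢ eᵢ`, zero coefficients skipped -/
def dotE : List ℤ → List E → E
  | c :: l, e :: es => cond (decide (c = 0)) (dotE l es) (.add (.smul c e) (dotE l es))
  | _, _ => .cst 0

theorem ev_dotE (ρ : List ℝ) {n : ℕ} (l : List ℤ) (es : List E) (h : l.length ≤ n) :
    (dotE l es).ev ρ = dotN n (toF l) (fun i => (es.map (E.ev ρ)).getD i 0) := by
  induction l generalizing es n with
  | nil => simp [dotE, E.ev, dotN, toF_nil]
  | cons c l ih =>
    cases es with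
    | nil => simp [dotE, E.ev, dotN]
    | cons e es =>
      obtain ⟨n, rfl⟩ : ∃ m, n = m + 1 := ⟨n - 1, by simp at h; omega⟩
      have := @ih n es (by simpa using h)
      rw [dotN, sum_range_succ']
      simp only [toF_cons_zero, toF_cons_succ, List.map_cons, List.getD_cons_zero,
        List.getD_cons_succ]
      rw [dotN] at this
      rw [← this, dotE]
      by_cases hc : c = 0
      · simp [hc]
      · simp [hc, E.ev]; ring

/-- `∑ᵢ (Mᵢ · gs) fᵢ` -/
def bilE : List (List ℤ) → List E → List E → E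
  | r :: M, f :: fs, gs => .add (.mul (dotE r gs) f) (bilE M fs gs)
  | _, _, _ => .cst 0

theorem ev_bilE (ρ : List ℝ) {n m : ℕ} (M : List (List ℤ)) (fs gs : List E) (h : M.length ≤ n)
    (hr : ∀ r ∈ M, r.length ≤ m) :
    (bilE M fs gs).ev ρ = bilN n m M (fun i => (fs.map (E.ev ρ)).getD i 0)
      (fun i => (gs.map (E.ev ρ)).getD i 0) := by
  induction M generalizing fs n with
  | nil => simp [bilE, E.ev, bilN, dotN, toF_nil]
  | cons r M ih =>
    cases fs with
    | nil => simp [bilE, E.ev, bilN, dotN]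
    | cons f fs =>
      obtain ⟨n, rfl⟩ : ∃ m, n = m + 1 := ⟨n - 1, by simp at h; omega⟩
      have := @ih n fs (by simpa using h) (fun r hr' => hr r (by simp [hr']))
      rw [bilN, dotN, sum_range_succ']
      simp only [List.map_cons, List.getD_cons_zero, List.getD_cons_succ]
      rw [bilN, dotN] at this
      rw [← this, bilE, E.ev, E.ev, ev_dotE ρ r gs (hr r (by simp))]
      ring

/-- Horner form `∑ x^k h_k` -/
def hornerE (x : E) : List E → E
  | [] => .cst 0
  | [h] => h
  | h :: hs => .add h (.mul x (hornerE x hs))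

noncomputable def hornerR (x : ℝ) : List ℝ → ℝ
  | [] => 0
  | h :: hs => h + x * hornerR x hs

theorem ev_hornerE (ρ : List ℝ) (x : E) : ∀ hs : List E,
    (hornerE x hs).ev ρ = hornerR (x.ev ρ) (hs.map (E.ev ρ))
  | [] => by simp [hornerE, hornerR, E.ev]
  | [h] => by simp [hornerE, hornerR]
  | h :: h' :: hs => by
    have := ev_hornerE ρ x (h' :: hs)
    simp only [hornerE, E.ev, this, List.map_cons, hornerR]

end Crest.Agent.R163.PE
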