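import Crest.Agent.R163.Poly

/-! Row 163: control points of polynomial vectors and packed checks of bilinear forms. -/

set_option autoImplicit false

namespace Crest.Agent.R163.PE

open Finset

noncomputable def toF (l : List ℤ) : ℕ → ℝ := fun i => ((l.getD i 0 : ℤ) : ℝ)

noncomputable def dotN (n : ℕ) (a b : ℕ → ℝ) : ℝ := ∑ i ∈ range n, a i * b i

/-- `v` lies in the closed cone generated by the integer vectors in `G` -/
def InCone (n : ℕ) (G : List (List ℤ)) (v : ℕ → ℝ) : Prop :=
  ∀ l : ℕ → ℝ, (∀ g ∈ G, 0 ≤ dotN n l (toF g)) → 0 ≤ dotN n l v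

theorem InCone.mono {n : ℕ} {G G' : List (List ℤ)} {v : ℕ → ℝ} (h : InCone n G v)
    (hG : ∀ g ∈ G, g ∈ G') : InCone n G' v := fun l hl => h l (fun g hg => hl g (hG g hg))

noncomputable def bilN (n m : ℕ) (M : List (List ℤ)) (a b : ℕ → ℝ) : ℝ :=
  dotN n (fun i => dotN m (toF (M.getD i [])) b) a

theorem bilN_swap (n m : ℕ) (M : List (List ℤ)) (a b : ℕ → ℝ) :
    bilN n m M a b = dotN m (fun j => ∑ i ∈ range n, toF (M.getD i []) j * a i) b := by
  simp only [bilN, dotN, sum_mul]
  rw [sum_comm]
  exact sum_congr rfl fun _ _ => sum_congr rfl fun _ _ => by ring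

theorem bilN_nonneg {n m : ℕ} {M G H : List (List ℤ)} {a b : ℕ → ℝ} (ha : InCone n G a)
    (hb : InCone m H b) (h : ∀ g ∈ G, ∀ k ∈ H, 0 ≤ bilN n m M (toF g) (toF k)) :
    0 ≤ bilN n m M a b := by
  apply ha
  intro g hg
  have := hb (fun j => ∑ i ∈ range n, toF (M.getD i []) j * toF g i) (fun k hk => by
    rw [← bilN_swap]; exact h g hg k hk)
  rw [← bilN_swap] at this
  exact this

/-! ### control points -/

def hdc (p : Poly) : ℤ := (p.headD (0, 0)).2

def hdOK (k : ℕ) : Poly → Bool
  | [] => false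
  | t :: _ => Nat.beq t.1 k

noncomputable def ctrlAux (ks : Poly) : List Poly → List (List ℤ) :=
  List.rec (motive := fun _ => List Poly → List (List ℤ)) (fun _ => [])
    (fun _ _ ih ps => ps.map hdc :: ih (ps.map List.tail)) ks

noncomputable def ctrlOK (ks : Poly) : List Poly → Bool :=
  List.rec (motive := fun _ => List Poly → Bool) (fun ps => ps.all List.isEmpty)
    (fun k _ ih ps => cond (ps.all (hdOK k.1)) (ih (ps.map List.tail)) false) ks

theorem getD_map_default {α β : Type} (f : α → β) (l : List α) (i : ℕ) (a : α) :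
    (l.map f).getD i (f a) = f (l.getD i a) := by
  simp [List.getD_eq_getElem?_getD, List.getElem?_map]

theorem inCone_ctrl {μ : ℕ → ℝ} (hμ : ∀ k, 0 ≤ μ k) (n : ℕ) (ks : Poly) (ps : List Poly)
    (h : ctrlOK ks ps = true) :
    InCone n (ctrlAux ks ps) (fun i => evG μ (ps.getD i [])) := by
  intro l
  induction ks generalizing ps with
  | nil =>
    intro _
    have h' : ps.all List.isEmpty = true := h
    have : ∀ i, ps.getD i [] = [] := by
      intro i
      rcases lt_or_ge i ps.length with hi | hi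
      · have := List.all_eq_true.1 h' ps[i] (List.getElem_mem hi)
        rw [List.getD_eq_getElem _ _ hi]; simpa using this
      · exact List.getD_eq_default _ _ hi
    simp only [dotN, this, evG_nil, mul_zero, sum_const_zero, le_refl]
  | cons k ks ih =>
    intro hl
    have h' : cond (ps.all (hdOK k.1)) (ctrlOK ks (ps.map List.tail)) false = true := h
    have h1 : ps.all (hdOK k.1) = true := by
      cases hh : ps.all (hdOK k.1) <;> simp_all
    rw [h1, cond_true] at h'
    have e : ctrlAux (k :: ks) ps = ps.map hdc :: ctrlAux ks (ps.map List.tail) := rfl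
    rw [e] at hl
    have i1 := ih _ h' (fun g hg => hl g (by simp [hg]))
    have i2 := hl (ps.map hdc) (by simp)
    have key : ∀ i, evG μ (ps.getD i []) =
        μ k.1 * toF (ps.map hdc) i + evG μ ((ps.map List.tail).getD i []) := by
      intro i
      have e1 : (ps.map List.tail).getD i [] = (ps.getD i []).tail :=
        getD_map_default List.tail ps i []
      have e2 : (ps.map hdc).getD i 0 = hdc (ps.getD i []) := getD_map_default hdc ps i []
      rw [e1, toF, e2]
      rcases lt_or_ge i ps.length with hi | hi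
      · have := List.all_eq_true.1 h1 ps[i] (List.getElem_mem hi)
        rw [List.getD_eq_getElem _ _ hi]
        cases hp : ps[i] with
        | nil => simp [hp, hdOK] at this
        | cons t p =>
          rw [hp] at this
          have ht : t.1 = k.1 := Nat.eq_of_beq_eq_true this
          simp [hdc, ht]; ring
      · rw [List.getD_eq_default _ _ hi]; simp [hdc]
    have : dotN n l (fun i => evG μ (ps.getD i [])) = μ k.1 * dotN n l (toF (ps.map hdc)) +
        dotN n l (fun i => evG μ ((ps.map List.tail).getD i [])) := by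
      simp only [dotN, key, mul_sum, ← sum_add_distrib]
      exact sum_congr rfl fun _ _ => by ring
    rw [this]
    exact add_nonneg (mul_nonneg (hμ _) i2) i1

theorem ev1_nonneg {w : ℕ → ℝ} (hw : ∀ i, 0 ≤ w i) (k : ℕ) : 0 ≤ ev1 w k := by
  unfold ev1
  have := hw 0; have := hw 1; have := hw 2; have := hw 3; have := hw 4; have := hw 5
  positivity

noncomputable def ctrl (ps : List Poly) : List (List ℤ) := ctrlAux (ps.headD []) ps
noncomputable def ctrlGood (ps : List Poly) : Bool := ctrlOK (ps.headD []) ps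

theorem RepL.inCone {w : ℕ → ℝ} (hw : ∀ i, 0 ≤ w i) {ds : List (ℕ × ℕ)} {ps : List Poly}
    {fs : List ℝ} (h : RepL w ds ps fs) (hg : ctrlGood ps = true) (n : ℕ) :
    InCone n (ctrl ps) (fun i => fs.getD i 0) := by
  have := inCone_ctrl (ev1_nonneg hw) n _ ps hg
  have e : (fun i => evG (ev1 w) (ps.getD i [])) = fun i => fs.getD i 0 :=
    funext fun i => (h.getD i).2
  rw [e] at this
  exact this

/-! ### integer dot products -/

noncomputable def dotZ (a : List ℤ) : List ℤ → ℤ :=
  List.rec (motive := fun _ => List ℤ → ℤ) (fun _ => 0)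
    (fun x _ ih b => List.rec (motive := fun _ => ℤ) 0
      (fun y b' _ => Int.add (Int.mul x y) (ih b')) b) a

theorem dotZ_nil (b : List ℤ) : dotZ [] b = 0 := rfl
theorem dotZ_cons_nil (x : ℤ) (a : List ℤ) : dotZ (x :: a) [] = 0 := rfl
theorem dotZ_cons (x y : ℤ) (a b : List ℤ) : dotZ (x :: a) (y :: b) = x * y + dotZ a b := rfl

theorem toF_nil : toF [] = fun _ => 0 := by funext i; simp [toF]
theorem toF_cons_zero (x : ℤ) (a : List ℤ) : toF (x :: a) 0 = x := by simp [toF]
theorem toF_cons_succ (x : ℤ) (a : List ℤ) (i : ℕ) : toF (x :: a) (i + 1) = toF a i := by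
  simp [toF]

theorem dotZ_eq {n : ℕ} {a b : List ℤ} (h : a.length ≤ n) :
    (dotZ a b : ℝ) = dotN n (toF a) (toF b) := by
  induction a generalizing b n with
  | nil => simp [dotZ_nil, dotN, toF_nil]
  | cons x a ih =>
    cases b with
    | nil => simp [dotZ_cons_nil, dotN, toF_nil]
    | cons y b =>
      obtain ⟨n, rfl⟩ : ∃ m, n = m + 1 := ⟨n - 1, by simp at h; omega⟩
      rw [dotZ_cons, dotN, sum_range_succ']
      simp only [toF_cons_zero, toF_cons_succ]
      have := @ih n b (by simpa using h)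
      push_cast
      rw [this, dotN]; ring

theorem dotN_comm (n : ℕ) (a b : ℕ → ℝ) : dotN n a b = dotN n b a :=
  sum_congr rfl fun _ _ => mul_comm _ _

theorem toF_map_dot (M : List (List ℤ)) (b : List ℤ) (i : ℕ) :
    toF (M.map (fun r => dotZ r b)) i = (dotZ (M.getD i []) b : ℝ) := by
  have := getD_map_default (fun r => dotZ r b) M i []
  simp only [dotZ_nil] at this
  rw [toF, this]

theorem bilN_eq {n m : ℕ} {M : List (List ℤ)} (hM : M.length ≤ n)
    (hr : ∀ r ∈ M, r.length ≤ m) (a b : List ℤ) :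
    bilN n m M (toF a) (toF b) = (dotZ (M.map (fun r => dotZ r b)) a : ℝ) := by
  rw [dotZ_eq (n := n) (by simpa using hM), bilN]
  congr 1
  funext i
  rw [toF_map_dot]
  refine (dotZ_eq ?_).symm
  rcases lt_or_ge i M.length with hi | hi
  · rw [List.getD_eq_getElem _ _ hi]; exact hr _ (List.getElem_mem hi)
  · rw [List.getD_eq_default _ _ hi]; simp

/-- naive check: `l · g ≥ 0` for all `g` -/
noncomputable def allDot (l : List ℤ) (G : List (List ℤ)) : Bool :=
  G.all (fun g => decide (0 ≤ dotZ l g))

/-! ### packed check -/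

noncomputable def addS (w : ℕ) (g : List ℤ) : List ℤ → List ℤ :=
  List.rec (motive := fun _ => List ℤ → List ℤ) (fun _ => [])
    (fun x _ ih acc => Int.add x (Int.mul (Int.ofNat (Nat.pow 2 w)) (acc.headD 0)) :: ih acc.tail) g

theorem addS_nil (w : ℕ) (acc : List ℤ) : addS w [] acc = [] := rfl
theorem addS_cons (w : ℕ) (x : ℤ) (g acc : List ℤ) :
    addS w (x :: g) acc = (x + ((2 ^ w : ℕ) : ℤ) * acc.headD 0) :: addS w g acc.tail := rfl

noncomputable def pack (w : ℕ) (G : List (List ℤ)) : List ℤ :=
  List.rec (motive := fun _ => List ℤ) [] (fun g _ ih => addS w g ih) G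

noncomputable def mask (w : ℕ) (G : List (List ℤ)) : ℕ :=
  List.rec (motive := fun _ => ℕ) 0
    (fun _ _ ih => Nat.add (Nat.pow 2 (w - 1)) (Nat.mul (Nat.pow 2 w) ih)) G

theorem dotZ_addS (w : ℕ) (l g acc : List ℤ) (h : acc.length ≤ g.length) :
    dotZ l (addS w g acc) = dotZ l g + ((2 ^ w : ℕ) : ℤ) * dotZ l acc := by
  induction g generalizing l acc with
  | nil =>
    have : acc = [] := by simpa using h
    subst this
    cases l <;> simp [addS_nil, dotZ_nil, dotZ_cons_nil]
  | cons x g ih =>
    cases l with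
    | nil => simp [dotZ_nil]
    | cons y l =>
      cases acc with
      | nil =>
        rw [addS_cons, dotZ_cons, dotZ_cons, ih l _ (by simp)]
        cases l <;> simp [dotZ_cons_nil, dotZ_nil]
      | cons z acc =>
        rw [addS_cons, dotZ_cons, dotZ_cons, dotZ_cons, ih l _ (by simpa using h)]
        simp; ring

theorem length_addS (w : ℕ) (g acc : List ℤ) : (addS w g acc).length = g.length := by
  induction g generalizing acc with
  | nil => rfl
  | cons x g ih => simp [addS_cons, ih]

theorem lanes {w : ℕ} (hw : 1 ≤ w) {m : ℕ} (l : List ℤ) (G : List (List ℤ))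
    (hlen : ∀ g ∈ G, g.length = m) (hb : ∀ g ∈ G, |dotZ l g| < 2 ^ (w - 1))
    (h0 : 0 ≤ dotZ l (pack w G)) (h1 : Nat.land (dotZ l (pack w G)).toNat (mask w G) = 0) :
    ∀ g ∈ G, 0 ≤ dotZ l g := by
  induction G with
  | nil => simp
  | cons g G ih =>
    have e1 : pack w (g :: G) = addS w g (pack w G) := rfl
    have e2 : mask w (g :: G) = 2 ^ (w - 1) + 2 ^ w * mask w G := rfl
    have hl : (pack w G).length ≤ g.length := by
      cases G with
      | nil => simp [pack]
      | cons g' G' =>
        have : pack w (g' :: G') = addS w g' (pack w G') := rfl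
        rw [this, length_addS, hlen g (by simp), hlen g' (by simp)]
    rw [e1, dotZ_addS _ _ _ _ hl] at h0 h1
    rw [e2] at h1
    set v := dotZ l g with hv
    set A := dotZ l (pack w G) with hA
    have hbv : |v| < 2 ^ (w - 1) := hb g (by simp)
    obtain ⟨P, hP⟩ := Int.eq_ofNat_of_zero_le h0
    rw [hP, Int.toNat_natCast] at h1
    have h1' : P &&& (2 ^ (w - 1) + 2 ^ w * mask w G) = 0 := h1
    have hpw : (2 : ℕ) ^ w = 2 * 2 ^ (w - 1) := by
      conv_lhs => rw [show w = (w - 1) + 1 by omega, pow_succ]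
      ring
    have hlt : 2 ^ (w - 1) < 2 ^ w := Nat.pow_lt_pow_right (by norm_num) (by omega)
    have hpos : 0 < 2 ^ w := by positivity
    have hdiv : (P / 2 ^ w) &&& mask w G = 0 := by
      have := congrArg (· / 2 ^ w) h1'
      simp only [Nat.and_div_two_pow, Nat.zero_div] at this
      rwa [Nat.add_mul_div_left _ _ hpos, Nat.div_eq_of_lt hlt, zero_add] at this
    have hmod : (P % 2 ^ w) &&& 2 ^ (w - 1) = 0 := by
      have := congrArg (· % 2 ^ w) h1'
      simp only [Nat.and_mod_two_pow, Nat.zero_mod] at this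
      rwa [Nat.add_mul_mod_self_left, Nat.mod_eq_of_lt hlt] at this
    have hd : P % 2 ^ w < 2 ^ (w - 1) := by
      have hb1 : (P % 2 ^ w).testBit (w - 1) = false := by
        have := congrArg (fun x => x.testBit (w - 1)) hmod
        simpa [Nat.testBit_and, Nat.testBit_two_pow_self] using this
      by_contra hc
      push Not at hc
      have hlt2 : P % 2 ^ w < 2 ^ (w - 1 + 1) := by
        rw [show w - 1 + 1 = w by omega]; exact Nat.mod_lt _ hpos
      have := Nat.testBit_of_two_pow_le_and_two_pow_add_one_gt hc hlt2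
      simp [this] at hb1
    have hdm : (P : ℤ) = (P % 2 ^ w : ℕ) + ((2 ^ w : ℕ) : ℤ) * (P / 2 ^ w : ℕ) := by
      exact_mod_cast (Nat.mod_add_div P (2 ^ w)).symm
    have hAe : A = (P / 2 ^ w : ℕ) := by
      have hb2 := abs_lt.1 hbv
      have hd' : ((P % 2 ^ w : ℕ) : ℤ) < 2 ^ (w - 1) := by exact_mod_cast hd
      have hd0 : (0 : ℤ) ≤ ((P % 2 ^ w : ℕ) : ℤ) := Int.natCast_nonneg _
      have hpw' : ((2 ^ w : ℕ) : ℤ) = 2 * 2 ^ (w - 1) := by exact_mod_cast hpw
      have hH : (0 : ℤ) < 2 ^ (w - 1) := by positivity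
      rw [hpw'] at hP hdm
      generalize ((P / 2 ^ w : ℕ) : ℤ) = Q at *
      generalize ((P % 2 ^ w : ℕ) : ℤ) = d at *
      generalize (2 : ℤ) ^ (w - 1) = H at *
      have : H * (2 * (A - Q)) = d - v := by linarith
      by_contra hne
      rcases lt_or_gt_of_ne hne with hlt | hgt
      · have : A - Q ≤ -1 := by omega
        nlinarith
      · have : 1 ≤ A - Q := by omega
        nlinarith
    have hv0 : 0 ≤ v := by
      have : v = (P % 2 ^ w : ℕ) := by rw [hAe] at hP; linarith
      rw [this]; exact Int.natCast_nonneg _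
    intro g' hg'
    rcases List.mem_cons.1 hg' with rfl | hg'
    · exact hv0
    · refine ih (fun x hx => hlen x (by simp [hx])) (fun x hx => hb x (by simp [hx])) ?_ ?_ g' hg'
      · rw [hAe]; exact Int.natCast_nonneg _
      · rw [hAe, Int.toNat_natCast]; exact hdiv

/-- all entries are at most `2^b` in absolute value and the length is `m` -/
noncomputable def bnd (b m : ℕ) (g : List ℤ) : Bool :=
  Nat.beq g.length m && g.all (fun x => Nat.ble x.natAbs (Nat.pow 2 b))

theorem abs_dotZ_le {a b : ℕ} (l g : List ℤ) (hl : ∀ x ∈ l, x.natAbs ≤ 2 ^ a)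
    (hg : ∀ x ∈ g, x.natAbs ≤ 2 ^ b) : |dotZ l g| ≤ l.length * 2 ^ (a + b) := by
  induction l generalizing g with
  | nil => simp [dotZ_nil]
  | cons x l ih =>
    cases g with
    | nil => rw [dotZ_cons_nil]; positivity
    | cons y g =>
      rw [dotZ_cons]
      have h1 := ih g (fun z hz => hl z (by simp [hz])) (fun z hz => hg z (by simp [hz]))
      have h2 : |x| ≤ 2 ^ a := by
        rw [Int.abs_eq_natAbs]; exact_mod_cast hl x (by simp)
      have h3 : |y| ≤ 2 ^ b := by
        rw [Int.abs_eq_natAbs]; exact_mod_cast hg y (by simp)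
      have h4 : |x * y| ≤ 2 ^ (a + b) := by
        rw [abs_mul, pow_add]; exact mul_le_mul h2 h3 (abs_nonneg _) (by positivity)
      have := abs_add_le (x * y) (dotZ l g)
      simp only [List.length_cons]; push_cast
      linarith

theorem dotZ_map_lin (l : List ℤ) (M : List (List ℤ)) (f h : List ℤ → ℤ) (c : ℤ) :
    dotZ l (M.map (fun r => f r + c * h r)) = dotZ l (M.map f) + c * dotZ l (M.map h) := by
  induction l generalizing M with
  | nil => simp [dotZ_nil]
  | cons x l ih =>
    cases M with
    | nil => simp [dotZ_cons_nil]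
    | cons r M => simp only [List.map_cons, dotZ_cons, ih]; ring

theorem dotZ_nil' (l : List ℤ) : dotZ l [] = 0 := by cases l <;> rfl

theorem dotZ_map_zero (l : List ℤ) (M : List (List ℤ)) : dotZ l (M.map (fun _ => 0)) = 0 := by
  induction l generalizing M with
  | nil => rfl
  | cons x l ih =>
    cases M with
    | nil => rfl
    | cons r M => simp only [List.map_cons, dotZ_cons, ih]; ring

theorem length_pack_le {w m : ℕ} {G : List (List ℤ)} (h : ∀ g ∈ G, g.length = m) :
    (pack w G).length ≤ m := by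
  cases G with
  | nil => simp [pack]
  | cons g' G' =>
    have : pack w (g' :: G') = addS w g' (pack w G') := rfl
    rw [this, length_addS, h g' (by simp)]

theorem dotZ_pack_map {w m : ℕ} (l : List ℤ) (M G : List (List ℤ))
    (h : ∀ g ∈ G, g.length = m) :
    dotZ l (pack w (G.map (fun g => M.map (fun r => dotZ r g)))) =
      dotZ l (M.map (fun r => dotZ r (pack w G))) := by
  induction G with
  | nil =>
    show dotZ l [] = dotZ l (M.map (fun r => dotZ r []))
    simp only [dotZ_nil']
    rw [dotZ_map_zero]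
  | cons g G ih =>
    have h' : ∀ g ∈ G, g.length = m := fun x hx => h x (by simp [hx])
    have e1 : pack w (g :: G) = addS w g (pack w G) := rfl
    have e2 : pack w ((g :: G).map (fun g => M.map (fun r => dotZ r g))) =
      addS w (M.map (fun r => dotZ r g))
        (pack w (G.map (fun g => M.map (fun r => dotZ r g)))) := rfl
    have l1 : (pack w G).length ≤ g.length := by
      rw [h g (by simp)]; exact length_pack_le h'
    have l2 : (pack w (G.map (fun g => M.map (fun r => dotZ r g)))).length ≤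
        (M.map (fun r => dotZ r g)).length := by
      apply length_pack_le
      intro x hx
      obtain ⟨y, _, rfl⟩ := List.mem_map.1 hx
      simp
    rw [e2, dotZ_addS _ _ _ _ l2, ih h', e1, ← dotZ_map_lin]
    congr 1
    exact List.map_congr_left (fun r _ => (dotZ_addS _ _ _ _ l1).symm)

theorem mask_map (w : ℕ) (f : List ℤ → List ℤ) (G : List (List ℤ)) :
    mask w (G.map f) = mask w G := by
  induction G with
  | nil => rfl
  | cons g G ih =>
    have e1 : mask w ((g :: G).map f) = 2 ^ (w - 1) + 2 ^ w * mask w (G.map f) := rfl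
    have e2 : mask w (g :: G) = 2 ^ (w - 1) + 2 ^ w * mask w G := rfl
    rw [e1, e2, ih]

noncomputable def laneOK (P : List ℤ) (K : ℕ) (l : List ℤ) : Bool :=
  decide (0 ≤ dotZ l P) && Nat.beq (Nat.land (dotZ l P).toNat K) 0

noncomputable def lanesOK (P : List ℤ) (K : ℕ) (H : List (List ℤ)) : Bool := H.all (laneOK P K)

/-- packed check of `k · M g ≥ 0` for all `g ∈ G`, `k ∈ H`; dimensions at most `31` -/
noncomputable def pairOK (a b c n m : ℕ) (M G H : List (List ℤ)) : Bool :=
  Nat.beq M.length n && M.all (bnd c m) && G.all (bnd b m) && H.all (bnd a n) &&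
    lanesOK (M.map (fun r => dotZ r (pack (a + (c + b + 5) + 6) G))) (mask (a + (c + b + 5) + 6) G) H

theorem pairOK_sound {a b c n m : ℕ} (hn : n ≤ 31) (hm : m ≤ 31) {M G H : List (List ℤ)}
    (h : pairOK a b c n m M G H = true) :
    ∀ k ∈ H, ∀ g ∈ G, 0 ≤ bilN n m M (toF k) (toF g) := by
  simp only [pairOK, Bool.and_eq_true, List.all_eq_true, laneOK, lanesOK, bnd, Nat.beq_eq,
    Nat.ble_eq, decide_eq_true_eq] at h
  obtain ⟨⟨⟨⟨hM, hMb⟩, hG⟩, hH⟩, hL⟩ := h
  intro k hk g hg
  obtain ⟨h0, h1⟩ := hL k hk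
  rw [bilN_eq hM.le (fun r hr => (hMb r hr).1.le), dotZ_eq (n := n) (by simp [hM]), dotN_comm,
    ← dotZ_eq (hH k hk).1.le]
  rw [← dotZ_pack_map k M G (fun x hx => (hG x hx).1)] at h0 h1
  rw [← mask_map _ (fun g => M.map (fun r => dotZ r g))] at h1
  have := lanes (w := a + (c + b + 5) + 6) (by omega) (m := n) k _ ?_ ?_ h0 h1 _
    (List.mem_map_of_mem hg)
  · exact_mod_cast this
  · intro x hx
    obtain ⟨y, _, rfl⟩ := List.mem_map.1 hx
    simp [hM]
  · intro x hx
    obtain ⟨y, hy, rfl⟩ := List.mem_map.1 hx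
    have hb : ∀ z ∈ M.map (fun r => dotZ r y), z.natAbs ≤ 2 ^ (c + b + 5) := by
      intro z hz
      obtain ⟨r, hr, rfl⟩ := List.mem_map.1 hz
      have h2 := abs_dotZ_le (a := c) (b := b) r y (hMb r hr).2 (hG y hy).2
      rw [(hMb r hr).1, Int.abs_eq_natAbs] at h2
      have h3 : (dotZ r y).natAbs ≤ m * 2 ^ (c + b) := by exact_mod_cast h2
      rw [pow_add _ _ 5]
      exact h3.trans (by rw [mul_comm]; exact Nat.mul_le_mul_left _ (by omega))
    have h2 := abs_dotZ_le (a := a) (b := c + b + 5) k _ (hH k hk).2 hb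
    rw [(hH k hk).1] at h2
    have h3 : (n : ℤ) ≤ 31 := by exact_mod_cast hn
    have h4 : (2 : ℤ) ^ (a + (c + b + 5) + 6 - 1) = 32 * 2 ^ (a + (c + b + 5)) := by
      rw [show a + (c + b + 5) + 6 - 1 = (a + (c + b + 5)) + 5 by omega, pow_add]; ring
    have h5 : (0 : ℤ) < 2 ^ (a + (c + b + 5)) := by positivity
    rw [h4]; nlinarith

theorem allDot_sound {n : ℕ} {l : List ℤ} {G : List (List ℤ)} (hl : l.length ≤ n)
    (h : allDot l G = true) {v : ℕ → ℝ} (hv : InCone n G v) : 0 ≤ dotN n (toF l) v := by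
  apply hv
  intro g hg
  have := List.all_eq_true.1 h g hg
  rw [← dotZ_eq hl]
  exact_mod_cast of_decide_eq_true this

end Crest.Agent.R163.PE
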