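import Crest.Agent.R163.PolyCell

/-! Row 163: the polynomial identities behind the cone certificates. -/

set_option autoImplicit false

namespace Crest.Agent.R163.PE

open Finset

theorem RepL.append {w : ℕ → ℝ} : ∀ {ds : List (ℕ × ℕ)} {ps : List Poly} {fs : List ℝ}
    {ds' : List (ℕ × ℕ)} {ps' : List Poly} {fs' : List ℝ},
    RepL w ds ps fs → RepL w ds' ps' fs' → RepL w (ds ++ ds') (ps ++ ps') (fs ++ fs')
  | [], [], [], _, _, _, _, h => h
  | _ :: _, _ :: _, _ :: _, _, _, _, h, h' => ⟨h.1, RepL.append h.2 h'⟩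
  | [], [], _ :: _, _, _, _, h, _ => h.elim
  | [], _ :: _, _, _, _, _, h, _ => h.elim
  | _ :: _, [], _, _, _, _, h, _ => h.elim
  | _ :: _, _ :: _, [], _, _, _, h, _ => h.elim

def vars (a n : ℕ) : List E := (List.range' a n).map E.var

theorem vars_app (pre fs post : List ℝ) :
    (vars pre.length fs.length).map (E.ev (pre ++ fs ++ post)) = fs := by
  induction fs generalizing pre with
  | nil => simp [vars]
  | cons f fs ih =>
    have := ih (pre ++ [f])
    simp only [List.length_append, List.length_singleton, List.append_assoc,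
      List.singleton_append] at this
    simp only [vars, List.length_cons, List.range'_succ, List.map_cons, E.ev] at this ⊢
    rw [List.cons_append] at this
    rw [List.append_assoc, List.cons_append, this]
    simp

/-- the values of the features `fe` as a vector -/
noncomputable def FE (fe : List E) (ρ : List ℝ) : ℕ → ℝ := fun i => (fe.map (E.ev ρ)).getD i 0

def okD (d : ℕ × ℕ) : Bool := Nat.ble d.1 15 && Nat.ble d.2 15

theorem E.rep' {w : ℕ → ℝ} {ds : List (ℕ × ℕ)} {env : List Poly} {ρ : List ℝ}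
    (h : RepL w ds env ρ) (e : E) (h1 : okD (e.deg ds) = true) :
    Rep w (e.deg ds) (e.norm env) (e.ev ρ) := by
  simp only [okD, Bool.and_eq_true, Nat.ble_eq] at h1
  exact e.rep h h1.1 h1.2

/-! ### the polynomial minorant -/

def polE (P : List (List ℤ)) : E :=
  hornerE (.var 0) (P.map (fun r => dotE r [.var 1, .var 2, .var 3, .var 4, .var 5]))

noncomputable def polR (P : List (List ℤ)) (c s N T : ℝ) : ℝ :=
  (polE P).ev [c, s, N, T, N * N, N * T]

def st6 : List E :=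
  [.var 0, .var 1, .var 2, .var 3, .mul (.var 2) (.var 2), .mul (.var 2) (.var 3)]

noncomputable def polP (P : List (List ℤ)) (env : List Poly) : Poly :=
  (polE P).norm (st6.map (E.norm env))

def polD (P : List (List ℤ)) (ds : List (ℕ × ℕ)) : ℕ × ℕ := (polE P).deg (st6.map (E.deg ds))

theorem RepL.pol {w : ℕ → ℝ} {ds : List (ℕ × ℕ)} {env : List Poly} {c s N T : ℝ}
    (h : RepL w ds env [c, s, N, T]) (P : List (List ℤ)) (h1 : degOK ds st6 = true)
    (h2 : okD (polD P ds) = true) : Rep w (polD P ds) (polP P env) (polR P c s N T) :=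
  (polE P).rep' (h.map st6 h1) h2

/-! ### bilinear right-hand sides -/

def pairsE : List (List ℤ × List ℤ) → List E → List E → E
  | [], _, _ => .cst 0
  | p :: ps, fs, gs => .add (.mul (dotE p.1 gs) (dotE p.2 fs)) (pairsE ps fs gs)

noncomputable def pairsR (n : ℕ) : List (List ℤ × List ℤ) → (ℕ → ℝ) → (ℕ → ℝ) → ℝ
  | [], _, _ => 0
  | p :: ps, f, g => dotN n (toF p.1) g * dotN n (toF p.2) f + pairsR n ps f g

def lenOK (n : ℕ) (M : List (List ℤ)) (prs : List (List ℤ × List ℤ)) : Bool :=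
  Nat.ble M.length n && M.all (fun r => Nat.ble r.length n) &&
    prs.all (fun p => Nat.ble p.1.length n && Nat.ble p.2.length n)

theorem ev_pairsE (ρ : List ℝ) {n : ℕ} (prs : List (List ℤ × List ℤ)) (fs gs : List E)
    (h : ∀ p ∈ prs, p.1.length ≤ n ∧ p.2.length ≤ n) :
    (pairsE prs fs gs).ev ρ = pairsR n prs (FE fs ρ) (FE gs ρ) := by
  induction prs with
  | nil => simp [pairsE, pairsR, E.ev]
  | cons p ps ih =>
    have hp := h p (by simp)
    rw [pairsE, pairsR, E.ev, E.ev, ih (fun r hr => h r (by simp [hr])), ev_dotE ρ _ _ hp.1,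
      ev_dotE ρ _ _ hp.2]
    rfl

def rhsE (n : ℕ) (M : List (List ℤ)) (prs : List (List ℤ × List ℤ)) : E :=
  .add (bilE M (vars 0 n) (vars n n)) (pairsE prs (vars 0 n) (vars n n))

theorem ev_rhsE {n : ℕ} {M : List (List ℤ)} {prs : List (List ℤ × List ℤ)}
    (h : lenOK n M prs = true) {fs gs : List ℝ} (hf : fs.length = n) (hg : gs.length = n) :
    (rhsE n M prs).ev (fs ++ gs) = bilN n n M (fun i => fs.getD i 0) (fun i => gs.getD i 0) +
      pairsR n prs (fun i => fs.getD i 0) (fun i => gs.getD i 0) := by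
  simp only [lenOK, Bool.and_eq_true, List.all_eq_true, Nat.ble_eq] at h
  have e1 : (vars 0 n).map (E.ev (fs ++ gs)) = fs := by
    have := vars_app [] fs gs
    simpa [hf] using this
  have e2 : (vars n n).map (E.ev (fs ++ gs)) = gs := by
    have := vars_app fs gs []
    simpa [hf, hg] using this
  rw [rhsE, E.ev, ev_bilE _ M _ _ h.1.1 h.1.2, ev_pairsE _ prs _ _ h.2]
  unfold FE
  rw [e1, e2]

theorem rep_rhs {w : ℕ → ℝ} {n : ℕ} {M : List (List ℤ)} {prs : List (List ℤ × List ℤ)}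
    (h : lenOK n M prs = true) {ds ds' : List (ℕ × ℕ)} {env env' : List Poly} {ρ ρ' : List ℝ}
    {fe ge : List E} (h1 : RepL w ds env ρ) (h2 : RepL w ds' env' ρ') (hf : fe.length = n)
    (hg : ge.length = n) (d1 : degOK ds fe = true) (d2 : degOK ds' ge = true)
    (d3 : okD ((rhsE n M prs).deg (fe.map (E.deg ds) ++ ge.map (E.deg ds'))) = true) :
    Rep w ((rhsE n M prs).deg (fe.map (E.deg ds) ++ ge.map (E.deg ds')))
      ((rhsE n M prs).norm (fe.map (E.norm env) ++ ge.map (E.norm env')))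
      (bilN n n M (FE fe ρ) (FE ge ρ') + pairsR n prs (FE fe ρ) (FE ge ρ')) := by
  have := (rhsE n M prs).rep' ((h1.map fe d1).append (h2.map ge d2)) d3
  rwa [ev_rhsE h (by simpa using hf) (by simpa using hg)] at this

/-! ### boundedness -/

theorem E.bdd (e : E) (B : ℝ) (hB : 0 ≤ B) :
    ∃ C : ℝ, ∀ ρ : List ℝ, (∀ r ∈ ρ, |r| ≤ B) → |e.ev ρ| ≤ C := by
  induction e with
  | var n =>
    refine ⟨B, fun ρ h => ?_⟩
    rw [E.ev]
    rcases lt_or_ge n ρ.length with hn | hn
    · rw [List.getD_eq_getElem _ _ hn]; exact h _ (List.getElem_mem hn)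
    · rw [List.getD_eq_default _ _ hn]; simpa using hB
  | cst c => exact ⟨|(c : ℝ)|, fun _ _ => le_rfl⟩
  | add a b iha ihb =>
    obtain ⟨C, hC⟩ := iha
    obtain ⟨D, hD⟩ := ihb
    exact ⟨C + D, fun ρ h => (abs_add_le _ _).trans (add_le_add (hC ρ h) (hD ρ h))⟩
  | mul a b iha ihb =>
    obtain ⟨C, hC⟩ := iha
    obtain ⟨D, hD⟩ := ihb
    refine ⟨C * D, fun ρ h => ?_⟩
    rw [E.ev, abs_mul]
    exact mul_le_mul (hC ρ h) (hD ρ h) (abs_nonneg _) ((abs_nonneg _).trans (hC ρ h))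
  | smul c a iha =>
    obtain ⟨C, hC⟩ := iha
    refine ⟨|(c : ℝ)| * C, fun ρ h => ?_⟩
    rw [E.ev, abs_mul]
    exact mul_le_mul_of_nonneg_left (hC ρ h) (abs_nonneg _)

theorem dotN_bdd {n : ℕ} (A : List ℤ) (hA : A.length ≤ n) (fe : List E) (B : ℝ) (hB : 0 ≤ B) :
    ∃ C : ℝ, ∀ ρ : List ℝ, (∀ r ∈ ρ, |r| ≤ B) → dotN n (toF A) (FE fe ρ) ≤ C := by
  obtain ⟨C, hC⟩ := (dotE A fe).bdd B hB
  refine ⟨C, fun ρ h => ?_⟩
  have := hC ρ h
  rw [ev_dotE ρ A fe hA] at this
  exact (le_abs_self _).trans this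

/-! ### validity of the minorant -/

def monosC (d : ℕ) : List E := (List.range (d + 1)).map (fun m => monoE (d - m, m, 0, 0))

def HE (d : ℕ) (H : List (List ℤ)) : List E := H.map (fun r => dotE r (monosC d))

def stVa (kX : ℤ) : List E := [.var 0, .add (.cst 1) (.var 0), .smul kX (.var 1), .var 2]

def stVb : List E :=
  [.var 0, .var 1, .mul (.var 1) (.mul (.var 1) (.var 2)),
    .mul (.var 1) (.mul (.var 1) (.mul (.var 1) (.var 3)))]

def tgtE (r : List ℤ) : E :=
  .mul (.var 1) (dotE r [.cst 1, .var 2, .var 3, .mul (.var 2) (.var 2), .mul (.var 2) (.var 3)])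

def sc2E : E := .mul (.var 1) (.mul (.var 0) (.var 0))

def stVm (kQ : ℤ) : List E := [.cst 1, .smul kQ (.var 1), .var 2, .var 3]

def stVc : List E := [.cst 1, .var 0]

def finV : E :=
  .add (.smul 9 (.var 0)) (.add (.smul (-9) (.var 1)) (.smul (-1) (.mul (.var 2) (.var 3))))

noncomputable def idV (kX kQ : ℤ) (k d : ℕ) (P H I : List (List ℤ))
    (vm : List (ℕ × ℕ × ℕ × ℕ)) : Bool :=
  let da := (stVa kX).map (E.deg ds0)
  let db := stVb.map (E.deg da)
  let dm := (stVm kQ).map (E.deg ds0)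
  let dc := stVc.map (E.deg ds0)
  let dr := (rhsE k I []).deg ((vm.map monoE).map (E.deg dm) ++ (HE d H).map (E.deg dc))
  let ea := (stVa kX).map (E.norm env0)
  Nat.beq (P.headD []).length 5 && lenOK k I [] && Nat.beq vm.length k && Nat.beq H.length k &&
  degOK db st6 && okD (polD P db) && okD ((tgtE (P.headD [])).deg da) &&
  degOK dm (vm.map monoE) && degOK dc (HE d H) && okD dr &&
  okD (finV.deg [(tgtE (P.headD [])).deg da, polD P db, sc2E.deg da, dr]) &&
  allZero (finV.norm [(tgtE (P.headD [])).norm ea, polP P (stVb.map (E.norm ea)), sc2E.norm ea,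
    (rhsE k I []).norm ((vm.map monoE).map (E.norm ((stVm kQ).map (E.norm env0))) ++
      (HE d H).map (E.norm (stVc.map (E.norm env0))))])

theorem idV_sound {kX kQ : ℤ} {k d : ℕ} {P H I : List (List ℤ)} {vm : List (ℕ × ℕ × ℕ × ℕ)}
    (h : idV kX kQ k d P H I vm = true) (c ξ Y Z : ℝ) :
    9 * ((1 + c) * (toF (P.headD []) 0 + toF (P.headD []) 1 * (kX * ξ) + toF (P.headD []) 2 * Y
        + toF (P.headD []) 3 * (kX * ξ) ^ 2 + toF (P.headD []) 4 * (kX * ξ * Y))
      - polR P c (1 + c) ((1 + c) ^ 2 * (kX * ξ)) ((1 + c) ^ 3 * Y)) =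
    (1 + c) * c ^ 2 * bilN k k I (FE (vm.map monoE) [1, kQ * ξ, Y, Z]) (FE (HE d H) [1, c]) := by
  simp only [idV, Bool.and_eq_true, Nat.beq_eq] at h
  obtain ⟨⟨⟨⟨⟨⟨⟨⟨⟨⟨⟨h1, h2⟩, h3⟩, h4⟩, h5⟩, h6⟩, h7⟩, h8⟩, h9⟩, h10⟩, h11⟩, h12⟩ := h
  set w : ℕ → ℝ := fun i => [c, ξ, Y, Z].getD i 0 with hw
  have r0 : RepL w ds0 env0 [c, ξ, Y, Z, 0, 0] := repL0 w
  have ra := r0.map (stVa kX) (by rfl)
  have ea : (stVa kX).map (E.ev [c, ξ, Y, Z, 0, 0]) = [c, 1 + c, kX * ξ, Y] := by
    simp [stVa, E.ev]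
  rw [ea] at ra
  have rb := ra.map stVb (by rfl)
  have eb : stVb.map (E.ev [c, 1 + c, kX * ξ, Y]) =
      [c, 1 + c, (1 + c) ^ 2 * (kX * ξ), (1 + c) ^ 3 * Y] := by
    simp only [stVb, E.ev, List.map_cons, List.map_nil, List.getD_cons_zero, List.getD_cons_succ,
      List.cons.injEq, true_and, and_true]
    constructor <;> ring
  rw [eb] at rb
  have rm := r0.map (stVm kQ) (by rfl)
  have em : (stVm kQ).map (E.ev [c, ξ, Y, Z, 0, 0]) = [1, kQ * ξ, Y, Z] := by
    simp [stVm, E.ev]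
  rw [em] at rm
  have rc := r0.map stVc (by rfl)
  have ec : stVc.map (E.ev [c, ξ, Y, Z, 0, 0]) = [1, c] := by simp [stVc, E.ev]
  rw [ec] at rc
  have r1 := (tgtE (P.headD [])).rep' ra h7
  have r2 := rb.pol P h5 h6
  have r3 := sc2E.rep' ra (by rfl)
  have r4 := rep_rhs h2 rm rc (by simpa using h3) (by simpa [HE] using h4) h8 h9 h10
  have rr := finV.rep' (w := w) (ds := [_, _, _, _]) (env := [_, _, _, _]) (ρ := [_, _, _, _])
    ⟨r1, r2, r3, r4, trivial⟩ h11
  have e0 := rr.2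
  rw [evG_of_allZero _ h12] at e0
  simp only [finV, E.ev, List.getD_cons_zero, List.getD_cons_succ, tgtE, sc2E, pairsR,
    ev_dotE _ _ _ h1.le, dotN, sum_range_succ, sum_range_zero, List.map_cons, List.map_nil] at e0
  push_cast at e0
  linear_combination (-1) * e0

def cellC (t : ℤ) : Cell := ![![1, t, 0, 0], ![1, t + 1, 0, 0], ![0, 0, 0, 0], ![0, 0, 0, 0]]

def invC : List E := [.var 0, .var 1]

theorem inCell_cellC {t : ℤ} {c : ℝ} (h1 : (t : ℝ) ≤ c) (h2 : c ≤ t + 1) :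
    InCell (cellC t) ![1, c, 0, 0] := by
  refine ⟨![t + 1 - c, c - t, 0, 0], ?_, ?_⟩
  · intro i; fin_cases i <;> simp <;> linarith
  · intro l; fin_cases l <;> simp [Fin.sum_univ_four, cellC] <;> ring

/-- check of the sign of the remainder on the intervals `[t, t+1]`, `t ∈ ts` -/
noncomputable def signV (a b k d : ℕ) (H I G : List (List ℤ)) (ts : List ℤ) : Bool :=
  degsOK invC (HE d H) && ts.all (fun t => ctrlGood (cellPolys invC (HE d H) (cellC t)) &&
    pairOK a b 0 k k I (ctrl (cellPolys invC (HE d H) (cellC t))) G)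

theorem signV_sound {a b k d : ℕ} (hk : k ≤ 31) {H I G : List (List ℤ)} {ts : List ℤ}
    (h : signV a b k d H I G ts = true) {t : ℤ} (ht : t ∈ ts) {c : ℝ} (h1 : (t : ℝ) ≤ c)
    (h2 : c ≤ t + 1) {m : ℕ → ℝ} (hm : InCone k G m) :
    0 ≤ bilN k k I m (FE (HE d H) [1, c]) := by
  simp only [signV, Bool.and_eq_true, List.all_eq_true] at h
  obtain ⟨h3, h4⟩ := h.2 t ht
  have := (inCell_cellC h1 h2).inCone h.1 h3 k
  exact bilN_nonneg hm this (pairOK_sound hk hk h4)

/-- unpacking of literal tables -/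
noncomputable def unpack (n : ℕ) : ℕ → List ℤ :=
  Nat.rec (motive := fun _ => ℕ → List ℤ) (fun _ => [])
    (fun _ ih x => Int.subNatNat (Nat.mod x 2305843009213693952) 1152921504606846976 ::
      ih (Nat.div x 2305843009213693952)) n

end Crest.Agent.R163.PE
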