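import Crest.Agent.R163.Local

/-! Row 163: a fixed-point engine that iterates the two-dimensional system on a slab of
parameters, and its soundness. All numbers are naturals scaled by `S = 2 ^ 44`. -/

set_option autoImplicit false

namespace Crest.Agent.R163.Eng

def S : ℕ := 17592186044416

theorem S_eq : S = 2 ^ 44 := by norm_num [S]
theorem S_pos : 0 < S := by norm_num [S]
theorem S_posR : (0 : ℝ) < S := by exact_mod_cast S_pos

def force {α : Type} (x : ℕ) (k : ℕ → α) : α := Nat.rec (k 0) (fun y _ => k (Nat.succ y)) x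

theorem force_eq {α : Type} (x : ℕ) (k : ℕ → α) : force x k = k x := by
  cases x <;> rfl

/-! ### division with rounding -/

theorem div_le_real (x D : ℕ) : ((x / D : ℕ) : ℝ) ≤ x / D := Nat.cast_div_le

theorem real_le_div (x : ℕ) {D : ℕ} (hD : 0 < D) : (x : ℝ) / D ≤ ((x / D + 1 : ℕ) : ℝ) := by
  have hD' : (0 : ℝ) < D := by exact_mod_cast hD
  rw [div_le_iff₀ hD']
  have h := Nat.lt_div_mul_add (a := x) hD
  have h2 : x ≤ (x / D + 1) * D := by rw [Nat.add_mul]; omega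
  exact_mod_cast h2

theorem sub_le_real (x y : ℕ) : (x : ℝ) - y ≤ ((x - y : ℕ) : ℝ) := by
  rcases le_total y x with h | h
  · rw [Nat.cast_sub h]
  · have : (x : ℝ) ≤ y := by exact_mod_cast h
    have h2 : (0 : ℝ) ≤ ((x - y : ℕ) : ℝ) := Nat.cast_nonneg _
    linarith

theorem real_sub_le (x y : ℕ) : ((x - y : ℕ) : ℝ) ≤ max 0 ((x : ℝ) - y) := by
  rcases le_total y x with h | h
  · rw [Nat.cast_sub h]; exact le_max_right _ _
  · rw [Nat.sub_eq_zero_of_le h]; simp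

/-! ### powers -/

def pdn (x a : ℕ) : ℕ := Nat.shiftRight (Nat.pow x (a + 1)) (44 * a)
def pup (x a : ℕ) : ℕ := pdn x a + 1

theorem pdn_eq (x a : ℕ) : pdn x a = x ^ (a + 1) / S ^ a := by
  unfold pdn
  rw [S_eq, ← pow_mul]
  exact Nat.shiftRight_eq_div_pow _ _

theorem pdn_le {x : ℕ} (a : ℕ) {y : ℝ} (hy : (x : ℝ) ≤ S * y) :
    (pdn x a : ℝ) ≤ S * y ^ (a + 1) := by
  rw [pdn_eq]
  refine le_trans (div_le_real _ _) ?_
  push_cast
  rw [div_le_iff₀ (pow_pos S_posR a)]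
  calc (x : ℝ) ^ (a + 1) ≤ (S * y) ^ (a + 1) := pow_le_pow_left₀ (Nat.cast_nonneg x) hy _
    _ = S * y ^ (a + 1) * S ^ a := by ring

theorem pup_ge {x : ℕ} (a : ℕ) {y : ℝ} (hy0 : 0 ≤ y) (hy : S * y ≤ (x : ℝ)) :
    S * y ^ (a + 1) ≤ (pup x a : ℝ) := by
  unfold pup
  rw [pdn_eq]
  refine le_trans ?_ (real_le_div _ (pow_pos S_pos a))
  push_cast
  rw [le_div_iff₀ (pow_pos S_posR a)]
  calc S * y ^ (a + 1) * S ^ a = (S * y) ^ (a + 1) := by ring
    _ ≤ (x : ℝ) ^ (a + 1) := pow_le_pow_left₀ (mul_nonneg S_posR.le hy0) hy _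

/-! ### bounds for the functions -/

def loR (a b s : ℕ) : ℕ := pdn (pdn (S - (s / ((a + 1) * (b + 1)) + 1)) a) b
def hiR (a b s : ℕ) : ℕ := pup (pup (S - s / ((a + 1) * (b + 1))) a) b
def hiE (s : ℕ) : ℕ := force (s / 32) fun x => pup (S + x * x / (2 * S) + 1 - x) 31
def negE (s : ℕ) : ℕ :=
  force s fun n => force (n % S) fun y => force (n / S) fun k =>
    (S + y + y * y / S + 1) * Nat.pow 11 k / Nat.pow 4 k + 1

theorem loR_le (a b n : ℕ) {s : ℝ} (hs : S * s ≤ n) :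
    (loR a b n : ℝ) ≤ S * fReg ((a + 1) * (b + 1)) s := by
  unfold loR fReg
  rw [pow_mul]
  refine pdn_le b (pdn_le a ?_)
  refine le_trans (real_sub_le _ _) ?_
  have hN : 0 < (a + 1) * (b + 1) := by positivity
  have hN' : (0 : ℝ) < ((a + 1) * (b + 1) : ℕ) := by exact_mod_cast hN
  have h1 := real_le_div n hN
  have h2 : S * s / ((a + 1) * (b + 1) : ℕ) ≤ (n : ℝ) / ((a + 1) * (b + 1) : ℕ) :=
    div_le_div_of_nonneg_right hs hN'.le
  rw [mul_max_of_nonneg _ _ S_posR.le, mul_zero]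
  refine max_le_max le_rfl ?_
  rw [mul_sub, mul_one, ← mul_div_assoc]
  linarith

theorem le_hiR (a b n : ℕ) {s : ℝ} (hs : (n : ℝ) ≤ S * s) :
    S * fReg ((a + 1) * (b + 1)) s ≤ (hiR a b n : ℝ) := by
  unfold hiR fReg
  rw [pow_mul]
  refine pup_ge b (pow_nonneg (le_max_left _ _) _) (pup_ge a (le_max_left _ _) ?_)
  have hN : 0 < (a + 1) * (b + 1) := by positivity
  have hN' : (0 : ℝ) < ((a + 1) * (b + 1) : ℕ) := by exact_mod_cast hN
  have h1 := div_le_real n ((a + 1) * (b + 1))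
  have h2 : (n : ℝ) / ((a + 1) * (b + 1) : ℕ) ≤ S * s / ((a + 1) * (b + 1) : ℕ) :=
    div_le_div_of_nonneg_right hs hN'.le
  rw [mul_max_of_nonneg _ _ S_posR.le, mul_zero]
  refine max_le (Nat.cast_nonneg _) (le_trans ?_ (sub_le_real _ _))
  rw [mul_sub, mul_one, ← mul_div_assoc]
  linarith

theorem le_hiE (n : ℕ) {s : ℝ} (hs : (n : ℝ) ≤ S * s) : S * Real.exp (-s) ≤ (hiE n : ℝ) := by
  unfold hiE
  rw [force_eq]
  obtain ⟨x, hx⟩ : ∃ x, x = n / 32 := ⟨_, rfl⟩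
  rw [← hx]
  have hS := S_posR
  have h1 : (x : ℝ) ≤ n / 32 := by rw [hx]; exact_mod_cast div_le_real n 32
  have h2 : Real.exp (-s) ≤ Real.exp (-(x / S)) ^ (31 + 1) := by
    rw [← Real.exp_nat_mul]
    refine Real.exp_le_exp.2 ?_
    have : (x : ℝ) / S ≤ s / 32 := by
      rw [div_le_iff₀ hS]; linarith
    push_cast
    linarith
  refine le_trans (mul_le_mul_of_nonneg_left h2 hS.le) (pup_ge 31 (Real.exp_pos _).le ?_)
  refine le_trans ?_ (sub_le_real _ _)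
  have h3 := exp_neg_le_quad (s := x / S) (by positivity)
  have h4 := real_le_div (x * x) (D := 2 * S) (by norm_num [S])
  have h5 : (S : ℝ) * (1 - x / S + (x / S) ^ 2 / 2) = S - x + x * x / (2 * S) := by
    field_simp
  have h6 := mul_le_mul_of_nonneg_left h3 hS.le
  push_cast at h4 ⊢
  linarith

theorem le_negE (n : ℕ) {s : ℝ} (hs : S * (-s) ≤ n) : S * Real.exp (-s) ≤ (negE n : ℝ) := by
  unfold negE
  simp only [force_eq]
  obtain ⟨y, hy⟩ : ∃ y, y = n % S := ⟨_, rfl⟩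
  obtain ⟨k, hk⟩ : ∃ k, k = n / S := ⟨_, rfl⟩
  rw [← hy, ← hk]
  have hS := S_posR
  have hn : (n : ℝ) = S * k + y := by
    rw [hy, hk]; exact_mod_cast (Nat.div_add_mod n S).symm
  have hyS : (y : ℝ) / S ≤ 1 := by
    rw [div_le_one hS, hy]; exact_mod_cast (Nat.mod_lt n S_pos).le
  have h1 : Real.exp (-s) ≤ Real.exp (y / S) * Real.exp 1 ^ k := by
    rw [← Real.exp_nat_mul, ← Real.exp_add]
    refine Real.exp_le_exp.2 ?_
    have : -s - k ≤ y / S := by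
      rw [le_div_iff₀ hS]; linarith
    linarith
  have h2 : Real.exp 1 ^ k ≤ (11 / 4 : ℝ) ^ k :=
    pow_le_pow_left₀ (Real.exp_pos 1).le (by linarith [Real.exp_one_lt_d9]) k
  have h3 := exp_le_quad (s := y / S) (by positivity) hyS
  have h4 := real_le_div (y * y) S_pos
  have h5 : (S : ℝ) * Real.exp (y / S) ≤ ((S + y + y * y / S + 1 : ℕ) : ℝ) := by
    have e : (S : ℝ) * (1 + y / S + (y / S) ^ 2) = S + y + y * y / S := by field_simp
    have := mul_le_mul_of_nonneg_left h3 hS.le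
    push_cast at h4 ⊢
    linarith
  refine le_trans ?_ (real_le_div _ (show 0 < Nat.pow 4 k from Nat.pow_pos (by norm_num)))
  have e4 : ((Nat.pow 4 k : ℕ) : ℝ) = 4 ^ k := by simp
  have e11 : ((Nat.pow 11 k : ℕ) : ℝ) = 11 ^ k := by simp
  rw [Nat.cast_mul, e4, e11, mul_div_assoc, ← div_pow]
  calc (S : ℝ) * Real.exp (-s) ≤ S * (Real.exp (y / S) * Real.exp 1 ^ k) :=
        mul_le_mul_of_nonneg_left h1 hS.le
    _ = S * Real.exp (y / S) * Real.exp 1 ^ k := by ring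
    _ ≤ _ := mul_le_mul h5 h2 (by positivity) (Nat.cast_nonneg _)

theorem fReg_mono_n {n m : ℕ} (hn : 1 ≤ n) (hnm : n ≤ m) {s : ℝ} (_hs : 0 ≤ s) :
    fReg n s ≤ fReg m s := by
  have hn' : (0 : ℝ) < n := by exact_mod_cast hn
  have hm' : (0 : ℝ) < m := by exact_mod_cast (by omega : 0 < m)
  have hnm' : (n : ℝ) ≤ m := by exact_mod_cast hnm
  unfold fReg
  rcases le_total (1 - s / n) 0 with h | h
  · rw [max_eq_left h, zero_pow (by omega)]
    exact pow_nonneg (le_max_left _ _) _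
  · rw [max_eq_right h]
    have hp0 : (0 : ℝ) ≤ n / m := by positivity
    have hp1 : (n : ℝ) / m ≤ 1 := by rw [div_le_one hm']; exact hnm'
    have h1 := rpow_one_add_le_one_add_mul_self (s := -(s / n)) (by linarith) hp0 hp1
    have e1 : 1 + (n : ℝ) / m * -(s / n) = 1 - s / m := by field_simp; ring
    rw [e1, ← sub_eq_add_neg] at h1
    have e2 : (1 - s / n) ^ n = ((1 - s / n) ^ ((n : ℝ) / m)) ^ m := by
      rw [← Real.rpow_natCast, ← Real.rpow_natCast, ← Real.rpow_mul h]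
      congr 1
      field_simp
    rw [e2]
    exact pow_le_pow_left₀ (Real.rpow_nonneg h _) (le_trans h1 (le_max_right _ _)) m

theorem fReg_anti (d : ℕ) {s t : ℝ} (h : s ≤ t) : fReg d t ≤ fReg d s := by
  unfold fReg
  refine pow_le_pow_left₀ (le_max_left _ _) (max_le_max le_rfl ?_) d
  have := div_le_div_of_nonneg_right h (Nat.cast_nonneg d : (0 : ℝ) ≤ d)
  linarith

/-- computable bounds for `f` -/
structure Bnd (f : ℝ → ℝ) (lo hi : ℕ → ℕ) : Prop where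
  lo : ∀ (n : ℕ) (s : ℝ), S * s ≤ n → (lo n : ℝ) ≤ S * f s
  hi : ∀ (n : ℕ) (s : ℝ), (n : ℝ) ≤ S * s → S * f s ≤ hi n
  ex : ∀ s, f s ≤ Real.exp (-s)

theorem lo_reg {d a b : ℕ} (h : (a + 1) * (b + 1) ≤ d) (n : ℕ) (s : ℝ) (hs : S * s ≤ n) :
    (loR a b n : ℝ) ≤ S * fReg d s := by
  have hS := S_posR
  have h1 : (S : ℝ) * (n / S) ≤ n := by rw [mul_div_cancel₀ _ hS.ne']
  have h2 : s ≤ n / S := by rw [le_div_iff₀ hS]; linarith
  refine le_trans (loR_le a b n h1) (mul_le_mul_of_nonneg_left ?_ hS.le)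
  exact le_trans (fReg_mono_n (Nat.succ_le_of_lt (by positivity)) h (by positivity))
    (fReg_anti d h2)

theorem bnd_reg {d a b a' b' : ℕ} (h : (a + 1) * (b + 1) ≤ d) (h' : d ≤ (a' + 1) * (b' + 1)) :
    Bnd (fReg d) (loR a b) (hiR a' b') := by
  have hd : 1 ≤ d := le_trans (Nat.succ_le_of_lt (by positivity)) h
  refine ⟨lo_reg h, fun n s hs => ?_, fReg_le_exp hd⟩
  have hS := S_posR
  have hs0 : 0 ≤ s := by
    have : (0 : ℝ) ≤ S * s := le_trans (Nat.cast_nonneg n) hs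
    exact nonneg_of_mul_nonneg_right this hS |> fun h => h
  exact le_trans (mul_le_mul_of_nonneg_left (fReg_mono_n hd h' hs0) hS.le) (le_hiR a' b' n hs)

theorem bnd_inf {d a b : ℕ} (h : (a + 1) * (b + 1) ≤ d) : Bnd (fReg d) (loR a b) hiE := by
  have hd : 1 ≤ d := le_trans (Nat.succ_le_of_lt (by positivity)) h
  refine ⟨lo_reg h, fun n s hs => ?_, fReg_le_exp hd⟩
  exact le_trans (mul_le_mul_of_nonneg_left (fReg_le_exp hd s) S_posR.le) (le_hiE n hs)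

theorem bnd_poi (a b : ℕ) : Bnd fPoi (loR a b) hiE := by
  refine ⟨fun n s hs => ?_, fun n s hs => le_hiE n hs, fun s => le_rfl⟩
  refine le_trans (loR_le a b n hs) (mul_le_mul_of_nonneg_left ?_ S_posR.le)
  exact fReg_le_exp (Nat.succ_le_of_lt (by positivity)) s

/-! ### one step -/

def nmax (a b : ℕ) : ℕ := a + (b - a)
def nmin (a b : ℕ) : ℕ := a - (a - b)

def sMax (A1 B1 A2 B2 D a b : ℕ) : ℕ := nmax (a * A1 + b * B1) (a * A2 + b * B2) / D + 1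
def sMin (A1 B1 A2 B2 D a b : ℕ) : ℕ := nmin (a * A1 + b * B1) (a * A2 + b * B2) / D
def tNeg (A1 B1 A2 B2 D a : ℕ) : ℕ := nmax (16 * B1 - a * A1) (16 * B2 - a * A2) / D + 1

/-- `E`, `G` interpolate the integer end-point values -/
def Interp (A1 B1 A2 B2 D : ℕ) (E G : ℝ) : Prop :=
  0 < D ∧ ∃ t : ℝ, 0 ≤ t ∧ t ≤ 1 ∧ D * (S * E) = 16 * ((1 - t) * A1 + t * A2) ∧
    D * (S * G) = 16 * ((1 - t) * B1 + t * B2)

theorem le_sMax {A1 B1 A2 B2 D : ℕ} {E G : ℝ} (h : Interp A1 B1 A2 B2 D E G) (a b : ℕ) {s : ℝ}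
    (hs : 16 * s = a * E + b * G) : S * s ≤ (sMax A1 B1 A2 B2 D a b : ℝ) := by
  obtain ⟨hD, t, t0, t1, hE, hG⟩ := h
  have hD' : (0 : ℝ) < D := by exact_mod_cast hD
  unfold sMax
  refine le_trans ?_ (real_le_div _ hD)
  rw [le_div_iff₀ hD']
  obtain ⟨M, hM⟩ : ∃ M, M = nmax (a * A1 + b * B1) (a * A2 + b * B2) := ⟨_, rfl⟩
  rw [← hM]
  have h1 : ((a * A1 + b * B1 : ℕ) : ℝ) ≤ M := by
    have : a * A1 + b * B1 ≤ M := by rw [hM]; unfold nmax; omega
    exact_mod_cast this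
  have h2 : ((a * A2 + b * B2 : ℕ) : ℝ) ≤ M := by
    have : a * A2 + b * B2 ≤ M := by rw [hM]; unfold nmax; omega
    exact_mod_cast this
  push_cast at h1 h2
  have e : S * s * D = (1 - t) * (a * A1 + b * B1) + t * (a * A2 + b * B2) := by
    linear_combination (S * D / 16 : ℝ) * hs + (a / 16 : ℝ) * hE + (b / 16 : ℝ) * hG
  have h3 := mul_le_mul_of_nonneg_left h1 (sub_nonneg.2 t1)
  have h4 := mul_le_mul_of_nonneg_left h2 t0
  linarith

theorem sMin_le {A1 B1 A2 B2 D : ℕ} {E G : ℝ} (h : Interp A1 B1 A2 B2 D E G) (a b : ℕ) {s : ℝ}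
    (hs : 16 * s = a * E + b * G) : (sMin A1 B1 A2 B2 D a b : ℝ) ≤ S * s := by
  obtain ⟨hD, t, t0, t1, hE, hG⟩ := h
  have hD' : (0 : ℝ) < D := by exact_mod_cast hD
  unfold sMin
  refine le_trans (div_le_real _ _) ?_
  rw [div_le_iff₀ hD']
  obtain ⟨M, hM⟩ : ∃ M, M = nmin (a * A1 + b * B1) (a * A2 + b * B2) := ⟨_, rfl⟩
  rw [← hM]
  have h1 : (M : ℝ) ≤ ((a * A1 + b * B1 : ℕ) : ℝ) := by
    have : M ≤ a * A1 + b * B1 := by rw [hM]; unfold nmin; omega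
    exact_mod_cast this
  have h2 : (M : ℝ) ≤ ((a * A2 + b * B2 : ℕ) : ℝ) := by
    have : M ≤ a * A2 + b * B2 := by rw [hM]; unfold nmin; omega
    exact_mod_cast this
  push_cast at h1 h2
  have e : S * s * D = (1 - t) * (a * A1 + b * B1) + t * (a * A2 + b * B2) := by
    linear_combination (S * D / 16 : ℝ) * hs + (a / 16 : ℝ) * hE + (b / 16 : ℝ) * hG
  have h3 := mul_le_mul_of_nonneg_left h1 (sub_nonneg.2 t1)
  have h4 := mul_le_mul_of_nonneg_left h2 t0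
  linarith

theorem le_tNeg {A1 B1 A2 B2 D : ℕ} {E G : ℝ} (h : Interp A1 B1 A2 B2 D E G) (a : ℕ) {s : ℝ}
    (hs : 16 * s = a * E - 16 * G) : S * (-s) ≤ (tNeg A1 B1 A2 B2 D a : ℝ) := by
  obtain ⟨hD, t, t0, t1, hE, hG⟩ := h
  have hD' : (0 : ℝ) < D := by exact_mod_cast hD
  unfold tNeg
  refine le_trans ?_ (real_le_div _ hD)
  rw [le_div_iff₀ hD']
  obtain ⟨M, hM⟩ : ∃ M, M = nmax (16 * B1 - a * A1) (16 * B2 - a * A2) := ⟨_, rfl⟩
  rw [← hM]
  have h1 : ((16 * B1 : ℕ) : ℝ) ≤ M + (a * A1 : ℕ) := by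
    have : 16 * B1 ≤ M + a * A1 := by rw [hM]; unfold nmax; omega
    exact_mod_cast this
  have h2 : ((16 * B2 : ℕ) : ℝ) ≤ M + (a * A2 : ℕ) := by
    have : 16 * B2 ≤ M + a * A2 := by rw [hM]; unfold nmax; omega
    exact_mod_cast this
  push_cast at h1 h2
  have e : S * (-s) * D = (1 - t) * (16 * B1 - a * A1) + t * (16 * B2 - a * A2) := by
    linear_combination (-S * D / 16 : ℝ) * hs - (a / 16 : ℝ) * hE + hG
  have h3 := mul_le_mul_of_nonneg_left h1 (sub_nonneg.2 t1)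
  have h4 := mul_le_mul_of_nonneg_left h2 t0
  linarith

def rawT (lo : ℕ → ℕ) (A1 B1 A2 B2 D n1 : ℕ) : ℕ :=
  (1572864000 * S + 375 * n1 -
    (170916763 * lo (sMax A1 B1 A2 B2 D 16 8) + 1184892380 * lo (sMax A1 B1 A2 B2 D 16 2) +
      195035136 * lo (sMax A1 B1 A2 B2 D 16 1) + 22020096 * lo (sMax A1 B1 A2 B2 D 16 0))) /
    1572864000 + 1

def rawV (lo hi : ℕ → ℕ) (A1 B1 A2 B2 D n1 : ℕ) : ℕ :=
  (2359296000 * S + (2250 * negE (tNeg A1 B1 A2 B2 D 8) +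
      173094076 * hi (sMin A1 B1 A2 B2 D 16 8) + 1660074416 * hi (sMin A1 B1 A2 B2 D 16 2) +
      406978560 * hi (sMin A1 B1 A2 B2 D 16 1) + 119144448 * hi (sMin A1 B1 A2 B2 D 16 0) +
      4500 * n1) -
    (112321954 * lo (sMax A1 B1 A2 B2 D 8 8) + 1220682536 * lo (sMax A1 B1 A2 B2 D 8 2) +
      2951479296 * lo (sMax A1 B1 A2 B2 D 8 1) + 434110464 * lo (sMax A1 B1 A2 B2 D 8 0))) /
    2359296000 + 1

theorem le_rawT {f : ℝ → ℝ} {lo hi : ℕ → ℕ} (hf : Bnd f lo hi) {A1 B1 A2 B2 D : ℕ} {E G : ℝ}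
    (h : Interp A1 B1 A2 B2 D E G) :
    1 - low termsT f E G ≤ (rawT lo A1 B1 A2 B2 D (negE (tNeg A1 B1 A2 B2 D 16)) : ℝ) / S := by
  have hS := S_posR
  rw [le_div_iff₀ hS, lowT_eq]
  have h1 := hf.lo _ _ (le_sMax h 16 8 (s := E + G / 2) (by push_cast; ring))
  have h2 := hf.lo _ _ (le_sMax h 16 2 (s := E + G / 8) (by push_cast; ring))
  have h3 := hf.lo _ _ (le_sMax h 16 1 (s := E + G / 16) (by push_cast; ring))
  have h4 := hf.lo _ _ (le_sMax h 16 0 (s := E) (by push_cast; ring))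
  have h5 := le_trans (mul_le_mul_of_nonneg_left (hf.ex _) hS.le)
    (le_negE _ (le_tNeg h 16 (s := E - G) (by push_cast; ring)))
  unfold rawT
  refine le_trans ?_ (real_le_div _ (by norm_num))
  rw [le_div_iff₀ (by norm_num)]
  refine le_trans ?_ (sub_le_real _ _)
  push_cast
  linarith

theorem le_rawV {f : ℝ → ℝ} {lo hi : ℕ → ℕ} (hf : Bnd f lo hi) {A1 B1 A2 B2 D : ℕ} {E G : ℝ}
    (h : Interp A1 B1 A2 B2 D E G) :
    1 - low termsV f E G ≤
      (rawV lo hi A1 B1 A2 B2 D (negE (tNeg A1 B1 A2 B2 D 16)) : ℝ) / S := by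
  have hS := S_posR
  rw [le_div_iff₀ hS, lowV_eq]
  have h1 := hf.hi _ _ (sMin_le h 16 8 (s := E + G / 2) (by push_cast; ring))
  have h2 := hf.hi _ _ (sMin_le h 16 2 (s := E + G / 8) (by push_cast; ring))
  have h3 := hf.hi _ _ (sMin_le h 16 1 (s := E + G / 16) (by push_cast; ring))
  have h4 := hf.hi _ _ (sMin_le h 16 0 (s := E) (by push_cast; ring))
  have h5 := le_trans (mul_le_mul_of_nonneg_left (hf.ex _) hS.le)
    (le_negE _ (le_tNeg h 16 (s := E - G) (by push_cast; ring)))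
  have h6 := hf.lo _ _ (le_sMax h 8 8 (s := E / 2 + G / 2) (by push_cast; ring))
  have h7 := hf.lo _ _ (le_sMax h 8 2 (s := E / 2 + G / 8) (by push_cast; ring))
  have h8 := hf.lo _ _ (le_sMax h 8 1 (s := E / 2 + G / 16) (by push_cast; ring))
  have h9 := hf.lo _ _ (le_sMax h 8 0 (s := E / 2) (by push_cast; ring))
  have h10 := le_trans (mul_le_mul_of_nonneg_left (hf.ex _) hS.le)
    (le_negE _ (le_tNeg h 8 (s := E / 2 - G) (by push_cast; ring)))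
  unfold rawV
  refine le_trans ?_ (real_le_div _ (by norm_num))
  rw [le_div_iff₀ (by norm_num)]
  refine le_trans ?_ (sub_le_real _ _)
  push_cast
  linarith

def eA (q p T v : ℕ) : ℕ := 4 * (q + 4 * p) * v + (q - 2 * p) * (T - v)
def eB (q p T v : ℕ) : ℕ := 32 * (q - 2 * p) * v + 8 * (q + p) * (T - v)

theorem interp {q p1 p2 T v : ℕ} (hq : 0 < q) (h1 : 2 * p1 ≤ q) (h2 : 2 * p2 ≤ q) (hv : v ≤ T)
    {l : ℝ} (hl1 : (p1 : ℝ) ≤ l * q) (hl2 : l * q ≤ p2) :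
    Interp (eA q p1 T v) (eB q p1 T v) (eA q p2 T v) (eB q p2 T v) (48 * q)
      (muE l (T / S) (v / S)) (muG l (T / S) (v / S)) := by
  have hS := S_posR
  obtain ⟨t, t0, t1, ht⟩ : ∃ t : ℝ, 0 ≤ t ∧ t ≤ 1 ∧ l * q = (1 - t) * p1 + t * p2 := by
    rcases eq_or_lt_of_le (le_trans hl1 hl2) with h | h
    · exact ⟨0, le_rfl, zero_le_one, by linarith⟩
    · have hp : (0 : ℝ) < p2 - p1 := by linarith
      refine ⟨(l * q - p1) / (p2 - p1), div_nonneg (by linarith) hp.le, ?_, ?_⟩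
      · rw [div_le_one hp]; linarith
      · field_simp; ring
  refine ⟨by omega, t, t0, t1, ?_, ?_⟩
  · unfold eA muE
    push_cast [Nat.cast_sub h1, Nat.cast_sub h2, Nat.cast_sub hv]
    have e : (48 : ℝ) * q * (S * (4 / 3 * (1 + 4 * l) * (v / S) +
        1 / 3 * (1 - 2 * l) * (T / S - v / S))) =
        16 * (4 * (q + 4 * (l * q)) * v + (q - 2 * (l * q)) * (T - v)) := by
      field_simp; ring
    rw [e, ht]; ring
  · unfold eB muG
    push_cast [Nat.cast_sub h1, Nat.cast_sub h2, Nat.cast_sub hv]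
    have e : (48 : ℝ) * q * (S * (32 / 3 * (1 - 2 * l) * (v / S) +
        8 / 3 * (1 + l) * (T / S - v / S))) =
        16 * (32 * (q - 2 * (l * q)) * v + 8 * (q + l * q) * (T - v)) := by
      field_simp; ring
    rw [e, ht]; ring

def body (lo hi : ℕ → ℕ) (q p1 p2 : ℕ) (k : ℕ → ℕ → Bool) (T v : ℕ) : Bool :=
  force (eA q p1 T v) fun A1 => force (eB q p1 T v) fun B1 =>
  force (eA q p2 T v) fun A2 => force (eB q p2 T v) fun B2 =>
  force (48 * q) fun D =>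
  force (negE (tNeg A1 B1 A2 B2 D 16)) fun n1 =>
  force (rawT lo A1 B1 A2 B2 D n1) fun T0 => force (nmin S T0) fun T' =>
  force (rawV lo hi A1 B1 A2 B2 D n1) fun v0 => force (nmin T' v0) fun v' => k T' v'

def run (lo hi : ℕ → ℕ) (q p1 p2 : ℕ) (fin : ℕ → ℕ → Bool) (N : ℕ) : ℕ → ℕ → Bool :=
  Nat.rec fin (fun _ ih => body lo hi q p1 p2 ih) N

theorem run_sound {l : ℝ} {f : ℝ → ℝ} {D : ℕ → ℝ → ℝ → Prop} (hS : Sys l f D) {lo hi : ℕ → ℕ}
    (hf : Bnd f lo hi) {q p1 p2 : ℕ} (hq : 0 < q) (h1 : 2 * p1 ≤ q) (h2 : 2 * p2 ≤ q)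
    (hl1 : (p1 : ℝ) ≤ l * q) (hl2 : l * q ≤ p2) (fin : ℕ → ℕ → Bool) (N : ℕ) :
    ∀ T v n : ℕ, v ≤ T → T ≤ S → D n (T / S) (v / S) → run lo hi q p1 p2 fin N T v = true →
      ∃ m T' v' : ℕ, D m (T' / S) (v' / S) ∧ fin T' v' = true := by
  have hP := S_posR
  induction N with
  | zero => intro T v n _ _ hD hr; exact ⟨n, T, v, hD, hr⟩
  | succ N ih =>
    intro T v n hv hT hD hr
    have hr' : body lo hi q p1 p2 (run lo hi q p1 p2 fin N) T v = true := hr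
    unfold body at hr'
    simp only [force_eq] at hr'
    have hI := interp (T := T) (v := v) hq h1 h2 hv hl1 hl2
    have hT' := le_rawT hf hI
    have hV' := le_rawV hf hI
    generalize rawT lo (eA q p1 T v) (eB q p1 T v) (eA q p2 T v) (eB q p2 T v) (48 * q)
      (negE (tNeg (eA q p1 T v) (eB q p1 T v) (eA q p2 T v) (eB q p2 T v) (48 * q) 16)) = T0
      at hr' hT'
    generalize rawV lo hi (eA q p1 T v) (eB q p1 T v) (eA q p2 T v) (eB q p2 T v) (48 * q)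
      (negE (tNeg (eA q p1 T v) (eB q p1 T v) (eA q p2 T v) (eB q p2 T v) (48 * q) 16)) = v0
      at hr' hV'
    refine ih _ _ (n + 1) (by unfold nmin; omega) (by unfold nmin; omega) ?_ hr'
    refine hS.step n _ _ _ _ (by positivity) ?_ ?_ hD ?_ ?_
    · exact div_le_div_of_nonneg_right (by exact_mod_cast hv) hP.le
    · rw [div_le_one hP]; exact_mod_cast hT
    · rcases le_total S T0 with h | h
      · right
        have : nmin S T0 = S := by unfold nmin; omega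
        rw [this, div_self hP.ne']
      · left
        have : nmin S T0 = T0 := by unfold nmin; omega
        rw [this]; exact hT'
    · rcases le_total (nmin S T0) v0 with h | h
      · right
        have : nmin (nmin S T0) v0 = nmin S T0 := by
          generalize nmin S T0 = x at h ⊢
          unfold nmin; omega
        rw [this]
      · left
        have : nmin (nmin S T0) v0 = v0 := by
          generalize nmin S T0 = x at h ⊢
          unfold nmin; omega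
        rw [this]; exact hV'

/-- the stopping test: `k1 / K1 ≤ 1 - ε ≤ k2 / K2` -/
def fin (q p1 p2 k1 K1 k2 K2 T v : ℕ) : Bool :=
  Nat.ble (1600 * K2 * (q + p1) * T + 5 * k2 * q * S) (120 * K2 * (q + p1) * S) &&
    Nat.ble (4800 * K1 * (q + p2) * v) (40 * K1 * (q + p2) * S + 5 * k1 * q * S)

theorem slab {l ε : ℝ} {f : ℝ → ℝ} {D : ℕ → ℝ → ℝ → Prop} (hS : Sys l f D) (hb : Bonf ε f)
    (hε0 : 0 ≤ ε) (hε : ε ≤ 1 / 4) {lo hi : ℕ → ℕ}
    (hf : Bnd f lo hi) {q p1 p2 k1 K1 k2 K2 : ℕ} (hq : 0 < q) (h1 : 2 * p1 ≤ q) (h2 : 2 * p2 ≤ q)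
    (hl1 : (p1 : ℝ) ≤ l * q) (hl2 : l * q ≤ p2) (hK1 : 0 < K1) (hK2 : 0 < K2)
    (hk1 : (k1 : ℝ) ≤ (1 - ε) * K1) (hk2 : (1 - ε) * K2 ≤ k2) {N T v n : ℕ} (hv : v ≤ T)
    (hT : T ≤ S) (hD : D n (T / S) (v / S))
    (hr : run lo hi q p1 p2 (fin q p1 p2 k1 K1 k2 K2) N T v = true) : Dies D := by
  obtain ⟨m, T', v', hD', hfin⟩ := run_sound hS hf hq h1 h2 hl1 hl2 _ N T v n hv hT hD hr
  have hP := S_posR
  have hq' : (0 : ℝ) < q := by exact_mod_cast hq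
  have hK1' : (0 : ℝ) < K1 := by exact_mod_cast hK1
  have hK2' : (0 : ℝ) < K2 := by exact_mod_cast hK2
  have hp1 : (0 : ℝ) ≤ p1 := Nat.cast_nonneg _
  have hp2 : (0 : ℝ) ≤ p2 := Nat.cast_nonneg _
  have h2' : (2 : ℝ) * p2 ≤ q := by exact_mod_cast h2
  have hl0 : 0 ≤ l := nonneg_of_mul_nonneg_left (le_trans hp1 hl1) hq' |> fun h => h
  have hl : l ≤ 1 / 2 := le_of_mul_le_mul_right (by linarith) hq'
  unfold fin at hfin
  rw [Bool.and_eq_true, Nat.ble_eq, Nat.ble_eq] at hfin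
  obtain ⟨f1, f2⟩ := hfin
  have g1 : (1600 : ℝ) * K2 * (q + p1) * T' + 5 * k2 * q * S ≤ 120 * K2 * (q + p1) * S := by
    exact_mod_cast f1
  have g2 : (4800 : ℝ) * K1 * (q + p2) * v' ≤ 40 * K1 * (q + p2) * S + 5 * k1 * q * S := by
    exact_mod_cast f2
  have hl1' : (0 : ℝ) < 1 + l := by linarith
  have c1 : cc l ε ≤ 5 * k2 * q / (4 * K2 * (q + p1)) := by
    unfold cc
    rw [div_le_div_iff₀ hl1' (by positivity)]
    have e1 := mul_le_mul hk2 (show (q : ℝ) + p1 ≤ q + l * q by linarith) (by positivity)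
      (Nat.cast_nonneg k2)
    linarith
  have c2 : 5 * k1 * q / (4 * K1 * (q + p2)) ≤ cc l ε := by
    unfold cc
    rw [div_le_div_iff₀ (by positivity) hl1']
    have e1 := mul_le_mul hk1 (show (q : ℝ) + l * q ≤ q + p2 by linarith) (by positivity)
      (mul_nonneg (by linarith) hK1'.le)
    linarith
  refine local_dies hS hb hl0 hl hε0 hε (hS.mono m _ _ _ _ hD' ?_ ?_)
  · unfold curT
    have : (T' : ℝ) / S ≤ 3 / 40 - 5 * k2 * q / (4 * K2 * (q + p1)) / 400 := by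
      rw [div_le_iff₀ hP]
      have e : (3 / 40 - 5 * k2 * q / (4 * K2 * (q + p1)) / 400 : ℝ) * S =
          (120 * K2 * (q + p1) * S - 5 * k2 * q * S) / (1600 * K2 * (q + p1)) := by
        field_simp; ring
      rw [e, le_div_iff₀ (by positivity)]
      linarith
    linarith
  · unfold curV
    have : (v' : ℝ) / S ≤ 1 / 120 + 5 * k1 * q / (4 * K1 * (q + p2)) / 1200 := by
      rw [div_le_iff₀ hP]
      have e : (1 / 120 + 5 * k1 * q / (4 * K1 * (q + p2)) / 1200 : ℝ) * S =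
          (40 * K1 * (q + p2) * S + 5 * k1 * q * S) / (4800 * K1 * (q + p2)) := by
        field_simp; ring
      rw [e, le_div_iff₀ (by positivity)]
      linarith
    linarith

theorem l_upper {d d1 q p2 : ℕ} (hd : d1 ≤ d) (h0 : 0 < d1) (h : q * q ≤ p2 * p2 * d1) {l : ℝ}
    (hl : l ^ 2 * d = 1) : l * q ≤ p2 := by
  have h' : (q : ℝ) * q ≤ p2 * p2 * d1 := by exact_mod_cast h
  have hd' : (d1 : ℝ) ≤ d := by exact_mod_cast hd
  have h0' : (0 : ℝ) < d1 := by exact_mod_cast h0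
  have e1 : l ^ 2 * d1 ≤ 1 := by
    have := mul_le_mul_of_nonneg_left hd' (sq_nonneg l)
    linarith
  have e2 : (l * q) ^ 2 * d1 ≤ (p2 : ℝ) ^ 2 * d1 := by
    have := mul_le_mul_of_nonneg_right e1 (mul_self_nonneg (q : ℝ))
    linarith
  exact le_trans (le_abs_self _)
    (abs_le_of_sq_le_sq (le_of_mul_le_mul_right e2 h0') (Nat.cast_nonneg _))

theorem l_lower {d d2 q p1 : ℕ} (hd : d ≤ d2) (h : p1 * p1 * d2 ≤ q * q) {l : ℝ} (hl0 : 0 ≤ l)
    (hl : l ^ 2 * d = 1) : (p1 : ℝ) ≤ l * q := by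
  have h' : (p1 : ℝ) * p1 * d2 ≤ q * q := by exact_mod_cast h
  have hd' : (d : ℝ) ≤ d2 := by exact_mod_cast hd
  have e1 : 1 ≤ l ^ 2 * d2 := by
    have := mul_le_mul_of_nonneg_left hd' (sq_nonneg l)
    linarith
  have e2 : (p1 : ℝ) ^ 2 ≤ (l * q) ^ 2 := by
    have a1 := mul_le_mul_of_nonneg_left e1 (mul_self_nonneg (p1 : ℝ))
    have a2 := mul_le_mul_of_nonneg_left h' (sq_nonneg l)
    linarith
  exact le_trans (le_abs_self _) (abs_le_of_sq_le_sq e2 (mul_nonneg hl0 (Nat.cast_nonneg _)))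

theorem k_lower {d d1 : ℕ} (hd : d1 ≤ d) (h0 : 1 ≤ d1) :
    ((d1 - 1 : ℕ) : ℝ) ≤ (1 - 1 / (d : ℝ)) * d1 := by
  rw [Nat.cast_sub h0]
  have hd' : (d1 : ℝ) ≤ d := by exact_mod_cast hd
  have h0' : (1 : ℝ) ≤ d1 := by exact_mod_cast h0
  have : 1 / (d : ℝ) * d1 ≤ 1 := by
    rw [one_div, inv_mul_le_iff₀ (by linarith)]; linarith
  push_cast
  linarith

theorem k_upper {d d2 : ℕ} (hd : d ≤ d2) (h0 : 1 ≤ d) :
    (1 - 1 / (d : ℝ)) * d2 ≤ ((d2 - 1 : ℕ) : ℝ) := by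
  rw [Nat.cast_sub (le_trans h0 hd)]
  have hd' : (d : ℝ) ≤ d2 := by exact_mod_cast hd
  have h0' : (1 : ℝ) ≤ d := by exact_mod_cast h0
  have : 1 ≤ 1 / (d : ℝ) * d2 := by
    rw [one_div, le_inv_mul_iff₀ (by linarith)]; linarith
  push_cast
  linarith

theorem eps_le {d : ℕ} (hd : 4 ≤ d) : 1 / (d : ℝ) ≤ 1 / 4 :=
  one_div_le_one_div_of_le (by norm_num) (by exact_mod_cast hd)

def chkReg (d1 d2 q p1 p2 a b a' b' N T v : ℕ) : Bool :=
  Nat.ble 4 d1 && Nat.ble (p1 * p1 * d2) (q * q) && Nat.ble (q * q) (p2 * p2 * d1) &&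
  Nat.ble 1 q && Nat.ble (2 * p1) q && Nat.ble (2 * p2) q && Nat.ble ((a + 1) * (b + 1)) d1 &&
  Nat.ble d2 ((a' + 1) * (b' + 1)) && Nat.ble v T && Nat.ble T S &&
  run (loR a b) (hiR a' b') q p1 p2 (fin q p1 p2 (d1 - 1) d1 (d2 - 1) d2) N T v

theorem reg_slab {d1 d2 q p1 p2 a b a' b' N T v : ℕ}
    (h : chkReg d1 d2 q p1 p2 a b a' b' N T v = true) {d : ℕ} (h1 : d1 ≤ d) (h2 : d ≤ d2)
    {l : ℝ} (hl0 : 0 ≤ l) (hl : l ^ 2 * d = 1) {D : ℕ → ℝ → ℝ → Prop} (hS : Sys l (fReg d) D)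
    {n : ℕ} (hD : D n (T / S) (v / S)) : Dies D := by
  unfold chkReg at h
  simp only [Bool.and_eq_true, Nat.ble_eq] at h
  obtain ⟨⟨⟨⟨⟨⟨⟨⟨⟨⟨c1, c2⟩, c3⟩, c4⟩, c5⟩, c6⟩, c7⟩, c8⟩, c9⟩, c10⟩, c11⟩ := h
  exact slab hS (bonf_reg (by omega)) (by positivity) (eps_le (by omega))
    (bnd_reg (le_trans c7 h1) (le_trans h2 c8)) c4 c5 c6 (l_lower h2 c2 hl0 hl)
    (l_upper h1 (by omega) c3 hl) (by omega) (by omega) (k_lower h1 (by omega))
    (k_upper h2 (by omega)) c9 c10 hD c11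

def chkInf (d1 q p2 a b N : ℕ) : Bool :=
  Nat.ble 4 d1 && Nat.ble (q * q) (p2 * p2 * d1) &&
  Nat.ble 1 q && Nat.ble (2 * p2) q && Nat.ble ((a + 1) * (b + 1)) d1 &&
  run (loR a b) hiE q 0 p2 (fin q 0 p2 (d1 - 1) d1 1 1) N S S

theorem inf_slab {d1 q p2 a b N : ℕ} (h : chkInf d1 q p2 a b N = true) {d : ℕ} (h1 : d1 ≤ d)
    {l : ℝ} (hl0 : 0 ≤ l) (hl : l ^ 2 * d = 1) {D : ℕ → ℝ → ℝ → Prop} (hS : Sys l (fReg d) D)
    {n : ℕ} (hD : D n 1 1) : Dies D := by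
  unfold chkInf at h
  simp only [Bool.and_eq_true, Nat.ble_eq] at h
  obtain ⟨⟨⟨⟨⟨c1, c3⟩, c4⟩, c6⟩, c7⟩, c11⟩ := h
  refine slab (n := n) hS (bonf_reg (by omega)) (by positivity) (eps_le (by omega))
    (bnd_inf (le_trans c7 h1)) c4 (by omega) c6
    (by rw [Nat.cast_zero]; exact mul_nonneg hl0 (Nat.cast_nonneg _))
    (l_upper h1 (by omega) c3 hl) (by omega) (by omega) (k_lower h1 (by omega))
    ?_ le_rfl le_rfl ?_ c11
  · have : 0 ≤ 1 / (d : ℝ) := by positivity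
    push_cast
    linarith
  · rw [div_self S_posR.ne']; exact hD

def chkPoi (q p1 p2 N : ℕ) : Bool :=
  Nat.ble 1 q && Nat.ble (2 * p1) q && Nat.ble (2 * p2) q &&
  run (loR 63 63) hiE q p1 p2 (fin q p1 p2 1 1 1 1) N S S

theorem poi_slab {q p1 p2 N : ℕ} (h : chkPoi q p1 p2 N = true) {l : ℝ} (h1 : (p1 : ℝ) ≤ l * q)
    (h2 : l * q ≤ p2) {D : ℕ → ℝ → ℝ → Prop} (hS : Sys l fPoi D)
    {n : ℕ} (hD : D n 1 1) : Dies D := by
  unfold chkPoi at h
  simp only [Bool.and_eq_true, Nat.ble_eq] at h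
  obtain ⟨⟨⟨c4, c5⟩, c6⟩, c11⟩ := h
  refine slab (n := n) hS bonf_poi le_rfl (by norm_num) (bnd_poi 63 63) c4 c5 c6 h1 h2
    Nat.one_pos Nat.one_pos (by norm_num) (by norm_num) le_rfl le_rfl ?_ c11
  rw [div_self S_posR.ne']; exact hD

end Crest.Agent.R163.Eng
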