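import Crest.Agent.R163.Ln
import Crest.Agent.R163.AFDefs

/-! Row 163: less-noisy upgrades for three states. -/

set_option autoImplicit false

namespace Crest.Agent.R163

universe u v

theorem up_univ_perm3 : (Finset.univ : Finset (Equiv.Perm (Fin 3))) =
    {1, Equiv.swap 1 2, Equiv.swap 0 1, Equiv.swap 0 1 * Equiv.swap 1 2,
      Equiv.swap 1 2 * Equiv.swap 0 1, Equiv.swap 0 2} := by decide

theorem up_comp3 (a : Vec 3) (σ : Equiv.Perm (Fin 3)) :
    a ∘ σ = ![a (σ 0), a (σ 1), a (σ 2)] := by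
  funext i; fin_cases i <;> rfl

theorem symv_three (F : Vec 3 → ℝ) (a : Vec 3) :
    symv F a = (F ![a 0, a 1, a 2] + F ![a 0, a 2, a 1] + F ![a 1, a 0, a 2]
      + F ![a 1, a 2, a 0] + F ![a 2, a 0, a 1] + F ![a 2, a 1, a 0]) / 6 := by
  unfold symv
  rw [up_univ_perm3, Finset.sum_insert (by decide), Finset.sum_insert (by decide),
    Finset.sum_insert (by decide), Finset.sum_insert (by decide), Finset.sum_insert (by decide),
    Finset.sum_singleton]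
  simp only [up_comp3]
  have h6 : ((Nat.factorial 3 : ℕ) : ℝ) = 6 := by norm_num [Nat.factorial]
  rw [h6]
  congr 1
  show F ![a 0, a 1, a 2] + (F ![a 0, a 2, a 1] + (F ![a 1, a 0, a 2]
      + (F ![a 1, a 2, a 0] + (F ![a 2, a 0, a 1] + F ![a 2, a 1, a 0])))) = _
  ring

theorem symv_perm {q : ℕ} (F : Vec q → ℝ) (a : Vec q) (σ : Equiv.Perm (Fin q)) :
    symv F (a ∘ σ) = symv F a := by
  unfold symv
  congr 1
  exact Equiv.sum_comp (Equiv.mulLeft σ) (fun τ : Equiv.Perm (Fin q) => F (a ∘ τ))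

theorem up_symv_const {q : ℕ} (F : Vec q → ℝ) {a : Vec q} (ha : ∀ σ : Equiv.Perm (Fin q), a ∘ σ = a) :
    symv F a = F a := by
  unfold symv
  simp only [ha, Finset.sum_const, Finset.card_univ, Fintype.card_perm, Fintype.card_fin,
    nsmul_eq_mul]
  have : (q.factorial : ℝ) ≠ 0 := by positivity
  field_simp

theorem up_symv_one {q : ℕ} (F : Vec q → ℝ) : symv F 1 = F 1 := up_symv_const F fun _ => rfl

theorem up_sum_perm {q : ℕ} {b : Vec q} (hb : ∑ i, b i = 0) (i : Fin q) :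
    ∑ σ : Equiv.Perm (Fin q), b (σ i) = 0 := by
  have h1 : ∀ j, ∑ σ : Equiv.Perm (Fin q), b (σ j) = ∑ σ : Equiv.Perm (Fin q), b (σ i) := by
    intro j
    have := Equiv.sum_comp (Equiv.mulRight (Equiv.swap i j))
      (fun τ : Equiv.Perm (Fin q) => b (τ j))
    rw [← this]
    simp
  have h2 : ∑ j, ∑ σ : Equiv.Perm (Fin q), b (σ j) = 0 := by
    rw [Finset.sum_comm]
    exact Finset.sum_eq_zero fun σ _ => by rw [Equiv.sum_comp σ b, hb]
  simp only [h1, Finset.sum_const, Finset.card_univ, Fintype.card_fin, nsmul_eq_mul] at h2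
  have hq : (q : ℝ) ≠ 0 := by
    have := i.pos
    positivity
  exact (mul_eq_zero.mp h2).resolve_left hq

theorem up_sum_perm_dot {q : ℕ} {b : Vec q} (hb : ∑ i, b i = 0) (h : Vec q) :
    ∑ σ : Equiv.Perm (Fin q), ∑ i, h i * b (σ i) = 0 := by
  rw [Finset.sum_comm]
  exact Finset.sum_eq_zero fun i _ => by rw [← Finset.mul_sum, up_sum_perm hb, mul_zero]

theorem up_abs_dot_le {q : ℕ} {h ν x : Vec q} (ht : Test h ν) (hx : NN x) :
    |∑ i, h i * x i| ≤ ∑ i, ν i * x i :=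
  (Finset.abs_sum_le_sum_abs _ _).trans (Finset.sum_le_sum fun i _ => by
    rw [abs_mul, abs_of_nonneg (hx i)]
    exact mul_le_mul_of_nonneg_right (ht i) (hx i))

theorem up_dot_ray {q : ℕ} (h m d : Vec q) (τ : ℝ) :
    ∑ i, h i * (m + τ • d) i = ∑ i, h i * m i + τ * ∑ i, h i * d i := by
  rw [Finset.mul_sum, ← Finset.sum_add_distrib]
  exact Finset.sum_congr rfl fun i _ => by simp; ring

theorem up_var_eq (p r : ℝ) : p ^ 2 / r = 2 * (p / r) * p - (p / r) ^ 2 * r := by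
  by_cases h : r = 0
  · simp [h]
  · field_simp; ring

theorem up_div_mul {p r : ℝ} (h : |p| ≤ r) : p / r * r = p := by
  by_cases h0 : r = 0
  · rw [h0] at h ⊢
    rw [mul_zero, abs_nonpos_iff.mp h]
  · field_simp

theorem up_NN_one {q : ℕ} : NN (1 : Vec q) := fun _ => zero_le_one

theorem up_ray_pt {q : ℕ} {h ν b : Vec q} (ht : Test h ν)
    {τ τ₁ τ₂ γ₁ γ₂ : ℝ} (hγ₁ : 0 ≤ γ₁) (hγ₂ : 0 ≤ γ₂)
    (h2 : γ₁ * τ₁ ^ 2 + γ₂ * τ₂ ^ 2 = τ ^ 2) (h3 : γ₁ * τ₁ ^ 3 + γ₂ * τ₂ ^ 3 = τ ^ 3)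
    (hx : NN (1 + τ • b)) (hx₁ : NN (1 + τ₁ • b)) (hx₂ : NN (1 + τ₂ • b)) :
    Ft h ν (1 + τ • b) ≤ (1 - γ₁ - γ₂) * Ft h ν 1 + γ₁ * Ft h ν (1 + τ₁ • b)
      + γ₂ * Ft h ν (1 + τ₂ • b) + (τ - γ₁ * τ₁ - γ₂ * τ₂) *
        (2 * ((∑ i, h i * 1) / ∑ i, ν i * 1) * ∑ i, h i * b i
          - ((∑ i, h i * 1) / ∑ i, ν i * 1) ^ 2 * ∑ i, ν i * b i) := by
  have a0 := up_div_mul (up_abs_dot_le ht up_NN_one)
  have a1 := up_div_mul (up_abs_dot_le ht hx)
  have g1 := Ft_ge ht hx₁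
  have g2 := Ft_ge ht hx₂
  have e0 : Ft h ν 1 = _ := up_var_eq _ _
  have e1 : Ft h ν (1 + τ • b) = _ := up_var_eq _ _
  have hab := up_abs_dot_le ht hx
  simp only [up_dot_ray, Pi.one_apply] at a0 a1 g1 g2 e0 e1 hab
  generalize Ft h ν 1 = F0 at *
  generalize Ft h ν (1 + τ • b) = F at *
  generalize Ft h ν (1 + τ₁ • b) = F1 at *
  generalize Ft h ν (1 + τ₂ • b) = F2 at *
  generalize ∑ i, h i * 1 = H at *
  generalize ∑ i, ν i * 1 = N at *
  generalize ∑ i, h i * b i = g at *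
  generalize ∑ i, ν i * b i = c at *
  generalize H / N = t0 at *
  subst a0
  -- `ρ = k / M`
  obtain ⟨ρ, hρ⟩ : ∃ ρ, F = t0 ^ 2 * N + τ * (2 * t0 * g - t0 ^ 2 * c)
      + τ ^ 2 * (2 * ρ * (g - t0 * c) - ρ ^ 2 * (N + τ * c)) := by
    by_cases hM : N + τ * c = 0
    · refine ⟨0, ?_⟩
      rw [hM] at hab e1
      have h0 := abs_nonpos_iff.mp hab
      rw [e1]
      simp only [div_zero]
      linear_combination (-2 * t0) * h0 + t0 ^ 2 * hM
    · refine ⟨(g - t0 * c) / (N + τ * c), ?_⟩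
      rw [e1]
      field_simp
      ring
  have g1' := mul_le_mul_of_nonneg_left (g1 (t0 + τ₁ * ρ)) hγ₁
  have g2' := mul_le_mul_of_nonneg_left (g2 (t0 + τ₂ * ρ)) hγ₂
  have key : F = (1 - γ₁ - γ₂) * F0
      + γ₁ * (2 * (t0 + τ₁ * ρ) * (t0 * N + τ₁ * g) - (t0 + τ₁ * ρ) ^ 2 * (N + τ₁ * c))
      + γ₂ * (2 * (t0 + τ₂ * ρ) * (t0 * N + τ₂ * g) - (t0 + τ₂ * ρ) ^ 2 * (N + τ₂ * c))
      + (τ - γ₁ * τ₁ - γ₂ * τ₂) * (2 * t0 * g - t0 ^ 2 * c) := by
    rw [hρ, e0]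
    linear_combination (-(2 * ρ * (g - t0 * c) - ρ ^ 2 * N)) * h2 + ρ ^ 2 * c * h3
  linarith

theorem up_NN_perm {q : ℕ} {x : Vec q} (hx : NN x) (σ : Equiv.Perm (Fin q)) : NN (x ∘ σ) :=
  fun i => hx (σ i)

/-- ray lemma: `τ ↦ (F (1 + τ b) - F 1 - linear) / τ²` is convex -/
theorem ray_lemma {q : ℕ} {h ν b : Vec q} (ht : Test h ν) (hb : ∑ i, b i = 0)
    {τ τ₁ τ₂ γ₁ γ₂ : ℝ} (hγ₁ : 0 ≤ γ₁) (hγ₂ : 0 ≤ γ₂)
    (h2 : γ₁ * τ₁ ^ 2 + γ₂ * τ₂ ^ 2 = τ ^ 2) (h3 : γ₁ * τ₁ ^ 3 + γ₂ * τ₂ ^ 3 = τ ^ 3)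
    (hx : NN (1 + τ • b)) (hx₁ : NN (1 + τ₁ • b)) (hx₂ : NN (1 + τ₂ • b)) :
    symv (Ft h ν) (1 + τ • b) ≤ (1 - γ₁ - γ₂) * Ft h ν 1 + γ₁ * symv (Ft h ν) (1 + τ₁ • b)
      + γ₂ * symv (Ft h ν) (1 + τ₂ • b) := by
  have hpt := fun σ : Equiv.Perm (Fin q) => up_ray_pt (b := b ∘ σ) ht hγ₁ hγ₂ h2 h3
    (up_NN_perm hx σ) (up_NN_perm hx₁ σ) (up_NN_perm hx₂ σ)
  have hs := Finset.sum_le_sum fun σ (_ : σ ∈ Finset.univ) => hpt σ
  simp only [Finset.sum_add_distrib, Finset.sum_sub_distrib, ← Finset.mul_sum, Function.comp_apply,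
    up_sum_perm_dot hb, mul_zero, sub_zero, add_zero] at hs
  rw [← up_symv_one (Ft h ν)]
  unfold symv
  have hq : (0 : ℝ) < q.factorial := by positivity
  rw [← mul_div_assoc, ← mul_div_assoc, ← mul_div_assoc, ← add_div, ← add_div]
  exact div_le_div_of_nonneg_right hs hq.le

theorem up_null_le {q : ℕ} {h ν b : Vec q} (ht : Test h ν) (hb : ∑ i, b i = 0)
    (hx : NN (1 + (1 : ℝ) • b)) : Ft h ν 1 ≤ symv (Ft h ν) (1 + (1 : ℝ) • b) := by
  have hpt : ∀ σ : Equiv.Perm (Fin q), Ft h ν 1 +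
      (2 * ((∑ i, h i * 1) / ∑ i, ν i * 1) * ∑ i, h i * b (σ i)
          - ((∑ i, h i * 1) / ∑ i, ν i * 1) ^ 2 * ∑ i, ν i * b (σ i))
      ≤ Ft h ν (1 + (1 : ℝ) • b ∘ σ) := by
    intro σ
    have g1 := Ft_ge ht (x := 1 + (1 : ℝ) • b ∘ σ) (up_NN_perm hx σ)
      ((∑ i, h i * 1) / ∑ i, ν i * 1)
    have e0 : Ft h ν 1 = _ := up_var_eq _ _
    simp only [up_dot_ray, Pi.one_apply, Function.comp_apply] at g1 e0
    rw [e0]
    linarith
  have hs := Finset.sum_le_sum fun σ (_ : σ ∈ Finset.univ) => hpt σ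
  simp only [Finset.sum_add_distrib, Finset.sum_sub_distrib, ← Finset.mul_sum,
    up_sum_perm_dot hb, mul_zero, sub_zero, add_zero] at hs
  rw [← up_symv_one (Ft h ν)]
  unfold symv
  have hq : (0 : ℝ) < q.factorial := by positivity
  exact div_le_div_of_nonneg_right hs hq.le

theorem up_NN_edge {δ : ℝ} (h0 : 0 ≤ δ) (h1 : δ ≤ 1) : NN (edgev δ) := by
  intro i
  fin_cases i <;> simp [edgev] <;> linarith

theorem null_le_edge {h ν : Vec 3} (ht : Test h ν) {δ : ℝ} (h0 : 0 ≤ δ) (h1 : δ ≤ 1) :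
    Ft h ν 1 ≤ symv (Ft h ν) (edgev δ) := by
  have he : edgev δ = 1 + (1 : ℝ) • (edgev δ - 1) := by simp
  rw [he]
  refine up_null_le ht ?_ (he ▸ up_NN_edge h0 h1)
  simp [Fin.sum_univ_three, edgev]
  ring

/-- affine minorants in `δ²` of the symmetric pair -/
theorem up_pair_ge {q : ℕ} {h ν m d : Vec q} (ht : Test h ν) {δ : ℝ} (h1 : NN (m + δ • d))
    (h2 : NN (m + (-δ) • d)) (u w : ℝ) :
    (4 * u * (∑ i, h i * m i) - 2 * u ^ 2 * ∑ i, ν i * m i)
      + δ ^ 2 * (4 * w * (∑ i, h i * d i) - 2 * w ^ 2 * (∑ i, ν i * m i)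
        - 4 * u * w * ∑ i, ν i * d i)
      ≤ Ft h ν (m + δ • d) + Ft h ν (m + (-δ) • d) := by
  have g1 := Ft_ge ht h1 (u + δ * w)
  have g2 := Ft_ge ht h2 (u - δ * w)
  simp only [up_dot_ray] at g1 g2
  nlinarith [g1, g2]

theorem up_pair_eq {q : ℕ} (h ν m d : Vec q) (δ : ℝ) : ∃ u w : ℝ, (δ = 0 → w = 0) ∧
    Ft h ν (m + δ • d) + Ft h ν (m + (-δ) • d) =
    (4 * u * (∑ i, h i * m i) - 2 * u ^ 2 * ∑ i, ν i * m i)
      + δ ^ 2 * (4 * w * (∑ i, h i * d i) - 2 * w ^ 2 * (∑ i, ν i * m i)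
        - 4 * u * w * ∑ i, ν i * d i) := by
  have e1 : Ft h ν (m + δ • d) = _ := up_var_eq _ _
  have e2 : Ft h ν (m + (-δ) • d) = _ := up_var_eq _ _
  simp only [up_dot_ray] at e1 e2
  rw [e1, e2]
  by_cases h0 : δ = 0
  · subst h0
    refine ⟨(∑ i, h i * m i) / ∑ i, ν i * m i, 0, fun _ => rfl, ?_⟩
    simp only [zero_mul, add_zero, neg_zero]
    ring
  · generalize (∑ i, h i * m i + δ * ∑ i, h i * d i) / (∑ i, ν i * m i + δ * ∑ i, ν i * d i) = t
    generalize (∑ i, h i * m i + -δ * ∑ i, h i * d i) / (∑ i, ν i * m i + -δ * ∑ i, ν i * d i) = s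
    refine ⟨(t + s) / 2, (t - s) / (2 * δ), fun h => absurd h h0, ?_⟩
    field_simp
    ring

noncomputable def upD : Vec 3 := ![3 / 2, -(3 / 2), 0]

theorem up_edge_eq (δ : ℝ) : edgev δ = Evec + δ • upD := by
  funext i; fin_cases i <;> simp [edgev, Evec, upD] <;> ring

theorem up_edge_swap (δ : ℝ) : edgev δ ∘ Equiv.swap 0 1 = Evec + (-δ) • upD := by
  rw [up_comp3]
  funext i; fin_cases i <;> simp [edgev, Evec, upD, Equiv.swap_apply_def] <;> ring

theorem up_two_symv (F : Vec 3 → ℝ) (δ : ℝ) : 2 * symv F (edgev δ) =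
    (∑ σ : Equiv.Perm (Fin 3), (F (Evec ∘ σ + δ • upD ∘ σ) + F (Evec ∘ σ + (-δ) • upD ∘ σ))) / 6 := by
  have h6 : ((Nat.factorial 3 : ℕ) : ℝ) = 6 := by norm_num [Nat.factorial]
  rw [two_mul]
  conv_lhs => rw [← symv_perm F (edgev δ) (Equiv.swap 0 1)]; congr; rw [symv_perm]
  rw [up_edge_swap, up_edge_eq, Finset.sum_add_distrib, add_div]
  unfold symv
  rw [h6]
  rfl

theorem up_NN_pair {δ : ℝ} (h0 : 0 ≤ δ) (h1 : δ ≤ 1) (σ : Equiv.Perm (Fin 3)) :
    NN (Evec ∘ σ + δ • upD ∘ σ) ∧ NN (Evec ∘ σ + (-δ) • upD ∘ σ) := by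
  have a := up_NN_perm (up_NN_edge h0 h1) σ
  have b := up_NN_perm (up_NN_perm (up_NN_edge h0 h1) (Equiv.swap 0 1)) σ
  rw [up_edge_swap] at b
  rw [up_edge_eq] at a
  exact ⟨a, b⟩

/-- edge lemma: convexity in `δ²` -/
theorem edge_convex {h ν : Vec 3} (ht : Test h ν) {δ δ₁ δ₂ θ : ℝ} (h0 : 0 ≤ δ) (h1 : δ ≤ 1)
    (h01 : 0 ≤ δ₁) (h11 : δ₁ ≤ 1) (h02 : 0 ≤ δ₂) (h12 : δ₂ ≤ 1) (hθ0 : 0 ≤ θ) (hθ1 : θ ≤ 1)
    (hδ : δ ^ 2 = (1 - θ) * δ₁ ^ 2 + θ * δ₂ ^ 2) :
    symv (Ft h ν) (edgev δ) ≤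
      (1 - θ) * symv (Ft h ν) (edgev δ₁) + θ * symv (Ft h ν) (edgev δ₂) := by
  have e := up_two_symv (Ft h ν) δ
  have e1 := up_two_symv (Ft h ν) δ₁
  have e2 := up_two_symv (Ft h ν) δ₂
  have hpt : ∀ σ : Equiv.Perm (Fin 3),
      Ft h ν (Evec ∘ σ + δ • upD ∘ σ) + Ft h ν (Evec ∘ σ + (-δ) • upD ∘ σ) ≤
      (1 - θ) * (Ft h ν (Evec ∘ σ + δ₁ • upD ∘ σ) + Ft h ν (Evec ∘ σ + (-δ₁) • upD ∘ σ))
      + θ * (Ft h ν (Evec ∘ σ + δ₂ • upD ∘ σ) + Ft h ν (Evec ∘ σ + (-δ₂) • upD ∘ σ)) := by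
    intro σ
    obtain ⟨u, w, -, huw⟩ := up_pair_eq h ν (Evec ∘ σ) (upD ∘ σ) δ
    have g1 := up_pair_ge ht (up_NN_pair h01 h11 σ).1 (up_NN_pair h01 h11 σ).2 u w
    have g2 := up_pair_ge ht (up_NN_pair h02 h12 σ).1 (up_NN_pair h02 h12 σ).2 u w
    rw [huw, hδ]
    nlinarith [mul_le_mul_of_nonneg_left g1 (sub_nonneg.2 hθ1), mul_le_mul_of_nonneg_left g2 hθ0]
  have hs := Finset.sum_le_sum fun σ (_ : σ ∈ Finset.univ) => hpt σ
  rw [Finset.sum_add_distrib (f := fun σ => (1 - θ) * _), ← Finset.mul_sum, ← Finset.mul_sum] at hs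
  have _ := h0
  have _ := h1
  nlinarith [hs]

theorem up_edge_zero_le {h ν : Vec 3} (ht : Test h ν) {δ : ℝ} (h0 : 0 ≤ δ) (h1 : δ ≤ 1) :
    symv (Ft h ν) (edgev 0) ≤ symv (Ft h ν) (edgev δ) := by
  have e := up_two_symv (Ft h ν) δ
  have e1 := up_two_symv (Ft h ν) 0
  have hpt : ∀ σ : Equiv.Perm (Fin 3),
      Ft h ν (Evec ∘ σ + (0 : ℝ) • upD ∘ σ) + Ft h ν (Evec ∘ σ + (-(0 : ℝ)) • upD ∘ σ) ≤
      Ft h ν (Evec ∘ σ + δ • upD ∘ σ) + Ft h ν (Evec ∘ σ + (-δ) • upD ∘ σ) := by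
    intro σ
    obtain ⟨u, w, -, huw⟩ := up_pair_eq h ν (Evec ∘ σ) (upD ∘ σ) 0
    have g1 := up_pair_ge ht (up_NN_pair h0 h1 σ).1 (up_NN_pair h0 h1 σ).2 u 0
    rw [huw]
    linarith
  have hs := div_le_div_of_nonneg_right (Finset.sum_le_sum fun σ (_ : σ ∈ Finset.univ) => hpt σ)
    (by norm_num : (0 : ℝ) ≤ 6)
  rw [← e, ← e1] at hs
  linarith

theorem edge_mono {h ν : Vec 3} (ht : Test h ν) {δ₁ δ₂ : ℝ} (h0 : 0 ≤ δ₁) (h12 : δ₁ ≤ δ₂)
    (h1 : δ₂ ≤ 1) : symv (Ft h ν) (edgev δ₁) ≤ symv (Ft h ν) (edgev δ₂) := by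
  rcases (h0.trans h12).eq_or_lt with h2 | h2
  · have : δ₁ = δ₂ := le_antisymm h12 (h2 ▸ h0)
    rw [this]
  · have hθ1 : δ₁ ^ 2 / δ₂ ^ 2 ≤ 1 := by
      rw [div_le_one (by positivity)]
      exact pow_le_pow_left₀ h0 h12 2
    have h3 := edge_convex ht (θ := δ₁ ^ 2 / δ₂ ^ 2) h0 (h12.trans h1) le_rfl zero_le_one h2.le h1
      (by positivity) hθ1 (by field_simp; ring)
    have h4 := up_edge_zero_le ht h2.le h1
    nlinarith [mul_le_mul_of_nonneg_left h4 (sub_nonneg.2 hθ1)]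

theorem up_sm3 (x : Vec 3) : sm x = (x 0 + x 1 + x 2) / 3 := by
  simp [sm, Fin.sum_univ_three]

theorem up_sm_smul {q : ℕ} (t : ℝ) (x : Vec q) : sm (t • x) = t * sm x := by
  simp [sm, ← Finset.mul_sum, mul_div_assoc]

theorem up_sm_perm {q : ℕ} (x : Vec q) (σ : Equiv.Perm (Fin q)) : sm (x ∘ σ) = sm x := by
  unfold sm
  congr 1
  exact Equiv.sum_comp σ x

theorem up_sm_nonneg {x : Vec 3} (hx : NN x) : 0 ≤ sm x := by
  rw [up_sm3]; linarith [hx 0, hx 1, hx 2]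

theorem up_phiT_nonneg {x : Vec 3} (hx : NN x) : 0 ≤ phiT x :=
  div_nonneg (mul_nonneg (mul_nonneg (hx 0) (hx 1)) (hx 2)) (sq_nonneg _)

theorem good_phiT : Good phiT := by
  refine ⟨⟨9, fun x hx => ?_⟩, fun t x ht _ => ?_⟩
  · rw [abs_of_nonneg (up_phiT_nonneg hx), Fin.sum_univ_three]
    have h0 := hx 0
    have h1 := hx 1
    have h2 := hx 2
    unfold phiT
    apply div_le_of_le_mul₀ (sq_nonneg _) (by positivity)
    rw [up_sm3]
    have : x 0 * x 1 * x 2 ≤ (x 0 + x 1 + x 2) * (x 0 + x 1 + x 2) * (x 0 + x 1 + x 2) := by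
      gcongr <;> linarith
    nlinarith
  · unfold phiT
    rw [up_sm_smul]
    simp only [Pi.smul_apply, smul_eq_mul]
    rcases ht.eq_or_lt with rfl | ht
    · simp
    · by_cases hs : sm x = 0
      · simp [hs]
      · field_simp

theorem up_good_e2 : Good (fun x : Vec 3 => (x 0 * x 1 + x 0 * x 2 + x 1 * x 2) / sm x) := by
  refine ⟨⟨3, fun x hx => ?_⟩, fun t x ht _ => ?_⟩
  · have h0 := hx 0
    have h1 := hx 1
    have h2 := hx 2
    have h3 := up_sm_nonneg hx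
    rw [abs_of_nonneg (by positivity), Fin.sum_univ_three]
    apply div_le_of_le_mul₀ h3 (by positivity)
    rw [up_sm3]
    nlinarith [mul_nonneg h0 h1, mul_nonneg h0 h2, mul_nonneg h1 h2]
  · simp only [up_sm_smul, Pi.smul_apply, smul_eq_mul]
    rcases ht.eq_or_lt with rfl | ht
    · simp
    · by_cases hs : sm x = 0
      · simp [hs]
      · field_simp

theorem good_phiV : Good phiV := by
  have := (up_good_e2.const_mul (4 / 9)).sub (good_phiT.const_mul (1 / 3))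
  convert this using 1
  funext x
  unfold phiV phiT
  ring

theorem up_le_mx (x : Vec 3) (i : Fin 3) : x i ≤ mx x := by
  unfold mx
  fin_cases i <;> simp

theorem up_mn_le (x : Vec 3) (i : Fin 3) : mn x ≤ x i := by
  unfold mn
  fin_cases i <;> simp

theorem up_mx_perm (x : Vec 3) (σ : Equiv.Perm (Fin 3)) : mx (x ∘ σ) = mx x := by
  have h : ∀ (y : Vec 3) (τ : Equiv.Perm (Fin 3)), mx (y ∘ τ) ≤ mx y := fun y τ =>
    max_le (up_le_mx y _) (max_le (up_le_mx y _) (up_le_mx y _))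
  refine le_antisymm (h x σ) ?_
  have := h (x ∘ σ) σ.symm
  rwa [Function.comp_assoc, Equiv.self_comp_symm, Function.comp_id] at this

theorem up_mn_perm (x : Vec 3) (σ : Equiv.Perm (Fin 3)) : mn (x ∘ σ) = mn x := by
  have h : ∀ (y : Vec 3) (τ : Equiv.Perm (Fin 3)), mn y ≤ mn (y ∘ τ) := fun y τ =>
    le_min (up_mn_le y _) (le_min (up_mn_le y _) (up_mn_le y _))
  refine le_antisymm ?_ (h x σ)
  have := h (x ∘ σ) σ.symm
  rwa [Function.comp_assoc, Equiv.self_comp_symm, Function.comp_id] at this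

theorem up_md_eq (x : Vec 3) : md x = 3 * sm x - mx x - mn x := by
  rw [md, up_sm3]; ring

theorem up_md_perm (x : Vec 3) (σ : Equiv.Perm (Fin 3)) : md (x ∘ σ) = md x := by
  rw [up_md_eq, up_md_eq, up_mx_perm, up_mn_perm, up_sm_perm]

theorem Tail_perm (δ : ℕ → ℝ) (j : ℕ) (x : Vec 3) (σ : Equiv.Perm (Fin 3)) :
    Tail δ j (x ∘ σ) = Tail δ j x := by
  cases j <;>
    simp only [Tail, massP, massM, etaP, etaM, up_mx_perm, up_mn_perm, up_md_perm, up_sm_perm]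

theorem up_mn_le_sm (x : Vec 3) : mn x ≤ sm x := by
  rw [up_sm3]; linarith [up_mn_le x 0, up_mn_le x 1, up_mn_le x 2]

theorem up_sm_le_mx (x : Vec 3) : sm x ≤ mx x := by
  rw [up_sm3]; linarith [up_le_mx x 0, up_le_mx x 1, up_le_mx x 2]

theorem up_mn_nonneg {x : Vec 3} (hx : NN x) : 0 ≤ mn x :=
  le_min (hx 0) (le_min (hx 1) (hx 2))

theorem up_massP_nonneg {x : Vec 3} (hx : NN x) : 0 ≤ massP x := by
  have h1 := up_mn_le_sm x
  have h2 := up_sm_le_mx x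
  have h3 := up_mn_nonneg hx
  exact div_nonneg (mul_nonneg (pow_nonneg (by linarith) _) (by linarith))
    (mul_nonneg (sq_nonneg _) (by linarith))

theorem up_massM_nonneg {x : Vec 3} (hx : NN x) : 0 ≤ massM x := by
  have h1 := up_mn_le_sm x
  have h2 := up_sm_le_mx x
  have h3 := up_mn_nonneg hx
  exact div_nonneg (mul_nonneg (pow_nonneg (by linarith) _) h3)
    (mul_nonneg (sq_nonneg _) (by linarith))

theorem up_psi_nonneg (δ : ℕ → ℝ) (j : ℕ) (η : ℝ) : 0 ≤ psi δ j η := le_max_left _ _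

theorem up_psi_le_one (δ : ℕ → ℝ) (j : ℕ) (η : ℝ) : psi δ j η ≤ 1 :=
  max_le zero_le_one (min_le_left _ _)

theorem up_exists_sorted (x : Vec 3) :
    ∃ σ : Equiv.Perm (Fin 3), (x ∘ σ) 1 ≤ (x ∘ σ) 0 ∧ (x ∘ σ) 2 ≤ (x ∘ σ) 1 := by
  rcases le_total (x 0) (x 1) with h1 | h1 <;> rcases le_total (x 1) (x 2) with h2 | h2 <;>
    rcases le_total (x 0) (x 2) with h3 | h3
  · exact ⟨Equiv.swap 0 2, h2, h1⟩
  · exact ⟨Equiv.swap 0 2, h2, h1⟩
  · exact ⟨(Equiv.swap 1 2).trans (Equiv.swap 0 1), h2, h3⟩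
  · exact ⟨Equiv.swap 0 1, h1, h3⟩
  · exact ⟨(Equiv.swap 0 1).trans (Equiv.swap 1 2), h3, h1⟩
  · exact ⟨Equiv.swap 1 2, h3, h2⟩
  · exact ⟨1, h1, h2⟩
  · exact ⟨1, h1, h2⟩

theorem up_sorted {x : Vec 3} (h1 : x 1 ≤ x 0) (h2 : x 2 ≤ x 1) :
    mx x = x 0 ∧ mn x = x 2 ∧ md x = x 1 := by
  have a : mx x = x 0 := max_eq_left (max_le h1 (h2.trans h1))
  have b : mn x = x 2 := by
    unfold mn
    rw [min_eq_right h2, min_eq_right (h2.trans h1)]
  refine ⟨a, b, ?_⟩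
  rw [md, a, b]; ring

theorem up_phiT_perm (x : Vec 3) (σ : Equiv.Perm (Fin 3)) : phiT (x ∘ σ) = phiT x := by
  have h : ∀ y : Vec 3, phiT y = (∏ i, y i) / sm y ^ 2 := fun y => by
    rw [phiT, Fin.prod_univ_three]
  rw [h, h, up_sm_perm]
  congr 1
  exact Equiv.prod_comp σ x

theorem up_phiV_perm (x : Vec 3) (σ : Equiv.Perm (Fin 3)) : phiV (x ∘ σ) = phiV x := by
  have h : ∀ y : Vec 3, phiV y = 4 / 9 * (((3 * sm y) ^ 2 - ∑ i, y i ^ 2) / 2) / sm y
      - phiT y / 3 := fun y => by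
    rw [phiV, phiT, Fin.sum_univ_three]
    congr 1
    · congr 2
      rw [up_sm3]; ring
    · ring
  rw [h, h, up_sm_perm, up_phiT_perm]
  congr 5
  exact Equiv.sum_comp σ (fun i => x i ^ 2)

/-- the three cases of a sorted nonnegative vector -/
theorem up_cases {x : Vec 3} (hx : NN x) (h1 : x 1 ≤ x 0) (h2 : x 2 ≤ x 1) :
    (x = sm x • (1 : Vec 3) ∧ x 0 = x 2) ∨ (0 < sm x ∧ x 2 < sm x ∧ sm x < x 0) := by
  have h3 := hx 2
  rcases (h2.trans h1).eq_or_lt with h | h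
  · left
    refine ⟨?_, h.symm⟩
    funext i
    rw [up_sm3]
    fin_cases i <;> simp <;> linarith
  · right
    rw [up_sm3]
    refine ⟨by linarith, by linarith, by linarith⟩

theorem up_mass_sum {x : Vec 3} (hx : NN x) : massP x + massM x = sm x - phiT x := by
  obtain ⟨σ, h1, h2⟩ := up_exists_sorted x
  rw [← Tail_zero δ5, ← Tail_perm δ5 0 x σ, ← up_sm_perm x σ, ← up_phiT_perm x σ, Tail_zero]
  have hy := up_NN_perm hx σ
  generalize x ∘ σ = y at *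
  obtain ⟨a, b, c⟩ := up_sorted h1 h2
  unfold massP massM phiT
  rw [a, b]
  rcases up_cases hy h1 h2 with ⟨-, h⟩ | ⟨h3, h4, h5⟩
  · have h6 : y 1 = y 2 := le_antisymm (h ▸ h1) h2
    have h7 : sm y = y 2 := by rw [up_sm3, h, h6]; ring
    rw [h7, h, h6]
    by_cases h8 : y 2 = 0
    · simp [h8]
    · field_simp
      simp
  · have h6 : y 0 - y 2 ≠ 0 := by linarith
    have h7 : y 1 = 3 * sm y - y 0 - y 2 := by rw [up_sm3]; ring
    rw [h7]
    field_simp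
    ring

theorem up_mass_le {x : Vec 3} (hx : NN x) : massP x + massM x ≤ sm x := by
  rw [up_mass_sum hx]; linarith [up_phiT_nonneg hx]

theorem up_mx_smul {t : ℝ} (ht : 0 ≤ t) (x : Vec 3) : mx (t • x) = t * mx x := by
  simp only [mx, Pi.smul_apply, smul_eq_mul, mul_max_of_nonneg _ _ ht]

theorem up_mn_smul {t : ℝ} (ht : 0 ≤ t) (x : Vec 3) : mn (t • x) = t * mn x := by
  simp only [mn, Pi.smul_apply, smul_eq_mul, mul_min_of_nonneg _ _ ht]

theorem up_md_smul {t : ℝ} (ht : 0 ≤ t) (x : Vec 3) : md (t • x) = t * md x := by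
  rw [up_md_eq, up_md_eq, up_mx_smul ht, up_mn_smul ht, up_sm_smul]; ring

theorem up_div_hom {t : ℝ} (ht : 0 ≤ t) (a b : ℝ) : t ^ 4 * a / (t ^ 3 * b) = t * (a / b) := by
  rcases ht.eq_or_lt with rfl | ht
  · simp
  · by_cases hb : b = 0
    · simp [hb]
    · field_simp

theorem up_massP_smul {t : ℝ} (ht : 0 ≤ t) (x : Vec 3) : massP (t • x) = t * massP x := by
  unfold massP
  rw [up_mx_smul ht, up_mn_smul ht, up_sm_smul, ← up_div_hom ht]
  congr 1 <;> ring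

theorem up_massM_smul {t : ℝ} (ht : 0 ≤ t) (x : Vec 3) : massM (t • x) = t * massM x := by
  unfold massM
  rw [up_mx_smul ht, up_mn_smul ht, up_sm_smul, ← up_div_hom ht]
  congr 1 <;> ring

theorem up_etaP_smul {t : ℝ} (ht : 0 < t) (x : Vec 3) : etaP (t • x) = etaP x := by
  unfold etaP
  rw [up_mx_smul ht.le, up_mn_smul ht.le, up_md_smul ht.le, up_sm_smul,
    ← mul_div_mul_left (mx x - md x) _ ht.ne']
  congr 2 <;> ring

theorem up_etaM_smul {t : ℝ} (ht : 0 < t) (x : Vec 3) : etaM (t • x) = etaM x := by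
  unfold etaM
  rw [up_mx_smul ht.le, up_mn_smul ht.le, up_md_smul ht.le, up_sm_smul,
    ← mul_div_mul_left (md x - mn x) _ ht.ne']
  congr 2 <;> ring

theorem up_Tail_nonneg (δ : ℕ → ℝ) (j : ℕ) {x : Vec 3} (hx : NN x) : 0 ≤ Tail δ j x := by
  cases j with
  | zero => exact add_nonneg (up_massP_nonneg hx) (up_massM_nonneg hx)
  | succ j =>
    exact add_nonneg (mul_nonneg (up_massP_nonneg hx) (up_psi_nonneg _ _ _))
      (mul_nonneg (up_massM_nonneg hx) (up_psi_nonneg _ _ _))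

theorem up_Tail_le_zero (δ : ℕ → ℝ) (j : ℕ) {x : Vec 3} (hx : NN x) : Tail δ j x ≤ Tail δ 0 x := by
  cases j with
  | zero => exact le_rfl
  | succ j =>
    exact add_le_add (mul_le_of_le_one_right (up_massP_nonneg hx) (up_psi_le_one _ _ _))
      (mul_le_of_le_one_right (up_massM_nonneg hx) (up_psi_le_one _ _ _))

theorem good_Tail (δ : ℕ → ℝ) (j : ℕ) : Good (Tail δ j) := by
  refine ⟨⟨1 / 3, fun x hx => ?_⟩, fun t x ht _ => ?_⟩
  · rw [abs_of_nonneg (up_Tail_nonneg δ j hx), Fin.sum_univ_three]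
    have h1 := up_Tail_le_zero δ j hx
    have h2 := up_mass_le hx
    rw [Tail_zero] at h1
    rw [up_sm3] at h2
    linarith
  · cases j with
    | zero => rw [Tail_zero, Tail_zero, up_massP_smul ht, up_massM_smul ht]; ring
    | succ j =>
      rw [Tail_succ, Tail_succ, up_massP_smul ht, up_massM_smul ht]
      rcases ht.eq_or_lt with rfl | ht
      · simp
      · rw [up_etaP_smul ht, up_etaM_smul ht]; ring

theorem DomEC.of_ln {P : Ex.{u} 3} {Q : Ex.{v} 3} (h : Ln P Q) {T v : ℝ} (hQ : DomEC Q T v) :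
    DomEC P T v := fun a b c => (h a b c).trans (hQ a b c)

theorem DomN.of_ln {P : Ex.{u} 3} {Q : Ex.{v} 3} (h : Ln P Q) {m : ℕ} {δ t : ℕ → ℝ}
    (hQ : DomN Q m δ t) : DomN P m δ t := fun a b c => (h a b c).trans (hQ a b c)

theorem up_edge_zero : edgev 0 = Evec := by
  funext i; fin_cases i <;> simp [edgev, Evec]

theorem up_edge_one : edgev 1 = Vvec := by
  funext i; fin_cases i <;> simp [edgev, Vvec]
  norm_num

theorem DomEC.mono {P : Ex.{u} 3} {T v T' v' : ℝ} (h : DomEC P T v) (hT : T ≤ T')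
    (hv : v ≤ v') : DomEC P T' v' := by
  intro a b ht
  have h1 := null_le_edge ht le_rfl zero_le_one
  have h2 := edge_mono ht le_rfl zero_le_one le_rfl
  rw [up_edge_zero] at h1 h2
  rw [up_edge_one] at h2
  refine (h a b ht).trans ?_
  nlinarith [mul_nonneg (sub_nonneg.2 hT) (sub_nonneg.2 h1),
    mul_nonneg (sub_nonneg.2 hv) (sub_nonneg.2 h2)]

theorem up_Ft3 (h ν x : Vec 3) : Ft h ν x =
    (h 0 * x 0 + h 1 * x 1 + h 2 * x 2) ^ 2 / (ν 0 * x 0 + ν 1 * x 1 + ν 2 * x 2) := by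
  simp only [Ft, Fin.sum_univ_three]

theorem DomEC.x_le {P : Ex.{u} 3} {T v : ℝ} (h : DomEC P T v) : P.x ≤ (3 * v + T) / 2 := by
  have t0 : Test ![1, 0, 0] (1 : Vec 3) := fun i => by fin_cases i <;> simp
  have t1 : Test ![0, 1, 0] (1 : Vec 3) := fun i => by fin_cases i <;> simp
  have t2 : Test ![0, 0, 1] (1 : Vec 3) := fun i => by fin_cases i <;> simp
  have h0 := h _ _ t0
  have h1 := h _ _ t1
  have h2 := h _ _ t2
  have hx : P.x = P.E (fun x => (Ft ![1, 0, 0] 1 x + Ft ![0, 1, 0] 1 x + Ft ![0, 0, 1] 1 x)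
      - sm x) := by
    refine P.E_congr fun x _ => ?_
    simp only [up_Ft3, Xh, cm, Fin.sum_univ_three, up_sm3]
    simp
    by_cases hs : x 0 + x 1 + x 2 = 0
    · simp [hs]
    · field_simp
      ring
  rw [hx, P.E_sub (((good_Ft t0).add (good_Ft t1)).add (good_Ft t2)).1 good_sm.1,
    P.E_add ((good_Ft t0).add (good_Ft t1)).1 (good_Ft t2).1,
    P.E_add (good_Ft t0).1 (good_Ft t1).1, P.E_sm (by norm_num)]
  simp only [symv_three] at h0 h1 h2
  simp only [up_Ft3 _ _ (1 : Vec 3), up_Ft3 _ _ ![_, _, _]] at h0 h1 h2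
  simp [Evec, Vvec] at h0 h1 h2
  norm_num at h0 h1 h2
  linarith

theorem up_E_full {F : Vec 3 → ℝ} (hF : Good F) : (full 3).E F = symv F Vvec := by
  rw [E_full hF, symv_three, Fin.sum_univ_three]
  have a0 : vtx (0 : Fin 3) = ![3, 0, 0] := by funext i; fin_cases i <;> simp [vtx]
  have a1 : vtx (1 : Fin 3) = ![0, 3, 0] := by funext i; fin_cases i <;> simp [vtx]
  have a2 : vtx (2 : Fin 3) = ![0, 0, 3] := by funext i; fin_cases i <;> simp [vtx]
  rw [a0, a1, a2]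
  simp [Vvec]
  ring

theorem domEC_full : DomEC (full 3) 1 1 := by
  intro h ν ht
  rw [up_E_full (good_Ft ht)]
  simp

theorem domN_full {m : ℕ} {δ : ℕ → ℝ} (hδ : Nodes m δ) : DomN (full 3) m δ (fun _ => 1) := by
  intro h ν ht
  rw [up_E_full (good_Ft ht)]
  simp only [one_mul]
  rw [Finset.sum_range_sub (fun j => symv (Ft h ν) (edgev (δ j))), hδ.2.1, up_edge_one]
  linarith

theorem Nodes.up_mono {m : ℕ} {δ : ℕ → ℝ} (hδ : Nodes m δ) {i j : ℕ} (hij : i ≤ j) (hj : j ≤ m) :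
    δ i ≤ δ j := by
  induction j, hij using Nat.le_induction with
  | base => exact le_rfl
  | succ k _ ih => exact (ih (by omega)).trans (hδ.2.2 k (by omega)).le

theorem Nodes.up_nonneg {m : ℕ} {δ : ℕ → ℝ} (hδ : Nodes m δ) {j : ℕ} (hj : j ≤ m) : 0 ≤ δ j :=
  hδ.1 ▸ hδ.up_mono (Nat.zero_le j) hj

theorem Nodes.up_le_one {m : ℕ} {δ : ℕ → ℝ} (hδ : Nodes m δ) {j : ℕ} (hj : j ≤ m) : δ j ≤ 1 :=
  hδ.2.1 ▸ hδ.up_mono hj le_rfl

theorem Nodes.up_sq_lt {m : ℕ} {δ : ℕ → ℝ} (hδ : Nodes m δ) {j : ℕ} (hj : j < m) :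
    δ j ^ 2 < δ (j + 1) ^ 2 :=
  pow_lt_pow_left₀ (hδ.2.2 j hj) (hδ.up_nonneg hj.le) two_ne_zero

theorem Nodes.up_psi_one {m : ℕ} {δ : ℕ → ℝ} (hδ : Nodes m δ) {j : ℕ} (hj : j < m) {η : ℝ}
    (h : δ (j + 1) ^ 2 ≤ η) : psi δ j η = 1 := by
  have h1 := hδ.up_sq_lt hj
  unfold psi
  rw [min_eq_left, max_eq_right zero_le_one]
  rw [le_div_iff₀ (by linarith)]
  linarith

theorem Nodes.up_psi_zero {m : ℕ} {δ : ℕ → ℝ} (hδ : Nodes m δ) {j : ℕ} (hj : j < m) {η : ℝ}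
    (h : η ≤ δ j ^ 2) : psi δ j η = 0 := by
  have h1 := hδ.up_sq_lt hj
  unfold psi
  exact max_eq_left ((min_le_right _ _).trans
    (div_nonpos_of_nonpos_of_nonneg (by linarith) (by linarith)))

theorem Nodes.up_psi_mid {m : ℕ} {δ : ℕ → ℝ} (hδ : Nodes m δ) {j : ℕ} (hj : j < m) {η : ℝ}
    (h : δ j ^ 2 ≤ η) (h' : η ≤ δ (j + 1) ^ 2) :
    η = (1 - psi δ j η) * δ j ^ 2 + psi δ j η * δ (j + 1) ^ 2 := by
  have h1 := hδ.up_sq_lt hj
  have h2 : 0 < δ (j + 1) ^ 2 - δ j ^ 2 := by linarith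
  unfold psi
  rw [min_eq_right (by rw [div_le_one h2]; linarith),
    max_eq_right (div_nonneg (by linarith) h2.le)]
  field_simp
  ring

theorem Nodes.up_psi_anti {m : ℕ} {δ : ℕ → ℝ} (hδ : Nodes m δ) {j : ℕ} (hj : j + 1 < m) (η : ℝ) :
    psi δ (j + 1) η ≤ psi δ j η := by
  rcases le_total η (δ (j + 1) ^ 2) with h | h
  · rw [hδ.up_psi_zero hj h]; exact up_psi_nonneg _ _ _
  · rw [hδ.up_psi_one (by omega) h]; exact up_psi_le_one _ _ _

theorem Nodes.up_Tail_anti {m : ℕ} {δ : ℕ → ℝ} (hδ : Nodes m δ) {j : ℕ} (hj : j < m) {x : Vec 3}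
    (hx : NN x) : Tail δ (j + 1) x ≤ Tail δ j x := by
  cases j with
  | zero => exact up_Tail_le_zero δ _ hx
  | succ j =>
    exact add_le_add (mul_le_mul_of_nonneg_left (hδ.up_psi_anti hj _) (up_massP_nonneg hx))
      (mul_le_mul_of_nonneg_left (hδ.up_psi_anti hj _) (up_massM_nonneg hx))

theorem up_edge_nodes {h ν : Vec 3} (ht : Test h ν) {m : ℕ} {δ : ℕ → ℝ} (hδ : Nodes m δ) {d : ℝ}
    (h0 : 0 ≤ d) (h1 : d ≤ 1) :
    symv (Ft h ν) (edgev d) ≤ symv (Ft h ν) (edgev (δ 0)) + ∑ j ∈ Finset.range m,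
      psi δ j (d ^ 2) * (symv (Ft h ν) (edgev (δ (j + 1))) - symv (Ft h ν) (edgev (δ j))) := by
  have key : ∀ n, n ≤ m → d ≤ δ n →
      symv (Ft h ν) (edgev d) ≤ symv (Ft h ν) (edgev (δ 0)) + ∑ j ∈ Finset.range n,
      psi δ j (d ^ 2) * (symv (Ft h ν) (edgev (δ (j + 1))) - symv (Ft h ν) (edgev (δ j))) := by
    intro n
    induction n with
    | zero =>
      intro _ hd
      rw [le_antisymm hd (hδ.1 ▸ h0)]
      simp
    | succ n ih =>
      intro hn hd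
      rw [Finset.sum_range_succ]
      rcases le_total d (δ n) with hd' | hd'
      · rw [hδ.up_psi_zero hn (pow_le_pow_left₀ h0 hd' 2), zero_mul, add_zero]
        exact ih (by omega) hd'
      · have e : ∑ j ∈ Finset.range n, psi δ j (d ^ 2) *
            (symv (Ft h ν) (edgev (δ (j + 1))) - symv (Ft h ν) (edgev (δ j)))
            = symv (Ft h ν) (edgev (δ n)) - symv (Ft h ν) (edgev (δ 0)) := by
          rw [← Finset.sum_range_sub (fun j => symv (Ft h ν) (edgev (δ j)))]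
          refine Finset.sum_congr rfl fun j hj => ?_
          have hj' := Finset.mem_range.mp hj
          rw [hδ.up_psi_one (by omega) (pow_le_pow_left₀ (hδ.up_nonneg (by omega))
            ((hδ.up_mono hj' (by omega)).trans hd') 2), one_mul]
        have hc := edge_convex ht h0 h1 (hδ.up_nonneg (by omega : n ≤ m))
          (hδ.up_le_one (by omega)) (hδ.up_nonneg hn) (hδ.up_le_one hn)
          (up_psi_nonneg δ n (d ^ 2)) (up_psi_le_one δ n (d ^ 2))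
          (hδ.up_psi_mid hn (pow_le_pow_left₀ (hδ.up_nonneg (by omega)) hd' 2)
            (pow_le_pow_left₀ h0 hd 2))
        rw [e]
        linarith
  exact key m le_rfl (hδ.2.1 ▸ h1)

/-- the two edge points on the ray through a sorted non-constant vector -/
theorem up_two_points {h ν : Vec 3} (ht : Test h ν) {x : Vec 3} (hx : NN x) (h1 : x 1 ≤ x 0)
    (h2 : x 2 ≤ x 1) (hs : 0 < sm x) (hu : x 2 < sm x) (hw : sm x < x 0) :
    symv (Ft h ν) x ≤ (sm x - massP x - massM x) * Ft h ν 1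
      + massP x * symv (Ft h ν) (edgev ((x 0 - x 1) / (3 * (sm x - x 2))))
      + massM x * symv (Ft h ν) (edgev ((x 1 - x 2) / (3 * (x 0 - sm x)))) := by
  obtain ⟨a, b, c⟩ := up_sorted h1 h2
  have hP := up_massP_nonneg hx
  have hM := up_massM_nonneg hx
  have e1 : x 1 = 3 * sm x - x 0 - x 2 := by rw [up_sm3]; ring
  have hu' : 0 < sm x - x 2 := by linarith
  have hw' : 0 < x 0 - sm x := by linarith
  have huw : 0 < x 0 - x 2 := by linarith
  set s := sm x with hsdef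
  set bb : Vec 3 := s⁻¹ • x - 1 with hb
  have hb0 : ∑ i, bb i = 0 := by
    simp only [hb, Fin.sum_univ_three, Pi.sub_apply, Pi.smul_apply, smul_eq_mul, Pi.one_apply, e1]
    field_simp
    ring
  have p0 : 1 + (1 : ℝ) • bb = s⁻¹ • x := by simp [hb]
  have p1 : 1 + (s / (s - x 2)) • bb = edgev ((x 0 - x 1) / (3 * (s - x 2))) := by
    funext i
    fin_cases i <;> simp [hb, edgev, e1] <;> field_simp <;> ring
  have p2 : 1 + (-(s / (x 0 - s))) • bb
      = edgev ((x 1 - x 2) / (3 * (x 0 - s))) ∘ Equiv.swap 0 2 := by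
    rw [up_comp3]
    funext i
    fin_cases i <;> simp [hb, edgev, e1, Equiv.swap_apply_def] <;> field_simp <;> ring
  have n0 : NN (s⁻¹ • x) := fun i => mul_nonneg (inv_nonneg.2 hs.le) (hx i)
  have n1 : NN (edgev ((x 0 - x 1) / (3 * (s - x 2)))) :=
    up_NN_edge (div_nonneg (by linarith) (by linarith))
      (by rw [div_le_one (by linarith)]; linarith)
  have n2 : NN (edgev ((x 1 - x 2) / (3 * (x 0 - s)))) :=
    up_NN_edge (div_nonneg (by linarith) (by linarith))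
      (by rw [div_le_one (by linarith)]; linarith)
  have hr := ray_lemma ht hb0 (τ := 1) (τ₁ := s / (s - x 2)) (τ₂ := -(s / (x 0 - s)))
    (γ₁ := massP x / s) (γ₂ := massM x / s) (div_nonneg hP hs.le) (div_nonneg hM hs.le)
    (by unfold massP massM; rw [a, b, ← hsdef]; field_simp; ring)
    (by unfold massP massM; rw [a, b, ← hsdef]; field_simp; ring)
    (p0 ▸ n0) (p1 ▸ n1) (p2 ▸ up_NN_perm n2 _)
  rw [p0, p1, p2, symv_perm, (good_Ft ht).symv.2 _ _ (inv_nonneg.2 hs.le) hx] at hr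
  have := mul_le_mul_of_nonneg_left hr hs.le
  rw [← mul_assoc, mul_inv_cancel₀ hs.ne', one_mul] at this
  refine this.trans (le_of_eq ?_)
  field_simp

theorem up_pointwise {h ν : Vec 3} (ht : Test h ν) {m : ℕ} {δ : ℕ → ℝ} (hδ : Nodes m δ)
    {x : Vec 3} (hx : NN x) :
    symv (Ft h ν) x ≤ Ft h ν 1 * sm x + (symv (Ft h ν) (edgev (δ 0)) - Ft h ν 1) * Tail δ 0 x
      + ∑ j ∈ Finset.range m, (symv (Ft h ν) (edgev (δ (j + 1))) - symv (Ft h ν) (edgev (δ j)))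
        * Tail δ (j + 1) x := by
  obtain ⟨σ, h1, h2⟩ := up_exists_sorted x
  simp only [← Tail_perm δ _ x σ]
  rw [← symv_perm _ x σ, ← up_sm_perm x σ]
  have hy := up_NN_perm hx σ
  generalize x ∘ σ = y at *
  obtain ⟨a, b, c⟩ := up_sorted h1 h2
  rcases up_cases hy h1 h2 with ⟨e, e'⟩ | ⟨hs, hu, hw⟩
  · have hP : massP y = 0 := by unfold massP; rw [a, b, e']; simp
    have hM : massM y = 0 := by unfold massM; rw [a, b, e']; simp
    simp only [Tail, hP, hM, zero_mul, add_zero, mul_zero, Finset.sum_const_zero]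
    conv_lhs => rw [e]
    rw [(good_Ft ht).symv.2 _ _ (up_sm_nonneg hy) up_NN_one, up_symv_one, mul_comm]
  · have e1 : y 1 = 3 * sm y - y 0 - y 2 := by rw [up_sm3]; ring
    have k0 := up_two_points ht hy h1 h2 hs hu hw
    have k1 := up_edge_nodes ht hδ (d := (y 0 - y 1) / (3 * (sm y - y 2)))
      (div_nonneg (by linarith) (by linarith)) (by rw [div_le_one (by linarith)]; linarith)
    have k2 := up_edge_nodes ht hδ (d := (y 1 - y 2) / (3 * (y 0 - sm y)))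
      (div_nonneg (by linarith) (by linarith)) (by rw [div_le_one (by linarith)]; linarith)
    have k1' := mul_le_mul_of_nonneg_left k1 (up_massP_nonneg hy)
    have k2' := mul_le_mul_of_nonneg_left k2 (up_massM_nonneg hy)
    have k3 : ∑ j ∈ Finset.range m,
        (symv (Ft h ν) (edgev (δ (j + 1))) - symv (Ft h ν) (edgev (δ j))) * Tail δ (j + 1) y
        = massP y * ∑ j ∈ Finset.range m, psi δ j (((y 0 - y 1) / (3 * (sm y - y 2))) ^ 2) *
            (symv (Ft h ν) (edgev (δ (j + 1))) - symv (Ft h ν) (edgev (δ j)))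
          + massM y * ∑ j ∈ Finset.range m, psi δ j (((y 1 - y 2) / (3 * (y 0 - sm y))) ^ 2) *
            (symv (Ft h ν) (edgev (δ (j + 1))) - symv (Ft h ν) (edgev (δ j))) := by
      rw [Finset.mul_sum, Finset.mul_sum, ← Finset.sum_add_distrib]
      refine Finset.sum_congr rfl fun j _ => ?_
      rw [Tail_succ, etaP, etaM, a, b, c]
      ring
    rw [k3, Tail_zero]
    nlinarith [k0, k1', k2']

/-- upgrade to the edge nodes -/
theorem upgrade_nodes {J : Ex.{u} 3} (hJ : Sym J) {m : ℕ} {δ t : ℕ → ℝ} (hδ : Nodes m δ)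
    (h0 : J.E (Tail δ 0) ≤ t 0 ∨ 1 ≤ t 0)
    (hs : ∀ j, j < m → J.E (Tail δ (j + 1)) ≤ t (j + 1) ∨ t j ≤ t (j + 1)) :
    DomN J m δ t := by
  have hT : ∀ j, j ≤ m → J.E (Tail δ j) ≤ t j := by
    intro j
    induction j with
    | zero =>
      intro _
      refine h0.elim id fun h => le_trans ?_ h
      rw [← J.E_sm (by norm_num)]
      exact J.E_mono (good_Tail δ 0).1 good_sm.1 fun x hx => up_mass_le hx
    | succ j ih =>
      intro hj
      refine (hs j hj).elim id fun h => le_trans ?_ ((ih (by omega)).trans h)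
      exact J.E_mono (good_Tail δ _).1 (good_Tail δ _).1 fun x hx => hδ.up_Tail_anti hj hx
  intro h ν ht
  have g1 := good_sm (q := 3).const_mul (Ft h ν 1)
  have g2 := (good_Tail δ 0).const_mul (symv (Ft h ν) (edgev (δ 0)) - Ft h ν 1)
  have g3 : ∀ j ∈ Finset.range m, Good fun x => (symv (Ft h ν) (edgev (δ (j + 1)))
      - symv (Ft h ν) (edgev (δ j))) * Tail δ (j + 1) x := fun j _ => (good_Tail δ _).const_mul _
  have k := J.E_mono (good_Ft ht).symv.1 ((g1.add g2).add (Good.sum _ g3)).1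
    fun x hx => up_pointwise ht hδ hx
  rw [hJ.E_symv (good_Ft ht), J.E_add (g1.add g2).1 (Good.sum _ g3).1, J.E_add g1.1 g2.1,
    J.E_sum _ fun j hj => (g3 j hj).1] at k
  simp only [J.E_const_mul, J.E_sm (by norm_num : 0 < 3), mul_one] at k
  refine k.trans (add_le_add (add_le_add le_rfl ?_) (Finset.sum_le_sum fun j hj => ?_))
  · rw [mul_comm]
    exact mul_le_mul_of_nonneg_right (hT 0 (Nat.zero_le _)) (sub_nonneg.2
      (null_le_edge ht (hδ.up_nonneg (Nat.zero_le _)) (hδ.up_le_one (Nat.zero_le _))))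
  · have hj' := Finset.mem_range.mp hj
    rw [mul_comm]
    exact mul_le_mul_of_nonneg_right (hT _ hj') (sub_nonneg.2
      (edge_mono ht (hδ.up_nonneg hj'.le) (hδ.2.2 j hj').le (hδ.up_le_one hj')))

theorem up_nodes5 : Nodes 1 δ5 := by
  refine ⟨by simp [δ5], by simp [δ5], fun j hj => ?_⟩
  have : j = 0 := by omega
  subst this
  simp [δ5]

theorem up_psi5 {η : ℝ} (h0 : 0 ≤ η) (h1 : η ≤ 1) : psi δ5 0 η = η := by
  simp [psi, δ5, h0, h1]

theorem up_Tail5 {x : Vec 3} (hx : NN x) : Tail δ5 1 x = sm x - phiV x := by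
  obtain ⟨σ, h1, h2⟩ := up_exists_sorted x
  rw [← Tail_perm δ5 1 x σ, ← up_sm_perm x σ, ← up_phiV_perm x σ, Tail_succ]
  have hy := up_NN_perm hx σ
  generalize x ∘ σ = y at *
  obtain ⟨a, b, c⟩ := up_sorted h1 h2
  rcases up_cases hy h1 h2 with ⟨-, h⟩ | ⟨h3, h4, h5⟩
  · have h6 : y 1 = y 2 := le_antisymm (h ▸ h1) h2
    have h7 : sm y = y 2 := by rw [up_sm3, h, h6]; ring
    unfold massP massM phiV
    rw [a, b, h7, h, h6]
    by_cases h8 : y 2 = 0
    · simp [h8]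
    · field_simp
      ring
  · have h7 : y 1 = 3 * sm y - y 0 - y 2 := by rw [up_sm3]; ring
    have k1 : etaP y ≤ 1 := by
      rw [etaP, a, b, c]
      exact pow_le_one₀ (div_nonneg (by linarith) (by linarith))
        (by rw [div_le_one (by linarith)]; linarith)
    have k2 : etaM y ≤ 1 := by
      rw [etaM, a, b, c]
      exact pow_le_one₀ (div_nonneg (by linarith) (by linarith))
        (by rw [div_le_one (by linarith)]; linarith)
    rw [up_psi5 (η := etaP y) (sq_nonneg _) k1, up_psi5 (η := etaM y) (sq_nonneg _) k2]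
    unfold massP massM phiV etaP etaM
    rw [a, b, c, h7]
    have h6 : y 0 - y 2 ≠ 0 := by linarith
    have h8 : sm y - y 2 ≠ 0 := by linarith
    have h9 : y 0 - sm y ≠ 0 := by linarith
    field_simp
    ring

/-- upgrade to the erasure mixture -/
theorem upgrade_EC {J : Ex.{u} 3} (hJ : Sym J) {T v : ℝ}
    (hT : 1 - J.E phiT ≤ T ∨ 1 ≤ T) (hv : 1 - J.E phiV ≤ v ∨ T ≤ v) : DomEC J T v := by
  have e0 : J.E (Tail δ5 0) = 1 - J.E phiT := by
    rw [← J.E_sm (by norm_num), ← J.E_sub good_sm.1 good_phiT.1]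
    exact J.E_congr fun x hx => up_mass_sum hx
  have e1 : J.E (Tail δ5 1) = 1 - J.E phiV := by
    rw [← J.E_sm (by norm_num), ← J.E_sub good_sm.1 good_phiV.1]
    exact J.E_congr fun x hx => up_Tail5 hx
  have k := upgrade_nodes hJ (t := fun j => if j = 0 then T else v) up_nodes5
    (by rw [e0]; simpa using hT)
    (fun j hj => by
      have : j = 0 := by omega
      subst this
      rw [e1]; simpa using hv)
  intro h ν ht
  have := k h ν ht
  simp only [Finset.sum_range_one, δ5, if_true, zero_add, one_ne_zero, if_false, up_edge_zero,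
    up_edge_one] at this
  linarith

theorem DomN.domEC {P : Ex.{u} 3} {m : ℕ} {δ t : ℕ → ℝ} (hδ : Nodes m δ) (ht : Tails m t)
    (h : DomN P m δ t) : DomEC P (t 0) (vOfTails m δ t) := by
  intro a b hab
  refine (h a b hab).trans ?_
  set S : ℕ → ℝ := fun j => symv (Ft a b) (edgev (δ j)) with hS
  set E := symv (Ft a b) Evec with hE
  set V := symv (Ft a b) Vvec with hV
  have hD : ∀ j, j ≤ m → S j - E - δ j ^ 2 * (V - E) ≤ 0 := by
    intro j hj
    have := edge_convex hab (θ := δ j ^ 2) (hδ.up_nonneg hj) (hδ.up_le_one hj) le_rfl zero_le_one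
      zero_le_one le_rfl (sq_nonneg _) (pow_le_one₀ (hδ.up_nonneg hj) (hδ.up_le_one hj)) (by ring)
    rw [up_edge_zero, up_edge_one] at this
    simp only [hS]
    linarith
  have hS0 : S 0 = E := by simp only [hS, hδ.1, up_edge_zero, hE]
  have key : ∀ n, n ≤ m → ∑ j ∈ Finset.range n, t (j + 1) * (S (j + 1) - S j)
      - (∑ j ∈ Finset.range n, t (j + 1) * (δ (j + 1) ^ 2 - δ j ^ 2)) * (V - E)
      ≤ t n * (S n - E - δ n ^ 2 * (V - E)) := by
    intro n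
    induction n with
    | zero => intro _; simp [hS0, hδ.1]
    | succ n ih =>
      intro hn
      rw [Finset.sum_range_succ, Finset.sum_range_succ]
      have h1 := ih (by omega)
      have h2 := mul_nonneg (sub_nonneg.2 (ht.2.1 n hn)) (neg_nonneg.2 (hD n (by omega)))
      nlinarith [h1, h2]
  have k1 := key m le_rfl
  have k2 := mul_nonneg ht.2.2 (neg_nonneg.2 (hD m le_rfl))
  change Ft a b 1 + t 0 * (S 0 - Ft a b 1) + ∑ j ∈ Finset.range m, t (j + 1) * (S (j + 1) - S j)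
    ≤ _
  rw [hS0]
  unfold vOfTails
  nlinarith [k1, k2]

theorem mixOK_EG {a b : ℝ} (ha : 0 ≤ a) (hb : 0 ≤ b) (hab : a + b ≤ 1) :
    MixOK (wEG a b) aEG := by
  refine ⟨by norm_num, fun i => ?_, fun i j => ?_, ?_⟩
  · fin_cases i <;> simp [wEG, ha, hb]
    linarith
  · fin_cases i <;> fin_cases j <;> simp [aEG, Evec, Gvec] <;> norm_num
  · simp [Fin.sum_univ_three, wEG, aEG, up_sm3, Evec, Gvec]
    ring

theorem muE_nonneg {l T v : ℝ} (hl0 : 0 ≤ l) (hl : l ≤ 1 / 2) (h0 : 0 ≤ v) (h1 : v ≤ T) :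
    0 ≤ muE l T v := by
  have : 0 ≤ 1 - 2 * l := by linarith
  have : 0 ≤ T - v := by linarith
  unfold muE; positivity

theorem muG_nonneg {l T v : ℝ} (hl0 : 0 ≤ l) (hl : l ≤ 1 / 2) (h0 : 0 ≤ v) (h1 : v ≤ T) :
    0 ≤ muG l T v := by
  have : 0 ≤ 1 - 2 * l := by linarith
  have : 0 ≤ T - v := by linarith
  unfold muG; positivity

theorem mu_sum_le {l T v : ℝ} (hl0 : 0 ≤ l) (hl : l ≤ 1 / 2) (h0 : 0 ≤ v) (h1 : v ≤ T)
    (h2 : T ≤ 1) : l ^ 2 * muE l T v + l ^ 2 * muG l T v ≤ 1 := by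
  have a : 0 ≤ (1 + 4 * l) * (1 - 2 * l) ^ 2 := by positivity
  have b : 0 ≤ (1 - 2 * l) * (1 + l) ^ 2 := mul_nonneg (by linarith) (sq_nonneg _)
  have c1 := mul_nonneg a h0
  have c2 := mul_nonneg b (sub_nonneg.2 h1)
  unfold muE muG
  nlinarith [c1, c2]

theorem up_ln_chan {q : ℕ} (P : Ex.{u} q) {lam lam' : ℝ} (hlam : lam' ≤ lam) (hlam0 : lam ≤ 0)
    (hc : ChanOK q lam) (hc' : ChanOK q lam') : Ln (P.chan lam hc) (P.chan lam' hc') := by
  rcases (hlam.trans hlam0).eq_or_lt with h | h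
  · have : lam = lam' := le_antisymm (h ▸ hlam0) hlam
    subst this
    exact Ln.refl _
  · obtain ⟨mu, h0, h1, rfl⟩ : ∃ mu, 0 ≤ mu ∧ mu ≤ 1 ∧ lam = lam' * mu :=
      ⟨lam / lam', div_nonneg_of_nonpos hlam0 h.le, (div_le_one_of_neg h).2 hlam,
        by field_simp [h.ne]⟩
    exact ln_chan_mul P hc' h0 h1 hc

theorem up_Kv_perm {q : ℕ} (lam : ℝ) (x : Vec q) (σ : Equiv.Perm (Fin q)) :
    Kv lam (x ∘ σ) = Kv lam x ∘ σ := by
  funext i
  rw [Function.comp_apply, Kv_apply, Kv_apply, up_sm_perm, Function.comp_apply]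

theorem up_symv_chan {q : ℕ} (h ν x : Vec q) (lam : ℝ) :
    symv (Ft (Kv lam h) (Kv lam ν)) x = symv (Ft h ν) (Kv lam x) := by
  unfold symv
  simp only [← Ft_chan, up_Kv_perm]

theorem up_Kv_one (lam : ℝ) : Kv lam (1 : Vec 3) = 1 := by
  funext i
  rw [Kv_apply, up_sm3]
  simp only [Pi.one_apply]
  ring

theorem up_rayv_le {h ν : Vec 3} (ht : Test h ν) {t : ℝ} (h0 : -(1 / 2) ≤ t) (h1 : t ≤ 1 / 4) :
    symv (Ft h ν) (rayv t) ≤
      (1 - 4 / 3 * t ^ 2 * (1 - 4 * t) - 32 / 3 * t ^ 2 * (1 + 2 * t)) * Ft h ν 1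
      + 4 / 3 * t ^ 2 * (1 - 4 * t) * symv (Ft h ν) Evec
      + 32 / 3 * t ^ 2 * (1 + 2 * t) * symv (Ft h ν) Gvec := by
  have p0 : 1 + t • (![2, -1, -1] : Vec 3) = rayv t := by
    funext i; fin_cases i <;> simp [rayv] <;> ring
  have p1 : 1 + (-(1 / 2) : ℝ) • (![2, -1, -1] : Vec 3) = Evec ∘ Equiv.swap 0 2 := by
    rw [up_comp3]
    funext i; fin_cases i <;> simp [Evec, Equiv.swap_apply_def] <;> norm_num
  have p2 : 1 + (1 / 4 : ℝ) • (![2, -1, -1] : Vec 3) = Gvec := by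
    funext i; fin_cases i <;> simp [Gvec] <;> norm_num
  have n0 : NN (rayv t) := fun i => by fin_cases i <;> simp [rayv] <;> linarith
  have n1 : NN Evec := up_edge_zero ▸ up_NN_edge le_rfl zero_le_one
  have n2 : NN Gvec := fun i => by fin_cases i <;> simp [Gvec] <;> norm_num
  have hr := ray_lemma ht (b := ![2, -1, -1]) (by simp [Fin.sum_univ_three]; norm_num) (τ := t)
    (τ₁ := -(1 / 2)) (τ₂ := 1 / 4) (γ₁ := 4 / 3 * t ^ 2 * (1 - 4 * t))
    (γ₂ := 32 / 3 * t ^ 2 * (1 + 2 * t))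
    (mul_nonneg (by positivity) (by linarith)) (mul_nonneg (by positivity) (by linarith))
    (by ring) (by ring) (p0 ▸ n0) (p1 ▸ up_NN_perm n1 _) (p2 ▸ n2)
  rwa [p0, p1, p2, symv_perm] at hr

/-- after the channel, the erasure mixture is dominated by a mixture of `E` and `G` -/
theorem DomEC.chan_ln {P : Ex.{u} 3} {T v l lam : ℝ} (h : DomEC P T v) (h0 : 0 ≤ v) (h1 : v ≤ T)
    (h2 : T ≤ 1) (hl : l ≤ 1 / 2) (hlam : -l ≤ lam) (hlam0 : lam ≤ 0) (hc : ChanOK 3 lam)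
    (hm : MixOK (wEG (l ^ 2 * muE l T v) (l ^ 2 * muG l T v)) aEG) :
    Ln (P.chan lam hc) (symMix _ _ hm) := by
  have _ := h2
  have hl0 : 0 ≤ l := by linarith
  have hc' : ChanOK 3 (-l) := ⟨by norm_num, by linarith, by push_cast; linarith⟩
  refine (up_ln_chan P hlam hlam0 hc hc').trans fun a b ht => ?_
  rw [E_chan, E_symMix hm (good_Ft ht)]
  simp only [Ft_chan]
  refine (h _ _ (ht.chan hc')).trans ?_
  have eV : Kv (-l) Vvec = rayv (-l) := by
    funext i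
    rw [Kv_apply, up_sm3]
    fin_cases i <;> simp [Vvec, rayv]
    ring
  have eE : Kv (-l) Evec = rayv (l / 2) ∘ Equiv.swap 0 2 := by
    rw [up_comp3]
    funext i
    rw [Kv_apply, up_sm3]
    fin_cases i <;> simp [Evec, rayv, Equiv.swap_apply_def] <;> ring
  rw [up_symv_chan, up_symv_chan, ← Ft_chan, up_Kv_one, eV, eE, symv_perm, Fin.sum_univ_three]
  have k1 := mul_le_mul_of_nonneg_left (up_rayv_le ht (t := -l) (by linarith) (by linarith)) h0
  have k2 := mul_le_mul_of_nonneg_left (up_rayv_le ht (t := l / 2) (by linarith) (by linarith))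
    (sub_nonneg.2 h1)
  simp only [wEG, aEG, Matrix.cons_val_zero, Matrix.cons_val_one, Matrix.cons_val_two,
    Matrix.head_cons, Matrix.tail_cons, up_symv_one, muE, muG]
  nlinarith [k1, k2]

theorem up_sum_wN (m : ℕ) (t S : ℕ → ℝ) :
    ∑ j : Fin (m + 1), (t j - (if (j : ℕ) = m then 0 else t (j + 1))) * S j
      = t 0 * S 0 + ∑ j ∈ Finset.range m, t (j + 1) * (S (j + 1) - S j) := by
  rw [Fin.sum_univ_eq_sum_range (fun j => (t j - (if j = m then 0 else t (j + 1))) * S j) (m + 1)]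
  simp only [sub_mul, mul_sub, Finset.sum_sub_distrib]
  have e : ∑ j ∈ Finset.range m, (if j = m then 0 else t (j + 1)) * S j
      = ∑ j ∈ Finset.range m, t (j + 1) * S j :=
    Finset.sum_congr rfl fun j hj => by rw [if_neg (Finset.mem_range.mp hj).ne]
  rw [Finset.sum_range_succ' (fun j => t j * S j), Finset.sum_range_succ, if_pos rfl, zero_mul,
    add_zero, e]
  ring

theorem mixOK_N {m : ℕ} {δ t : ℕ → ℝ} (hδ : Nodes m δ) (ht : Tails m t) {lam : ℝ}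
    (hc : ChanOK 3 lam) : MixOK (wN m t) (aN m δ lam) := by
  refine ⟨by norm_num, fun i => ?_, fun i => ?_, ?_⟩
  · rcases i with _ | j
    · exact sub_nonneg.2 ht.1
    · simp only [wN]
      split_ifs with h
      · rw [h, sub_zero]; exact ht.2.2
      · exact sub_nonneg.2 (ht.2.1 j (by have := j.2; omega))
  · rcases i with _ | j
    · exact up_NN_one
    · have hj : (j : ℕ) ≤ m := by have := j.2; omega
      exact Kv_nonneg hc (up_NN_edge (hδ.up_nonneg hj) (hδ.up_le_one hj))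
  · have e1 : ∀ d, sm (edgev d) = 1 := fun d => by
      rw [up_sm3]; simp [edgev]; ring
    have e2 : sm (1 : Vec 3) = 1 := by rw [up_sm3]; norm_num
    rw [Fintype.sum_option]
    simp only [wN, aN, sm_Kv (by norm_num : 0 < 3), e1, e2]
    rw [up_sum_wN m t fun _ => 1]
    simp

theorem DomN.chan_ln {P : Ex.{u} 3} {m : ℕ} {δ t : ℕ → ℝ} (h : DomN P m δ t) (hδ : Nodes m δ)
    (ht : Tails m t) {lam lam' : ℝ} (hlam : lam' ≤ lam) (hlam0 : lam ≤ 0) (hc : ChanOK 3 lam)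
    (hc' : ChanOK 3 lam') : Ln (P.chan lam hc) (symMix _ _ (mixOK_N hδ ht hc')) := by
  refine (up_ln_chan P hlam hlam0 hc hc').trans fun a b hab => ?_
  rw [E_chan, E_symMix _ (good_Ft hab)]
  simp only [Ft_chan]
  refine (h _ _ (hab.chan hc')).trans (le_of_eq ?_)
  rw [Fintype.sum_option]
  simp only [wN, aN, up_symv_chan, up_symv_one, ← Ft_chan, up_Kv_one]
  rw [up_sum_wN m t fun j => symv (Ft a b) (Kv lam' (edgev (δ j)))]
  ring

end Crest.Agent.R163
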